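import Vale.Agent.P199.Deletion.PerturbRow
import Vale.Agent.P199.Minimise.Arc

/-!
P199, deletion: perturbing an arc below a row. A tangent of the rows before `j` may be added at any order from one on;
those rows are solved again in projection at the higher orders, and row `j` changes at that order by its differential.
-/

namespace Vale.Agent.P199

open Module

noncomputable section

namespace Poly

variable {R : Type} [Ring R]

/-- Changing one coefficient changes the evaluation at that order by the differential. -/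
theorem coeff_ev_add_at {v v' : Var → PowerSeries R} {p : ℕ} (hp : 1 ≤ p) {δ : Var → R}
    (hlow : ∀ k < p, cf k v' = cf k v) (hat : cf p v' = cf p v + δ) (q : Poly) :
    (∀ k < p, PowerSeries.coeff k (ev v' q) = PowerSeries.coeff k (ev v q)) ∧
      PowerSeries.coeff p (ev v' q) = PowerSeries.coeff p (ev v q) + d1 (cf 0 v) δ q := by
  have h0 : cf 0 v' = cf 0 v := hlow 0 hp
  rcases eq_or_lt_of_le hp with rfl | hp2
  · refine ⟨fun k hk => ?_, ?_⟩
    · rw [Nat.lt_one_iff.1 hk, coeff_zero_ev, coeff_zero_ev, h0]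
    · rw [coeff_one_ev, coeff_one_ev, h0, hat, d1_add_dir]
  · have hcut : cut p v' = cut p v := cut_congr hlow
    refine ⟨fun k hk => ?_, ?_⟩
    · rw [(ev_sub_ev_cut v' hp2 q).1 k hk, (ev_sub_ev_cut v hp2 q).1 k hk, hcut]
    · rw [(ev_sub_ev_cut v' hp2 q).2.1, (ev_sub_ev_cut v hp2 q).2.1, hcut, h0, hat, d1_add_dir]
      abel

end Poly

namespace Minimise

open SeriesPoint

variable {L : Listing} {n : ℕ} {P : Pt}

/-- **Perturbation of an arc below a row.** -/
theorem exists_perturb_arc (r : Rows L n P) (j : Fin n) (ht : (r.trunc j.2.le).Tight)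
    (hg : ∀ i < (j : ℕ), L.Guarded i) (X : ℕ → Bool → P.D) (Cs : ℕ → ℕ → P.K) (hX : X 0 = P.xy)
    (hC : Cs 0 = P.c) {p : ℕ} (hp : 1 ≤ p)
    (hproj : ∀ i : Fin n, i < j → ∀ k ≤ p,
      r.projF i (PowerSeries.coeff k (Poly.ev (ser X Cs) (L.eqn i))) = 0)
    {t₀ : Rows.Amb P} (ht₀ : t₀ ∈ (r.trunc j.2.le).T) (s : P.K) :
    ∃ (X' : ℕ → Bool → P.D) (Cs' : ℕ → ℕ → P.K), X' 0 = P.xy ∧ Cs' 0 = P.c ∧
      (∀ k ≤ p, Cs' k = Cs k) ∧ (∀ k i, L.b j ≤ i → Cs' k i = Cs k i) ∧
      (∀ i : Fin n, i < j → ∀ k,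
        r.projF i (PowerSeries.coeff k (Poly.ev (ser X' Cs') (L.eqn i))) = 0) ∧
      (∀ k < p, PowerSeries.coeff k (Poly.ev (ser X' Cs') (L.eqn j)) =
        PowerSeries.coeff k (Poly.ev (ser X Cs) (L.eqn j))) ∧
      PowerSeries.coeff p (Poly.ev (ser X' Cs') (L.eqn j)) =
        PowerSeries.coeff p (Poly.ev (ser X Cs) (L.eqn j)) + s • P.dEq L (L.b n) j (t₀, 0) := by
  have hi : (j : ℕ) ≤ n := j.2.le
  set r' := r.trunc hi with hr'
  let A : ℕ → P.Dir (L.b j) := fun k =>
    (if k = p then X k + s • t₀ else X k, fun i => Cs k i)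
  let err : (m : ℕ) → (Fin m → P.Dir (L.b j)) → (i : Fin j) → ↥(r'.W i ⊔ r'.Pp i) := fun m prev i =>
    ⟨r'.projF i (PowerSeries.coeff m
      (Poly.ev (ser (arcX P (pad prev)) (arcC P (pad prev))) (L.eqn i))), r'.projF_mem i _⟩
  obtain ⟨v, hv⟩ := Vale.P199.Valued.exists_seq
    (fun m prev x => (m ≤ p → x = A m) ∧ (p < m → r'.Jf x = -err m prev)) fun m prev _ => by
      by_cases hm : m ≤ p
      · exact ⟨A m, fun _ => rfl, fun h => absurd hm (by omega)⟩
      · obtain ⟨x, hx⟩ := ht.surj (-err m prev)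
        exact ⟨x, fun h => absurd h hm, fun _ => hx⟩
  let Cs' : ℕ → ℕ → P.K := fun k i => if 0 < k ∧ i < L.b j then arcC P v k i else Cs k i
  have hA : ∀ k ≤ p, v k = A k := fun k hk => (hv k).1 hk
  have hX' : ∀ k ≤ p, arcX P v k = if k = p then X k + s • t₀ else X k := fun k hk => by
    rcases Nat.eq_zero_or_pos k with rfl | hk0
    · rw [if_neg (by omega), hX]; exact if_pos rfl
    · rw [arcX, if_neg hk0.ne', hA k hk]
  have hC' : ∀ k ≤ p, Cs' k = Cs k := fun k hk => funext fun i => by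
    show (if 0 < k ∧ i < L.b j then arcC P v k i else Cs k i) = _
    split
    · rename_i h
      rw [arcC, if_neg h.1.ne', dif_pos h.2, hA k hk]
    · rfl
  have hlow : ∀ k < p, Poly.cf k (ser (arcX P v) Cs') = Poly.cf k (ser X Cs) := fun k hk => by
    rw [cf_ser, cf_ser, hC' k hk.le, hX' k hk.le, if_neg hk.ne]
  have hat : Poly.cf p (ser (arcX P v) Cs') =
      Poly.cf p (ser X Cs) + P.dirVal (N := L.b n) (s • t₀, 0) := by
    rw [cf_ser, cf_ser, hC' p le_rfl, hX' p le_rfl, if_pos rfl]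
    funext z
    cases z with
    | inl a => rfl
    | inr i => by_cases hb : i < L.b n <;> simp [Pt.dirVal, hb]
  have hd : ∀ i : ℕ, Poly.d1 (Poly.cf 0 (ser X Cs)) (P.dirVal (N := L.b n) (s • t₀, 0)) (L.eqn i) =
      s • P.dEq L (L.b n) i (t₀, 0) := fun i => by
    rw [cf_ser_zero X Cs hX hC, ← map_smul, Prod.smul_mk, smul_zero]
    rfl
  refine ⟨arcX P v, Cs', if_pos rfl, by rw [hC' 0 (Nat.zero_le _), hC], hC', fun k i hb => ?_,
    fun i hij k => ?_, (Poly.coeff_ev_add_at hp hlow hat _).1, ?_⟩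
  · show (if 0 < k ∧ i < L.b j then arcC P v k i else Cs k i) = _
    rw [if_neg fun h => absurd h.2 (by omega)]
  · rcases lt_trichotomy k p with hk | rfl | hk
    · rw [(Poly.coeff_ev_add_at hp hlow hat _).1 k hk]
      exact hproj i hij k hk.le
    · rw [(Poly.coeff_ev_add_at hp hlow hat _).2, hd, P.dEq_ambient L (L.b n) (L.b j),
        show P.dEq L (L.b j) i (t₀, 0) = 0 from ht.fixed t₀ ht₀ ⟨i, hij⟩, smul_zero, add_zero]
      exact hproj i hij k le_rfl
    · have hk2 : 2 ≤ k := by omega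
      have hk0 : k ≠ 0 := by omega
      have he : Poly.ev (ser (arcX P v) Cs') (L.eqn i) =
          Poly.ev (ser (arcX P v) (arcC P v)) (L.eqn i) :=
        L.ev_eqn_congr (R := PowerSeries P.D) (hg i hij) (fun a => rfl) fun l hl => by
          have hlj : l < L.b j := hl.trans_le (NewRow.b_mono L hij)
          refine PowerSeries.ext fun m => ?_
          simp only [ser, PowerSeries.coeff_mk]
          rcases Nat.eq_zero_or_pos m with rfl | hm
          · simp [Cs', hC, arcC]
          · simp [Cs', hm, hlj]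
      rw [he, (Poly.ev_sub_ev_cut _ hk2 (L.eqn i)).2.1, cf_arc_zero, cf_arc v hk0, cut_arc v hk0,
        map_add]
      have h := congrArg Subtype.val (congrFun ((hv k).2 hk) ⟨i, hij⟩)
      exact eq_neg_iff_add_eq_zero.1 h
  · rw [(Poly.coeff_ev_add_at hp hlow hat _).2, hd]

end Minimise

end

end Vale.Agent.P199
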