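import Vale.Agent.P199.Deletion.Probe
import Vale.Agent.P199.Deletion.ArcPerturb
import Vale.Agent.P199.LiftStep
import Vale.Agent.P199.Lift.BaseChange

/-!
P199, DELETION: vanishing projections force vanishing coefficients, along arcs and along lifts, by induction on the rows
and on the order. A row is killed either directly (its error is a scalar of the row up to a linked motion) or through a
probe, KEY being applied to the series perturbed in the directions of the probe.
-/

namespace Vale.Agent.P199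

open Module

noncomputable section

namespace LiftSeries

variable {P P₁ : Pt} (E : Ext P P₁) {L : Listing} {n : ℕ} (r : Rows L n P) (a b : Rows.Amb P)
  (U V : P₁.D)

/-- Row `j` is killed at lifts: if the rows before it are solved and its coefficients below an order vanish, the
coefficient at this order is a linked motion up to a scalar of the row. -/
def RowKill (j : Fin n) : Prop :=
  ∀ (w : ℕ → P₁.Dir (L.b n)) (m : ℕ),
    (∀ i : Fin n, i < j → ∀ k, err E a b U V w k i = 0) →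
    (∀ k < m + 2, err E a b U V w k j = 0) →
    ∃ β ∈ P₁.scalars L j, err E a b U V w (m + 2) j - β ∈ (baseRows E r).W j

/-- The statement of KEY at lifts: with the symbols fixed up to the order, a shift by a scalar of the row makes every
error of full degree small. -/
def RowKey (j : Fin n) {W : Submodule P₁.K P₁.D} (Pr : Deletion.Probe (P₁.q L j) (L.e j) W) : Prop :=
  ∀ (w : ℕ → P₁.Dir (L.b n)) (m : ℕ),
    (∀ i : Fin n, i < j → ∀ k, err E a b U V w k i = 0) →
    ∃ β ∈ P₁.scalars L j, ∀ w' : ℕ → P₁.Dir (L.b n), (∀ k ≤ m + 2, CW w' k = CW w k) →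
      (∀ i : Fin n, i < j → ∀ k, err E a b U V w' k i = 0) →
      (∀ k < m + 2, err E a b U V w' k j = 0) →
      Deletion.Gen (P₁.q L j) (L.e j) Pr.N (err E a b U V w' (m + 2) j) →
      Deletion.Small Pr.F Pr.d (Pr.ρ⁻¹ * (err E a b U V w' (m + 2) j - β))

variable {a b U V}

/-- **A moving row is killed**: KEY at the series perturbed in the directions of a probe. -/
theorem rowKill_of_probe (h : LiftData E r a b U V) (j : Fin n) (ht : (r.trunc j.2.le).Tight)
    (ha : (r.trunc j.2.le).Alternating) (hg : ∀ i < (j : ℕ), L.Guarded i) (hS : P.Solves L j)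
    (hpre : ∀ w : ℕ → P₁.Dir (L.b n),
      (∀ i : Fin n, i < j → ∀ k, PF E r i (err E a b U V w k i) = 0) →
      ∀ i : Fin n, i < j → ∀ k, err E a b U V w k i = 0)
    (Pr : Deletion.Probe (P₁.q L j) (L.e j) ((baseRows E r).W j))
    (hG : ∀ x ∈ Pr.G, ∃ t₀ ∈ (r.trunc j.2.le).T, ∃ M ∈ monSpan E,
      E.iD (P.dEq L (L.b n) j (t₀, 0)) * M = Pr.ρ * x)
    (hkey : RowKey E a b U V j Pr) : RowKill E r a b U V j := by
  intro w m hrows hlow
  obtain ⟨β, hβ, hkey'⟩ := hkey w m hrows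
  refine ⟨β, hβ, Pr.sub_mem ?_ (Deletion.commute_scalars hβ) fun x hx s hgen => ?_⟩
  · exact Deletion.commute_coeff (L := L) j (XW E a b U V w) (CW w) rfl rfl hlow
  · obtain ⟨t₀, ht₀, M, hM, he⟩ := hG x hx
    obtain ⟨w', hC, hproj, hlow', hat⟩ := exists_perturb_row E r h j ht ha hg hS w
      (fun i hi k => by rw [hrows i hi k, map_zero]) hM ht₀ m s
    rw [he] at hat
    rw [← hat] at hgen ⊢
    exact hkey' w' hC (hpre w' hproj) (fun k hk => by rw [hlow' k hk, hlow k hk]) hgen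

/-- One row with vanishing projection and killed coefficients vanishes. -/
theorem err_eq_zero_row (hS : P.Solves L n) (h : LiftData E r a b U V) (j : Fin n)
    (hkill : RowKill E r a b U V j) (w : ℕ → P₁.Dir (L.b n))
    (hrows : ∀ i : Fin n, i < j → ∀ k, err E a b U V w k i = 0)
    (hproj : ∀ k, PF E r j (err E a b U V w k j) = 0) : ∀ k, err E a b U V w k j = 0 := by
  intro k
  induction k using Nat.strong_induction_on with
  | _ k ih =>
    match k with
    | 0 => rw [err, Poly.coeff_zero_ev, cf_serW_zero, val_eq E, ← Poly.ev_map E.iD, hS j j.2, map_zero]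
    | 1 =>
      rw [err, Poly.coeff_one_ev, cf_serW_zero, cf_serW_one, dirVal_X1, Poly.d1_add_dir, val_eq E,
        ← Poly.map_d1 _ _ E.iD U (comm_mem E h.memU), ← Poly.map_d1 _ _ E.iD V (comm_mem E h.memV)]
      have ha := h.tight.fixed a h.memA j
      have hb := h.tight.fixed b h.memB j
      change Poly.d1 P.val _ _ = 0 at ha hb
      rw [ha, hb, map_zero, zero_mul, zero_mul, add_zero]
    | m + 2 =>
      obtain ⟨β, hβ, hW⟩ := hkill w m hrows fun i hi => ih i hi
      exact Deletion.eq_zero_of_kill (baseRows E r) j (hproj (m + 2)) hβ hW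

/-- **DELETION at lifts**: the rows are killed one after another. -/
theorem deletes_of_kill (hS : P.Solves L n) (h : LiftData E r a b U V)
    (hkill : ∀ j : Fin n,
      (∀ w : ℕ → P₁.Dir (L.b n), (∀ i : Fin n, i < j → ∀ k, PF E r i (err E a b U V w k i) = 0) →
        ∀ i : Fin n, i < j → ∀ k, err E a b U V w k i = 0) →
      RowKill E r a b U V j)
    (w : ℕ → P₁.Dir (L.b n)) (hw : ∀ (j : Fin n) k, PF E r j (err E a b U V w k j) = 0) :
    ∀ (j : Fin n) k, err E a b U V w k j = 0 := by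
  suffices H : ∀ (i : ℕ) (w : ℕ → P₁.Dir (L.b n)),
      (∀ l : Fin n, (l : ℕ) < i → ∀ k, PF E r l (err E a b U V w k l) = 0) →
      ∀ l : Fin n, (l : ℕ) < i → ∀ k, err E a b U V w k l = 0 from
    fun j k => H n w (fun l _ k => hw l k) j j.2 k
  intro i
  induction i with
  | zero => exact fun _ _ l hl => absurd hl (Nat.not_lt_zero _)
  | succ i ih =>
    intro w hw l hl
    rcases Nat.lt_succ_iff_lt_or_eq.1 hl with hl' | rfl
    · exact ih w (fun l' hl'' => hw l' (Nat.lt_succ_of_lt hl'')) l hl'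
    · exact err_eq_zero_row E r hS h l (hkill l ih) w
        (fun l' hl' => ih w (fun l'' hl'' => hw l'' (Nat.lt_succ_of_lt hl'')) l' hl') (hw l hl)

end LiftSeries

/-- DELETION at the lift of a stage, in the form the step asks for. -/
theorem Rows.deletesAt_of_kill {P : Pt} {L : Listing} {n : ℕ} (r : Rows L n P) (S : SymData P)
    (a b : Rows.Amb P) (hS : P.Solves L n) (h : LiftSeries.LiftData S.ext r a b S.U S.V)
    (hkill : ∀ j : Fin n,
      (∀ w : ℕ → S.pt.Dir (L.b n), (∀ i : Fin n, i < j → ∀ k,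
          LiftSeries.PF S.ext r i (LiftSeries.err S.ext a b S.U S.V w k i) = 0) →
        ∀ i : Fin n, i < j → ∀ k, LiftSeries.err S.ext a b S.U S.V w k i = 0) →
      LiftSeries.RowKill S.ext r a b S.U S.V j) :
    r.DeletesAt S a b :=
  LiftSeries.deletes_of_kill S.ext r hS h hkill

namespace Minimise

open SeriesPoint

variable {P : Pt} {L : Listing} {n : ℕ} (r : Rows L n P)


/-- Row `j` is killed along arcs. -/
def ArcKill (j : Fin n) : Prop :=
  ∀ (X : ℕ → Bool → P.D) (Cs : ℕ → ℕ → P.K), X 0 = P.xy → Cs 0 = P.c →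
    (∀ m i, 0 < m → L.b n ≤ i → Cs m i = 0) → ∀ p, 1 ≤ p →
    (∀ i : Fin n, i < j → ∀ k ≤ p, (PowerSeries.coeff k (Poly.ev (SeriesPoint.ser X Cs) (L.eqn i))) = 0) → (∀ k < p, (PowerSeries.coeff k (Poly.ev (SeriesPoint.ser X Cs) (L.eqn j))) = 0) →
    ∃ β ∈ P.scalars L j, (PowerSeries.coeff p (Poly.ev (SeriesPoint.ser X Cs) (L.eqn j))) - β ∈ r.W j

/-- The statement of KEY along arcs. -/
def ArcKey (j : Fin n) {W : Submodule P.K P.D} (Pr : Deletion.Probe (P.q L j) (L.e j) W) : Prop :=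
  ∀ (Cs : ℕ → ℕ → P.K) (p : ℕ), Cs 0 = P.c → (∀ m i, 0 < m → L.b n ≤ i → Cs m i = 0) → 1 ≤ p →
    ∃ β ∈ P.scalars L j, ∀ (X' : ℕ → Bool → P.D) (Cs' : ℕ → ℕ → P.K), X' 0 = P.xy → Cs' 0 = P.c →
      (∀ m i, 0 < m → L.b n ≤ i → Cs' m i = 0) → (∀ k ≤ p, Cs' k = Cs k) →
      (∀ i : Fin n, i < j → ∀ k, (PowerSeries.coeff k (Poly.ev (SeriesPoint.ser X' Cs') (L.eqn i))) = 0) → (∀ k < p, (PowerSeries.coeff k (Poly.ev (SeriesPoint.ser X' Cs') (L.eqn j))) = 0) →
      Deletion.Gen (P.q L j) (L.e j) Pr.N ((PowerSeries.coeff p (Poly.ev (SeriesPoint.ser X' Cs') (L.eqn j)))) →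
      Deletion.Small Pr.F Pr.d (Pr.ρ⁻¹ * ((PowerSeries.coeff p (Poly.ev (SeriesPoint.ser X' Cs') (L.eqn j))) - β))

/-- The rows before `j` are deleted along arcs. -/
def ArcPre (j : Fin n) : Prop :=
  ∀ (X : ℕ → Bool → P.D) (Cs : ℕ → ℕ → P.K), X 0 = P.xy → Cs 0 = P.c →
    (∀ m i, 0 < m → L.b n ≤ i → Cs m i = 0) → ∀ m,
    (∀ i : Fin n, i < j → ∀ k ≤ m, r.projF i ((PowerSeries.coeff k (Poly.ev (SeriesPoint.ser X Cs) (L.eqn i)))) = 0) →
    ∀ i : Fin n, i < j → ∀ k ≤ m, (PowerSeries.coeff k (Poly.ev (SeriesPoint.ser X Cs) (L.eqn i))) = 0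

/-- **A moving row is killed along arcs.** -/
theorem arcKill_of_probe (j : Fin n) (ht : (r.trunc j.2.le).Tight)
    (hg : ∀ i < (j : ℕ), L.Guarded i) (hpre : ArcPre r j)
    (Pr : Deletion.Probe (P.q L j) (L.e j) (r.W j))
    (hG : ∀ x ∈ Pr.G, ∃ t₀ ∈ (r.trunc j.2.le).T, P.dEq L (L.b n) j (t₀, 0) = Pr.ρ * x)
    (hkey : ArcKey j Pr) : ArcKill r j := by
  intro X Cs hX hC hz p hp hrows hlow
  obtain ⟨β, hβ, hkey'⟩ := hkey Cs p hC hz hp
  refine ⟨β, hβ, Pr.sub_mem (Deletion.commute_coeff (L := L) j X Cs hX hC hlow)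
    (Deletion.commute_scalars hβ) fun x hx s hgen => ?_⟩
  obtain ⟨t₀, ht₀, he⟩ := hG x hx
  obtain ⟨X', Cs', hX', hC', hCs, hfix, hproj, hlow', hat⟩ := exists_perturb_arc r j ht hg X Cs hX hC
    hp (fun i hi k hk => by rw [hrows i hi k hk, map_zero]) ht₀ s
  rw [he] at hat
  rw [← hat] at hgen ⊢
  have hz' : ∀ m i, 0 < m → L.b n ≤ i → Cs' m i = 0 := fun m i hm hi => by
    rw [hfix m i ((NewRow.b_mono L j.2.le).trans hi), hz m i hm hi]
  exact hkey' X' Cs' hX' hC' hz' hCs
    (fun i hi k => hpre X' Cs' hX' hC' hz' k (fun i' hi' k' _ => hproj i' hi' k') i hi k le_rfl)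
    (fun k hk => by rw [hlow' k hk, hlow k hk]) hgen

/-- **DELETION along arcs**: the rows are killed one after another. -/
theorem deletes_of_kill (hS : P.Solves L n) (hkill : ∀ j : Fin n, ArcPre r j → ArcKill r j) :
    r.Deletes := by
  suffices H : ∀ (i : ℕ) (X : ℕ → Bool → P.D) (Cs : ℕ → ℕ → P.K), X 0 = P.xy → Cs 0 = P.c →
      (∀ m i, 0 < m → L.b n ≤ i → Cs m i = 0) → ∀ m,
      (∀ l : Fin n, (l : ℕ) < i → ∀ k ≤ m, r.projF l ((PowerSeries.coeff k (Poly.ev (SeriesPoint.ser X Cs) (L.eqn l)))) = 0) →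
      ∀ l : Fin n, (l : ℕ) < i → ∀ k ≤ m, (PowerSeries.coeff k (Poly.ev (SeriesPoint.ser X Cs) (L.eqn l))) = 0 from
    fun X Cs hX hC hz m hp j => H n X Cs hX hC hz m (fun l _ => hp l) j j.2 m le_rfl
  intro i
  induction i with
  | zero => exact fun _ _ _ _ _ _ _ l hl => absurd hl (Nat.not_lt_zero _)
  | succ i ih =>
    intro X Cs hX hC hz m hw l hl
    rcases Nat.lt_succ_iff_lt_or_eq.1 hl with hl' | rfl
    · exact ih X Cs hX hC hz m (fun l' hl'' => hw l' (Nat.lt_succ_of_lt hl'')) l hl'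
    · intro k
      induction k using Nat.strong_induction_on with
      | _ k ihk =>
        intro hk
        rcases Nat.eq_zero_or_pos k with rfl | hk0
        · rw [Poly.coeff_zero_ev, cf_ser_zero X Cs hX hC, hS l l.2]
        · obtain ⟨β, hβ, hW⟩ := hkill l ih X Cs hX hC hz k hk0
            (fun l' hl' k' hk' => ih X Cs hX hC hz k
              (fun l'' hl'' k'' hk'' => hw l'' (Nat.lt_succ_of_lt hl'') k'' (hk''.trans hk)) l' hl' k' hk')
            fun k' hk' => ihk k' hk' (hk'.le.trans hk)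
          exact Deletion.eq_zero_of_kill r l (hw l hl k hk) hβ hW

end Minimise

end

end Vale.Agent.P199
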