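import Mathlib

/-!
# P199: the roots of a killed deformation

A polynomial over `F[[ε]]` of degree at most `e M` killing, in `e` blocks with distinct residues
`λ i`, deformations `λ i + ε^p Z i` whose leading terms have `M` distinct eigenvalues, splits with
simple roots `λ i + ε^p (ν + O(ε))` in `F[[ε]]`.
-/

namespace Vale.P199.Deletion

open Polynomial

noncomputable section

variable {F : Type*} [Field F]


lemma isUnit_of_cc {a : (PowerSeries F)} (h : (PowerSeries.constantCoeff (R := F)) a ≠ 0) : IsUnit a :=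
  PowerSeries.isUnit_iff_constantCoeff.2 (Ne.isUnit h)

/-- Hensel's lemma for a simple root of a polynomial that need not be monic. -/
theorem hensel (g : ((PowerSeries F))[X]) {a : F} (h0 : (g.map (PowerSeries.constantCoeff (R := F))).eval a = 0)
    (h1 : (g.map (PowerSeries.constantCoeff (R := F))).derivative.eval a ≠ 0) : ∃ z : (PowerSeries F), g.eval z = 0 ∧ (PowerSeries.constantCoeff (R := F)) z = a := by
  classical
  let H := taylor (PowerSeries.C a) g
  have hc0 : (PowerSeries.constantCoeff (R := F)) (H.coeff 0) = 0 := by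
    rw [taylor_coeff_zero, ← eval₂_at_apply, PowerSeries.constantCoeff_C, ← eval_map, h0]
  have hu : IsUnit (H.coeff 1) := isUnit_of_cc (by
    rw [taylor_coeff_one, ← eval₂_at_apply, PowerSeries.constantCoeff_C, ← eval_map, ← derivative_map]
    exact h1)
  obtain ⟨u, hu⟩ := hu
  let w : (PowerSeries F) := -(H.coeff 0) * ↑u⁻¹
  let n := H.natDegree + 2
  -- the monic polynomial satisfied by the inverse
  let tail : ((PowerSeries F))[X] :=
    ∑ k ∈ Finset.range n, C (if 2 ≤ k then H.coeff k * w ^ (k - 1) * ↑u⁻¹ else 0) * X ^ (n - k)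
  let G : ((PowerSeries F))[X] := X ^ n - X ^ (n - 1) - tail
  have htail : tail.degree < (n : ℕ) := by
    refine (degree_sum_le _ _).trans_lt ((Finset.sup_lt_iff (WithBot.bot_lt_coe _)).2 fun k _ => ?_)
    split_ifs with hk
    · exact (degree_C_mul_X_pow_le _ _).trans_lt (Nat.cast_lt.2 (by simp only [n]; omega))
    · simp
  have hG : G.Monic := by
    refine Monic.sub_of_left (Monic.sub_of_left (monic_X_pow n) ?_) ?_
    · rw [degree_X_pow, degree_X_pow]
      exact Nat.cast_lt.2 (by simp only [n]; omega)
    · rw [degree_sub_eq_left_of_degree_lt, degree_X_pow]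
      · exact htail
      · rw [degree_X_pow, degree_X_pow]
        exact Nat.cast_lt.2 (by simp only [n]; omega)
  have hw : (PowerSeries.constantCoeff (R := F)) w = 0 := by simp [w, hc0]
  have hG1 : G.map (PowerSeries.constantCoeff (R := F)) = X ^ n - X ^ (n - 1) := by
    have ht : tail.map (PowerSeries.constantCoeff (R := F)) = 0 := by
      rw [Polynomial.map_sum]
      refine Finset.sum_eq_zero fun k _ => ?_
      split_ifs with hk
      · simp [hw, zero_pow (show k - 1 ≠ 0 by omega)]
      · simp
    simp [G, ht]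
  obtain ⟨V, hV, hV1⟩ := HenselianRing.is_henselian (I := Ideal.span {(PowerSeries.X : (PowerSeries F))}) G hG 1
    (by
      rw [Ideal.mem_span_singleton, PowerSeries.X_dvd_iff, ← eval₂_at_apply, ← eval_map, hG1]
      simp)
    (IsUnit.map _ (isUnit_of_cc (by
      rw [← eval₂_at_apply, ← eval_map, ← derivative_map, hG1, map_one]
      simp only [derivative_sub, derivative_X_pow, eval_sub, eval_mul, eval_C, eval_pow, eval_X,
        one_pow, mul_one]
      rw [Nat.cast_sub (show 1 ≤ n by simp only [n]; omega)]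
      simp)))
  have hVc : (PowerSeries.constantCoeff (R := F)) V = 1 := by
    rw [Ideal.mem_span_singleton, PowerSeries.X_dvd_iff, map_sub, map_one, sub_eq_zero] at hV1
    exact hV1
  obtain ⟨v, hv⟩ := isUnit_of_cc (F := F) (a := V) (by rw [hVc]; exact one_ne_zero)
  refine ⟨PowerSeries.C a + w * ↑v⁻¹, ?_, by simp [hw]⟩
  rw [add_comm, ← taylor_eval]
  change H.eval (w * ↑v⁻¹) = 0
  have hn : H.natDegree < n := by simp only [n]; omega
  rw [eval_eq_sum_range' hn]
  refine (Units.mul_left_eq_zero (v ^ n)).1 ?_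
  have hterm : ∀ k ∈ Finset.range n, H.coeff k * (w * ↑v⁻¹) ^ k * ↑(v ^ n) =
      H.coeff k * w ^ k * V ^ (n - k) := by
    intro k hk
    have hk' := (Finset.mem_range.1 hk).le
    rw [mul_pow, ← hv, Units.val_pow_eq_pow_val,
      show (v : (PowerSeries F)) ^ n = (v : (PowerSeries F)) ^ k * (v : (PowerSeries F)) ^ (n - k) by rw [← pow_add, Nat.add_sub_cancel' hk']]
    rw [show H.coeff k * (w ^ k * (↑v⁻¹ : (PowerSeries F)) ^ k) * ((v : (PowerSeries F)) ^ k * (v : (PowerSeries F)) ^ (n - k)) =
      H.coeff k * w ^ k * (v : (PowerSeries F)) ^ (n - k) * ((↑v⁻¹ : (PowerSeries F)) * v) ^ k by ring]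
    simp
  rw [Finset.sum_mul, Finset.sum_congr rfl hterm]
  -- compare with the monic equation
  have hV' : V ^ n - V ^ (n - 1) - ∑ k ∈ Finset.range n,
      (if 2 ≤ k then H.coeff k * w ^ (k - 1) * ↑u⁻¹ else 0) * V ^ (n - k) = 0 := by
    simpa [G, tail, IsRoot, eval_finsetSum] using hV
  have hsplit : ∀ f : ℕ → (PowerSeries F), ∑ k ∈ Finset.range n, f k =
      f 0 + f 1 + ∑ k ∈ Finset.range n, if 2 ≤ k then f k else 0 := by
    intro f
    rw [← Finset.sum_filter, show f 0 + f 1 = ∑ k ∈ (Finset.range n).filter (fun k => ¬2 ≤ k), f k from ?_,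
      add_comm, Finset.sum_filter_add_sum_filter_not]
    rw [show (Finset.range n).filter (fun k => ¬2 ≤ k) = {0, 1} by
      ext k; simp only [Finset.mem_filter, Finset.mem_range, Finset.mem_insert, Finset.mem_singleton, n]
      omega]
    simp
  have h0w : H.coeff 0 = -w * H.coeff 1 := by
    simp only [w, ← hu, neg_mul, neg_neg, mul_assoc, Units.inv_mul, mul_one]
  rw [hsplit, pow_zero, pow_one, mul_one, h0w, Nat.sub_zero]
  have hT : (∑ k ∈ Finset.range n, if 2 ≤ k then H.coeff k * w ^ k * V ^ (n - k) else 0) =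
      w * H.coeff 1 * ∑ k ∈ Finset.range n,
        (if 2 ≤ k then H.coeff k * w ^ (k - 1) * ↑u⁻¹ else 0) * V ^ (n - k) := by
    rw [Finset.mul_sum]
    refine Finset.sum_congr rfl fun k _ => ?_
    split_ifs with hk
    · rw [show w ^ k = w ^ (k - 1) * w by rw [← pow_succ, Nat.sub_add_cancel (by omega)], ← hu]
      rw [show w * (u : (PowerSeries F)) * (H.coeff k * w ^ (k - 1) * ↑u⁻¹ * V ^ (n - k)) =
        H.coeff k * (w ^ (k - 1) * w) * V ^ (n - k) * ((u : (PowerSeries F)) * ↑u⁻¹) by ring, Units.mul_inv, mul_one]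
    · ring
  rw [hT, show (∑ k ∈ Finset.range n, (if 2 ≤ k then H.coeff k * w ^ (k - 1) * ↑u⁻¹ else 0) * V ^ (n - k)) =
    V ^ n - V ^ (n - 1) by linear_combination -hV']
  ring

variable {A : Type*} [Ring A] [Algebra F A]

/-- A deformation killed by `f`: the rescaled polynomial and what it kills. -/
theorem exists_rescaled (f : ((PowerSeries F))[X]) (hf : f.map (PowerSeries.constantCoeff (R := F)) ≠ 0) (lam : (PowerSeries F)) {p : ℕ} (hp : 0 < p) :
    ∃ (n : ℕ) (g : ((PowerSeries F))[X]), f.comp (C (PowerSeries.X ^ p) * X + C lam) = C (PowerSeries.X ^ n) * g ∧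
      g.map (PowerSeries.constantCoeff (R := F)) ≠ 0 ∧ (g.map (PowerSeries.constantCoeff (R := F))).natDegree ≤ (f.map (PowerSeries.constantCoeff (R := F))).rootMultiplicity ((PowerSeries.constantCoeff (R := F)) lam) := by
  classical
  let h := taylor lam f
  let μ := (f.map (PowerSeries.constantCoeff (R := F))).rootMultiplicity ((PowerSeries.constantCoeff (R := F)) lam)
  let c := f.comp (C (PowerSeries.X ^ p) * X + C lam)
  have hcomp : c = h.comp (C (PowerSeries.X ^ p) * X) := by
    simp [c, h, taylor_apply, comp_assoc, add_comp]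
  have hcoeff : ∀ k, c.coeff k = h.coeff k * (PowerSeries.X ^ p) ^ k := fun k => by
    rw [hcomp, comp_C_mul_X_coeff]
  have hh0 : (h.map (PowerSeries.constantCoeff (R := F))).natTrailingDegree = μ := by
    simp only [μ, rootMultiplicity_eq_natTrailingDegree, h, taylor_apply, Polynomial.map_comp,
      Polynomial.map_add, map_X, map_C]
  have hhne : h.map (PowerSeries.constantCoeff (R := F)) ≠ 0 := fun h0 => hf (by
    have : taylor ((PowerSeries.constantCoeff (R := F)) lam) (f.map (PowerSeries.constantCoeff (R := F))) = 0 := by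
      rw [← h0]; simp [h, taylor_apply, Polynomial.map_comp]
    exact taylor_injective _ (by rw [this, map_zero]))
  have hμ : (PowerSeries.constantCoeff (R := F)) (h.coeff μ) ≠ 0 := by
    have := trailingCoeff_nonzero_iff_nonzero.2 hhne
    rwa [trailingCoeff, hh0, coeff_map] at this
  -- the lowest order
  have hex : ∃ m k, PowerSeries.coeff m (c.coeff k) ≠ 0 := by
    refine ⟨p * μ, μ, ?_⟩
    rw [hcoeff, ← pow_mul, PowerSeries.coeff_mul_X_pow', if_pos le_rfl, Nat.sub_self,
      PowerSeries.coeff_zero_eq_constantCoeff_apply]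
    exact hμ
  let n := Nat.find hex
  have hlow : ∀ m < n, ∀ k, PowerSeries.coeff m (c.coeff k) = 0 := fun m hm k =>
    by_contra fun hne => Nat.find_min hex hm ⟨k, hne⟩
  have hdvd : C ((PowerSeries.X : (PowerSeries F)) ^ n) ∣ c :=
    (C_dvd_iff_dvd_coeff _ _).2 fun k => PowerSeries.X_pow_dvd_iff.2 fun m hm => hlow m hm k
  obtain ⟨g, hg⟩ := hdvd
  have hgc : ∀ k, (PowerSeries.constantCoeff (R := F)) (g.coeff k) = PowerSeries.coeff n (c.coeff k) := fun k => by
    rw [hg, coeff_C_mul, PowerSeries.coeff_X_pow_mul', if_pos le_rfl, Nat.sub_self,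
      PowerSeries.coeff_zero_eq_constantCoeff_apply]
  refine ⟨n, g, hg, fun h0 => ?_, natDegree_le_iff_coeff_eq_zero.2 fun k hk => ?_⟩
  · obtain ⟨k, hk⟩ := Nat.find_spec hex
    refine hk ?_
    rw [← hgc, ← coeff_map, h0, coeff_zero]
  · rw [coeff_map, hgc, hcoeff, ← pow_mul, PowerSeries.coeff_mul_X_pow']
    have hn : n ≤ p * μ := Nat.find_min' hex ⟨μ, by
      rw [hcoeff, ← pow_mul, PowerSeries.coeff_mul_X_pow', if_pos le_rfl, Nat.sub_self,
        PowerSeries.coeff_zero_eq_constantCoeff_apply]
      exact hμ⟩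
    have hlt : p * μ < p * k := Nat.mul_lt_mul_of_pos_left hk hp
    rw [if_neg (by omega)]

/-- The rescaled polynomial of `f` at `lam` kills `x`: what it means that `x` is the leading term of a
cluster of `f` at `lam`, of order `p`. -/
def Kills (f : ((PowerSeries F))[X]) (lam : (PowerSeries F)) (p : ℕ) {B : Type*} [Ring B] [Algebra F B] (x : B) : Prop :=
  ∀ (n : ℕ) (g : ((PowerSeries F))[X]), f.comp (C (PowerSeries.X ^ p) * X + C lam) = C (PowerSeries.X ^ n) * g →
    aeval x (g.map (PowerSeries.constantCoeff (R := F))) = 0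

/-- A killed deformation gives `Kills` for its leading term. -/
theorem kills_of_series {f : ((PowerSeries F))[X]} {lam : (PowerSeries F)} {p : ℕ} {B : Type*} [Ring B] [Algebra F B]
    (Z : PowerSeries B) (h : f.eval₂ (PowerSeries.map (algebraMap F B))
      (PowerSeries.map (algebraMap F B) lam + PowerSeries.X ^ p * Z) = 0) :
    Kills f lam p (PowerSeries.constantCoeff Z) := by
  intro n g hg
  let φ := PowerSeries.map (algebraMap F B)
  have hcomm : ∀ a z, φ a * z = z * φ a := fun a z => by
    ext m
    rw [PowerSeries.coeff_mul, PowerSeries.coeff_mul,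
      ← Finset.Nat.sum_antidiagonal_swap (f := fun q => PowerSeries.coeff q.1 z * PowerSeries.coeff q.2 (φ a))]
    refine Finset.sum_congr rfl fun q _ => ?_
    simp only [Prod.fst_swap, Prod.snd_swap, φ, PowerSeries.coeff_map]
    exact Algebra.commutes _ _
  let : Algebra (PowerSeries F) (PowerSeries B) := RingHom.toAlgebra' φ hcomm
  have halg : ∀ a : (PowerSeries F), algebraMap (PowerSeries F) (PowerSeries B) a = φ a := fun _ => rfl
  have h1 : aeval Z (f.comp (C (PowerSeries.X ^ p) * X + C lam)) = 0 := by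
    rw [aeval_comp, aeval_def]
    simp only [map_add, map_mul, aeval_C, aeval_X, halg, φ, map_pow, PowerSeries.map_X]
    rw [add_comm]
    exact h
  rw [hg, map_mul, aeval_C, halg, map_pow, show φ PowerSeries.X = PowerSeries.X from PowerSeries.map_X _]
    at h1
  have h2 : aeval Z g = 0 := by
    ext m
    have := congrArg (PowerSeries.coeff (m + n)) h1
    rwa [map_zero, PowerSeries.coeff_X_pow_mul', if_pos (Nat.le_add_left _ _), Nat.add_sub_cancel]
      at this
  rw [aeval_def] at h2 ⊢
  have h3 := congrArg (PowerSeries.constantCoeff (R := B)) h2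
  rw [map_zero, hom_eval₂, show (PowerSeries.constantCoeff (R := B)).comp
      (algebraMap (PowerSeries F) (PowerSeries B)) = (algebraMap F B).comp (PowerSeries.constantCoeff (R := F)) from
    RingHom.ext fun a => by
      simp only [RingHom.comp_apply, halg, φ, ← PowerSeries.coeff_zero_eq_constantCoeff_apply,
        PowerSeries.coeff_map]] at h3
  rw [eval₂_map]
  exact h3

/-- With `M` independent powers in each of `e` clusters and degree at most `e M`, every leading term is
killed by a rescaled polynomial of degree at most `M`. -/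
theorem exists_killing {ι : Type*} [Fintype ι] {M : ℕ} {f : ((PowerSeries F))[X]} (hf : f.map (PowerSeries.constantCoeff (R := F)) ≠ 0)
    (hdeg : f.natDegree ≤ Fintype.card ι * M) {p : ℕ} (hp : 0 < p) {lam : ι → (PowerSeries F)}
    (hlam : Function.Injective fun i => (PowerSeries.constantCoeff (R := F)) (lam i))
    {B : ι → Type*} [∀ i, Ring (B i)] [∀ i, Algebra F (B i)] (x : (i : ι) → B i)
    (hkill : ∀ i, Kills f (lam i) p (x i))
    (hLI : ∀ i, LinearIndependent F fun k : Fin M => x i ^ (k : ℕ)) :
    ∃ (n : ι → ℕ) (g : ι → ((PowerSeries F))[X]),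
      (∀ i, f.comp (C (PowerSeries.X ^ p) * X + C (lam i)) = C (PowerSeries.X ^ n i) * g i) ∧
      (∀ i, (g i).map (PowerSeries.constantCoeff (R := F)) ≠ 0) ∧ (∀ i, ((g i).map (PowerSeries.constantCoeff (R := F))).natDegree = M) ∧
      ∀ i, aeval (x i) ((g i).map (PowerSeries.constantCoeff (R := F))) = 0 := by
  classical
  choose n g hg hg0 hgdeg using fun i => exists_rescaled f hf (lam i) hp
  let g0 := fun i => (g i).map (PowerSeries.constantCoeff (R := F))
  -- the rescaled polynomial kills the leading term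
  have hg0kill : ∀ i, aeval (x i) (g0 i) = 0 := fun i => hkill i _ _ (hg i)
  -- independence forces the degree
  have hbig : ∀ i, ∀ q : F[X], q ≠ 0 → aeval (x i) q = 0 →
      M ≤ q.natDegree := by
    intro i q hq hq0
    by_contra hlt
    rw [not_le] at hlt
    refine hq (leadingCoeff_eq_zero.1 ?_)
    rw [aeval_eq_sum_range' hlt, ← Fin.sum_univ_eq_sum_range
      (fun k => q.coeff k • x i ^ k)] at hq0
    exact Fintype.linearIndependent_iff.1 (hLI i) (fun k => q.coeff k) hq0 ⟨q.natDegree, hlt⟩
  have hμ : ∀ i, M ≤ (f.map (PowerSeries.constantCoeff (R := F))).rootMultiplicity ((PowerSeries.constantCoeff (R := F)) (lam i)) := fun i =>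
    (hbig i _ (hg0 i) (hg0kill i)).trans (hgdeg i)
  -- multiplicities add up to at most the degree
  have hsum : ∑ i, (f.map (PowerSeries.constantCoeff (R := F))).rootMultiplicity ((PowerSeries.constantCoeff (R := F)) (lam i)) ≤ Fintype.card ι * M := by
    calc ∑ i, (f.map (PowerSeries.constantCoeff (R := F))).rootMultiplicity ((PowerSeries.constantCoeff (R := F)) (lam i))
        = ∑ a ∈ Finset.univ.image fun i => (PowerSeries.constantCoeff (R := F)) (lam i), (f.map (PowerSeries.constantCoeff (R := F))).roots.count a := by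
          rw [Finset.sum_image fun i _ j _ h => hlam h]
          simp only [count_roots]
      _ ≤ ∑ a ∈ (Finset.univ.image fun i => (PowerSeries.constantCoeff (R := F)) (lam i)) ∪ (f.map (PowerSeries.constantCoeff (R := F))).roots.toFinset,
            (f.map (PowerSeries.constantCoeff (R := F))).roots.count a :=
          Finset.sum_le_sum_of_subset Finset.subset_union_left
      _ = Multiset.card (f.map (PowerSeries.constantCoeff (R := F))).roots :=
          Multiset.sum_count_eq_card fun a ha =>
            Finset.mem_union_right _ (Multiset.mem_toFinset.2 ha)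
      _ ≤ Fintype.card ι * M := (card_roots' _).trans (natDegree_map_le.trans hdeg)
  have hμeq : ∀ i, (f.map (PowerSeries.constantCoeff (R := F))).rootMultiplicity ((PowerSeries.constantCoeff (R := F)) (lam i)) = M := by
    intro i
    refine le_antisymm ?_ (hμ i)
    by_contra hlt
    rw [not_le] at hlt
    have h1 : ∑ _j : ι, M < ∑ j, (f.map (PowerSeries.constantCoeff (R := F))).rootMultiplicity ((PowerSeries.constantCoeff (R := F)) (lam j)) :=
      Finset.sum_lt_sum (fun j _ => hμ j) ⟨i, Finset.mem_univ i, hlt⟩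
    simp only [Finset.sum_const, Finset.card_univ, smul_eq_mul] at h1
    omega
  exact ⟨n, g, hg, hg0,
    fun i => le_antisymm ((hgdeg i).trans (hμeq i).le) (hbig i _ (hg0 i) (hg0kill i)), hg0kill⟩

/-- The roots of a killed deformation: with `M` distinct leading eigenvalues in each of `e` clusters and
degree at most `e M`, all roots are series with these leading terms, and there are no others. -/
theorem exists_roots {ι : Type*} [Fintype ι] {M : ℕ} {f : ((PowerSeries F))[X]} (hf : f.map (PowerSeries.constantCoeff (R := F)) ≠ 0)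
    (hdeg : f.natDegree ≤ Fintype.card ι * M) {p : ℕ} (hp : 0 < p) {lam : ι → (PowerSeries F)}
    (hlam : Function.Injective fun i => (PowerSeries.constantCoeff (R := F)) (lam i))
    {B : ι → Type*} [∀ i, Ring (B i)] [∀ i, Algebra F (B i)] (x : (i : ι) → B i)
    (hkill : ∀ i, Kills f (lam i) p (x i))
    {ν : ι → Fin M → F} (hν : ∀ i, Function.Injective (ν i))
    (hLI : ∀ i, LinearIndependent F fun k : Fin M => x i ^ (k : ℕ))
    (hann : ∀ i, aeval (x i) (∏ j, (X - C (ν i j))) = 0) :
    ∃ ρ : ι → Fin M → (PowerSeries F), (∀ i j, (PowerSeries.constantCoeff (R := F)) (ρ i j) = ν i j) ∧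
      (∀ i j, f.eval (lam i + PowerSeries.X ^ p * ρ i j) = 0) ∧
      ∀ z, f.eval z = 0 → ∃ i j, z = lam i + PowerSeries.X ^ p * ρ i j := by
  classical
  obtain ⟨n, g, hg, hg0, hgdeg, hg0kill⟩ := exists_killing hf hdeg hp hlam x hkill hLI
  let g0 := fun i => (g i).map (PowerSeries.constantCoeff (R := F))
  -- independence forces the degree
  have hbig : ∀ i, ∀ q : F[X], q ≠ 0 → aeval (x i) q = 0 →
      M ≤ q.natDegree := by
    intro i q hq hq0
    by_contra hlt
    rw [not_le] at hlt
    refine hq (leadingCoeff_eq_zero.1 ?_)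
    rw [aeval_eq_sum_range' hlt, ← Fin.sum_univ_eq_sum_range
      (fun k => q.coeff k • x i ^ k)] at hq0
    exact Fintype.linearIndependent_iff.1 (hLI i) (fun k => q.coeff k) hq0 ⟨q.natDegree, hlt⟩
  have hprodmonic : ∀ i, (∏ j, (X - C (ν i j))).Monic := fun i => monic_prod_X_sub_C _ _
  have hprodeg : ∀ i, (∏ j, (X - C (ν i j))).natDegree = M := fun i => by
    rw [natDegree_prod_of_monic _ _ fun j _ => monic_X_sub_C _]; simp
  have hprod : ∀ i, g0 i = C (g0 i).leadingCoeff * ∏ j, (X - C (ν i j)) := by
    intro i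
    have hd : (g0 i).natDegree = M := hgdeg i
    by_contra hne
    have hne' := sub_ne_zero.2 hne
    have hkill' : aeval (x i)
        (g0 i - C (g0 i).leadingCoeff * ∏ j, (X - C (ν i j))) = 0 := by
      rw [map_sub, map_mul, hg0kill i, hann i, mul_zero, sub_zero]
    have h1 := hbig i _ hne' hkill'
    have hlc : (g0 i).leadingCoeff ≠ 0 := leadingCoeff_ne_zero.2 (hg0 i)
    have h2 : (g0 i - C (g0 i).leadingCoeff * ∏ j, (X - C (ν i j))).degree < (g0 i).degree := by
      refine degree_sub_lt_left ?_ (hg0 i) ?_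
      · rw [degree_C_mul hlc, degree_eq_natDegree (hprodmonic i).ne_zero,
          degree_eq_natDegree (hg0 i), hd, hprodeg]
      · rw [leadingCoeff_mul, leadingCoeff_C, (hprodmonic i).leadingCoeff, mul_one]
    have h3 := natDegree_lt_natDegree hne' h2
    omega
  -- Hensel
  have hex : ∀ i j, ∃ r : (PowerSeries F), (g i).eval r = 0 ∧ (PowerSeries.constantCoeff (R := F)) r = ν i j := by
    intro i j
    refine hensel (g i) ?_ ?_
    · rw [show (g i).map (PowerSeries.constantCoeff (R := F)) = g0 i from rfl, hprod i, eval_mul, eval_prod]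
      rw [Finset.prod_eq_zero (Finset.mem_univ j) (by simp), mul_zero]
    · rw [show (g i).map (PowerSeries.constantCoeff (R := F)) = g0 i from rfl, hprod i, derivative_C_mul, eval_mul, eval_C]
      refine mul_ne_zero (leadingCoeff_ne_zero.2 (hg0 i)) ?_
      rw [← Finset.mul_prod_erase _ _ (Finset.mem_univ j), derivative_mul, derivative_X_sub_C, one_mul,
        eval_add, eval_mul, eval_sub, eval_X, eval_C, sub_self, zero_mul, add_zero, eval_prod]
      refine Finset.prod_ne_zero_iff.2 fun k hk => ?_
      rw [eval_sub, eval_X, eval_C, sub_ne_zero]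
      exact fun h => (Finset.mem_erase.1 hk).1 (hν i h.symm)
  choose ρ hρ hρc using hex
  have heval : ∀ i j, f.eval (lam i + PowerSeries.X ^ p * ρ i j) = 0 := fun i j => by
    have h1 := congrArg (Polynomial.eval (ρ i j)) (hg i)
    rw [eval_comp, eval_mul, hρ, mul_zero] at h1
    simpa [add_comm] using h1
  refine ⟨ρ, hρc, heval, fun z hz => ?_⟩
  by_contra! hne
  have hf0 : f ≠ 0 := fun h => hf (by rw [h, Polynomial.map_zero])
  have hinj : Function.Injective fun q : ι × Fin M => lam q.1 + PowerSeries.X ^ p * ρ q.1 q.2 := by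
    rintro ⟨i, j⟩ ⟨i', j'⟩ h
    have h1 := congrArg (PowerSeries.constantCoeff (R := F)) h
    simp only [map_add, map_mul, map_pow, PowerSeries.constantCoeff_X, zero_pow hp.ne', zero_mul,
      add_zero] at h1
    obtain rfl : i = i' := hlam h1
    have h2 := mul_left_cancel₀ (pow_ne_zero p PowerSeries.X_ne_zero) (add_left_cancel h)
    have h3 : ν i j = ν i j' := by rw [← hρc, ← hρc, h2]
    exact Prod.ext rfl (hν i h3)
  let S : Finset (PowerSeries F) := insert z (Finset.univ.image fun q : ι × Fin M =>
    lam q.1 + PowerSeries.X ^ p * ρ q.1 q.2)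
  have hS : S.card = Fintype.card ι * M + 1 := by
    rw [Finset.card_insert_of_notMem (by simpa using fun i j => (hne i j).symm),
      Finset.card_image_of_injective _ hinj]
    simp
  have hsub : S.val ⊆ f.roots := by
    intro w hw
    rcases Finset.mem_insert.1 hw with rfl | hw
    · exact (mem_roots hf0).2 hz
    · obtain ⟨q, -, rfl⟩ := Finset.mem_image.1 hw
      exact (mem_roots hf0).2 (heval q.1 q.2)
  have := card_le_degree_of_subset_roots hsub
  omega

end

end Vale.P199.Deletion
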