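import Mathlib
import Vale.Agent.P199.Deletion.Roots
import Vale.Agent.P199.Field.Residue

/-!
# P199: partners

Dependence over the symbols of series with given residues: two series of one cluster are never
dependent, dependent series have dependent residues, and dependence links the leading terms of two
clusters affinely.
-/

namespace Vale.P199.Deletion

noncomputable section

open Algebra (adjoin)

section Exchange

variable {k Ω : Type*} [Field k] [CommRing Ω] [IsDomain Ω] [Algebra k Ω] {ι : Type*} {t : ι → Ω}

/-- `y` depends on `x` over the symbols `t`. -/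
def Dep (k : Type*) [Field k] [Algebra k Ω] (t : ι → Ω) (x y : Ω) : Prop :=
  IsAlgebraic (adjoin k (insert x (Set.range t))) y

omit [IsDomain Ω] [CommRing Ω] in
lemma range_elim (x : Ω) : Set.range (fun o : Option ι => o.elim x t) = insert x (Set.range t) := by
  ext z
  constructor
  · rintro ⟨(_ | i), rfl⟩
    · exact Set.mem_insert _ _
    · exact Set.mem_insert_of_mem _ ⟨i, rfl⟩
  · rintro (rfl | ⟨i, rfl⟩)
    · exact ⟨none, rfl⟩
    · exact ⟨some i, rfl⟩

omit [IsDomain Ω] in
lemma not_dep_iff {x y : Ω} (hx : AlgebraicIndependent k fun o : Option ι => o.elim x t) :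
    ¬Dep k t x y ↔
      AlgebraicIndependent k fun o : Option (Option ι) => o.elim y fun o' => o'.elim x t := by
  rw [AlgebraicIndependent.option_iff_transcendental hx, Dep, range_elim]
  rfl

omit [IsDomain Ω] in
lemma Dep.symm {x y : Ω} (hx : AlgebraicIndependent k fun o : Option ι => o.elim x t)
    (hy : AlgebraicIndependent k fun o : Option ι => o.elim y t) (h : Dep k t x y) : Dep k t y x := by
  by_contra hn
  rw [not_dep_iff hy] at hn
  refine (not_dep_iff hx).2 ?_ h
  let sw : Option (Option ι) → Option (Option ι) := fun o => match o with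
    | none => some none
    | some none => none
    | some (some i) => some (some i)
  convert hn.comp sw (Function.LeftInverse.injective (g := sw) (by rintro (_ | (_ | i)) <;> rfl))
    using 1
  funext o
  rcases o with _ | (_ | i) <;> rfl

lemma Dep.trans {x y z : Ω} (h : Dep k t x y) (h' : Dep k t y z) : Dep k t x z :=
  IsAlgebraic.adjoin_of_forall_isAlgebraic (fun a ha => by
    rcases ha.1 with rfl | hr
    · exact h
    · exact absurd (Set.mem_insert_of_mem _ hr) ha.2) h'

end Exchange

variable {F : Type} [Field F] [CharZero F] {ι : Type}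


/-- The residue as a map of rational algebras. -/
def res (F : Type) [Field F] [CharZero F] : PowerSeries F →ₐ[ℚ] F :=
  RingHom.toRatAlgHom (PowerSeries.constantCoeff (R := F))

@[simp] lemma res_apply (a : (PowerSeries F)) : res F a = (PowerSeries.constantCoeff (R := F)) a := rfl

lemma res_elim (t : ι → (PowerSeries F)) (μ : (PowerSeries F)) :
    (res F ∘ fun o : Option ι => o.elim μ t) = fun o : Option ι => o.elim ((PowerSeries.constantCoeff (R := F)) μ) fun i => (PowerSeries.constantCoeff (R := F)) (t i) := by
  funext o; cases o <;> rfl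

/-- Independence lifts from the residues. -/
lemma indep_of_res {t : ι → (PowerSeries F)} {μ : (PowerSeries F)}
    (h : AlgebraicIndependent ℚ fun o : Option ι => o.elim ((PowerSeries.constantCoeff (R := F)) μ) fun i => (PowerSeries.constantCoeff (R := F)) (t i)) :
    AlgebraicIndependent ℚ fun o : Option ι => o.elim μ t :=
  Fld.algebraicIndependent_of_residue (res F) (by rwa [res_elim])

/-- Two series with the same residue are never dependent. -/
theorem eq_of_residue {t : ι → (PowerSeries F)} {μ μ' : (PowerSeries F)}
    (hμ : AlgebraicIndependent ℚ fun o : Option ι => o.elim ((PowerSeries.constantCoeff (R := F)) μ) fun i => (PowerSeries.constantCoeff (R := F)) (t i))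
    (hdep : Dep ℚ t μ μ') (heq : (PowerSeries.constantCoeff (R := F)) μ' = (PowerSeries.constantCoeff (R := F)) μ) : μ' = μ := by
  have h := Fld.relation_lifts (J := Unit) (res F) (fun a ha => isUnit_of_cc ha)
    (t := fun o : Option ι => o.elim μ t) (by rwa [res_elim]) (lam := fun _ => μ')
    (fun _ => by rw [range_elim]; exact hdep)
    (MvPolynomial.X (Sum.inr ()) - MvPolynomial.X (Sum.inl none)) (by simp [heq])
  simpa [sub_eq_zero] using h

/-- Dependent series have dependent residues. -/
theorem dep_residue {t : ι → (PowerSeries F)} {μ μ' : (PowerSeries F)}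
    (hμ : AlgebraicIndependent ℚ fun o : Option ι => o.elim ((PowerSeries.constantCoeff (R := F)) μ) fun i => (PowerSeries.constantCoeff (R := F)) (t i))
    (hdep : Dep ℚ t μ μ') : Dep ℚ (fun i => (PowerSeries.constantCoeff (R := F)) (t i)) ((PowerSeries.constantCoeff (R := F)) μ) ((PowerSeries.constantCoeff (R := F)) μ') := by
  by_contra hn
  rw [not_dep_iff hμ] at hn
  refine (not_dep_iff (indep_of_res hμ)).2 ?_ hdep
  refine Fld.algebraicIndependent_of_residue (res F) ?_
  convert hn using 1
  funext o
  rcases o with _ | (_ | i) <;> rfl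

/-- A relation with nonzero derivative in the dependent element. -/
theorem exists_relation {x : Option ι → F} {b : F} (hb : IsAlgebraic (adjoin ℚ (Set.range x)) b) :
    ∃ R : MvPolynomial (Option ι ⊕ Unit) ℚ,
      MvPolynomial.aeval (Sum.elim x fun _ => b) R = 0 ∧
        MvPolynomial.aeval (Sum.elim x fun _ => b) (MvPolynomial.pderiv (Sum.inr ()) R) ≠ 0 := by
  classical
  let A := MvPolynomial (Option ι) ℚ
  let f : A →+* F := (MvPolynomial.aeval x).toRingHom
  have hex : ∃ n, ∃ q : Polynomial A, q.natDegree = n ∧ q.map f ≠ 0 ∧ (q.map f).eval b = 0 := by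
    obtain ⟨p, hp0, hp⟩ := hb
    have hsurj : ∀ a : adjoin ℚ (Set.range x), ∃ q : A, f q = a := fun a =>
      (Algebra.adjoin_range_eq_range_aeval ℚ x).le a.2
    choose g hg using hsurj
    refine ⟨_, ∑ n ∈ p.support, Polynomial.monomial n (g (p.coeff n)), rfl, ?_⟩
    have hmap : (∑ n ∈ p.support, Polynomial.monomial n (g (p.coeff n))).map f =
        p.map (algebraMap (adjoin ℚ (Set.range x)) F) := by
      conv_rhs => rw [p.as_sum_support]
      simp only [Polynomial.map_sum, Polynomial.map_monomial, hg]
      rfl
    rw [hmap]
    exact ⟨fun h => hp0 ((Polynomial.map_eq_zero_iff Subtype.val_injective).1 h),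
      by rw [Polynomial.eval_map, ← Polynomial.aeval_def]; exact hp⟩
  obtain ⟨q, hqn, hq0, hqb⟩ := Nat.find_spec hex
  have hdeg : (q.map f).natDegree ≠ 0 := fun h => by
    rw [Polynomial.eq_C_of_natDegree_eq_zero h, Polynomial.eval_C] at hqb
    exact hq0 (by rw [Polynomial.eq_C_of_natDegree_eq_zero h, hqb, Polynomial.C_0])
  have hq' : (q.derivative.map f).eval b ≠ 0 := by
    intro h0
    have hne : q.derivative.map f ≠ 0 := fun h => by
      rw [← Polynomial.derivative_map] at h
      exact hdeg (Polynomial.derivative_eq_zero.1 h)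
    have hlt : q.derivative.natDegree < Nat.find hex := by
      rw [← hqn]
      exact Polynomial.natDegree_derivative_lt fun h => hdeg (by
        have := Polynomial.natDegree_map_le (f := f) (p := q)
        omega)
    exact Nat.find_min hex hlt ⟨q.derivative, rfl, hne, h0⟩
  let ι' : A →+* MvPolynomial (Option ι ⊕ Unit) ℚ := (MvPolynomial.rename Sum.inl).toRingHom
  have haev : ∀ q : Polynomial A, MvPolynomial.aeval (Sum.elim x fun _ => b)
      (q.eval₂ ι' (MvPolynomial.X (Sum.inr ()))) = (q.map f).eval b := by
    intro q
    rw [← AlgHom.coe_toRingHom, Polynomial.hom_eval₂, Polynomial.eval_map]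
    congr 1
    · refine RingHom.ext fun a => ?_
      show MvPolynomial.aeval _ (MvPolynomial.rename Sum.inl a) = MvPolynomial.aeval x a
      rw [MvPolynomial.aeval_rename]
      rfl
    · simp
  have hd : ∀ q : Polynomial A, MvPolynomial.pderiv (Sum.inr ()) (q.eval₂ ι' (MvPolynomial.X (Sum.inr ())))
      = q.derivative.eval₂ ι' (MvPolynomial.X (Sum.inr ())) := by
    intro q
    induction q using Polynomial.induction_on' with
    | add p r hp hr => simp [hp, hr]
    | monomial n a =>
      have h0 : MvPolynomial.pderiv (Sum.inr ()) (ι' a) = 0 := by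
        refine MvPolynomial.pderiv_eq_zero_of_notMem_vars fun hmem => ?_
        obtain ⟨i, -, hi⟩ := Finset.mem_image.1 (MvPolynomial.vars_rename Sum.inl a hmem)
        exact Sum.inl_ne_inr hi
      rw [Polynomial.eval₂_monomial, Polynomial.derivative_monomial, Polynomial.eval₂_monomial,
        Derivation.leibniz, h0, Derivation.leibniz_pow, MvPolynomial.pderiv_X_self]
      simp [mul_assoc]
  exact ⟨q.eval₂ ι' (MvPolynomial.X (Sum.inr ())), (haev q).trans hqb, by rw [hd, haev]; exact hq'⟩

/-- First order expansion in two variables. -/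
theorem taylor_one {σ : Type} [DecidableEq σ] (x d : σ → (PowerSeries F)) (a b : σ) (hab : a ≠ b)
    (hd : ∀ s, s ≠ a → s ≠ b → d s = 0) (p : ℕ) (hp : 0 < p) (P : MvPolynomial σ ℚ) :
    ∃ E : (PowerSeries F), MvPolynomial.aeval (fun s => x s + PowerSeries.X ^ p * d s) P =
        MvPolynomial.aeval x P + PowerSeries.X ^ p * E ∧
      (PowerSeries.constantCoeff (R := F)) E = (PowerSeries.constantCoeff (R := F)) (d a) * MvPolynomial.aeval (fun s => (PowerSeries.constantCoeff (R := F)) (x s)) (MvPolynomial.pderiv a P) +
        (PowerSeries.constantCoeff (R := F)) (d b) * MvPolynomial.aeval (fun s => (PowerSeries.constantCoeff (R := F)) (x s)) (MvPolynomial.pderiv b P) := by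
  induction P using MvPolynomial.induction_on with
  | C r => exact ⟨0, by simp, by simp⟩
  | add P Q hP hQ =>
    obtain ⟨E, hE, hE'⟩ := hP
    obtain ⟨G, hG, hG'⟩ := hQ
    refine ⟨E + G, by rw [map_add, map_add, hE, hG]; ring, ?_⟩
    simp only [map_add, hE', hG', mul_add]
    ring
  | mul_X P s hP =>
    obtain ⟨E, hE, hE'⟩ := hP
    refine ⟨MvPolynomial.aeval x P * d s + E * x s + PowerSeries.X ^ p * E * d s, ?_, ?_⟩
    · rw [map_mul, map_mul, hE, MvPolynomial.aeval_X, MvPolynomial.aeval_X]; ring
    · have h1 : (PowerSeries.constantCoeff (R := F)) (MvPolynomial.aeval x P) = MvPolynomial.aeval (fun s => (PowerSeries.constantCoeff (R := F)) (x s)) P :=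
        MvPolynomial.comp_aeval_apply x (res F) P
      simp only [map_add, map_mul, map_pow, PowerSeries.constantCoeff_X, zero_pow hp.ne', zero_mul,
        add_zero, hE', h1, Derivation.leibniz, MvPolynomial.pderiv_X, MvPolynomial.aeval_X, smul_eq_mul]
      by_cases h : s = a
      · subst h
        simp only [Pi.single_eq_same, map_one, Pi.single_eq_of_ne hab, map_zero]
        ring
      by_cases h' : s = b
      · subst h'
        simp only [Pi.single_eq_same, map_one, Pi.single_eq_of_ne h, map_zero]
        ring
      · simp only [Pi.single_eq_of_ne h, Pi.single_eq_of_ne h', hd s h h', map_zero]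
        ring

/-- Dependence links the leading terms affinely. -/
theorem affine_of_relation {t : ι → (PowerSeries F)} {lam lam' : (PowerSeries F)}
    (ha : AlgebraicIndependent ℚ fun o : Option ι => o.elim ((PowerSeries.constantCoeff (R := F)) lam) fun i => (PowerSeries.constantCoeff (R := F)) (t i))
    {R : MvPolynomial (Option ι ⊕ Unit) ℚ}
    (hR : MvPolynomial.aeval (Sum.elim (fun o : Option ι => o.elim ((PowerSeries.constantCoeff (R := F)) lam) fun i => (PowerSeries.constantCoeff (R := F)) (t i))
      fun _ => (PowerSeries.constantCoeff (R := F)) lam') R = 0) {p : ℕ} (hp : 0 < p) (ρ ρ' : (PowerSeries F))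
    (hdep : Dep ℚ t (lam + PowerSeries.X ^ p * ρ) (lam' + PowerSeries.X ^ p * ρ')) :
    (PowerSeries.constantCoeff (R := F)) ρ * MvPolynomial.aeval (Sum.elim (fun o : Option ι => o.elim ((PowerSeries.constantCoeff (R := F)) lam) fun i => (PowerSeries.constantCoeff (R := F)) (t i))
        fun _ => (PowerSeries.constantCoeff (R := F)) lam') (MvPolynomial.pderiv (Sum.inl none) R) +
      (PowerSeries.constantCoeff (R := F)) ρ' * MvPolynomial.aeval (Sum.elim (fun o : Option ι => o.elim ((PowerSeries.constantCoeff (R := F)) lam) fun i => (PowerSeries.constantCoeff (R := F)) (t i))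
        fun _ => (PowerSeries.constantCoeff (R := F)) lam') (MvPolynomial.pderiv (Sum.inr ()) R) +
      PowerSeries.coeff p (MvPolynomial.aeval (Sum.elim (fun o : Option ι => o.elim lam t)
        fun _ => lam') R) = 0 := by
  classical
  set μ := lam + PowerSeries.X ^ p * ρ with hμ
  set μ' := lam' + PowerSeries.X ^ p * ρ' with hμ'
  have hcμ : (PowerSeries.constantCoeff (R := F)) μ = (PowerSeries.constantCoeff (R := F)) lam := by simp [μ, hp.ne']
  have hcμ' : (PowerSeries.constantCoeff (R := F)) μ' = (PowerSeries.constantCoeff (R := F)) lam' := by simp [μ', hp.ne']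
  have h0 := Fld.relation_lifts (J := Unit) (res F) (fun a ha => isUnit_of_cc ha)
    (t := fun o : Option ι => o.elim μ t) (by rwa [res_elim, hcμ]) (lam := fun _ => μ')
    (fun _ => by rw [range_elim]; exact hdep) R (by
      rw [← hR]
      congr 2
      funext s
      rcases s with (_ | i) | _ <;> simp [hcμ, hcμ'])
  obtain ⟨E, hE, hE'⟩ := taylor_one (Sum.elim (fun o : Option ι => o.elim lam t) fun _ => lam')
    (Sum.elim (fun o : Option ι => o.elim ρ fun _ => 0) fun _ => ρ') (Sum.inl none) (Sum.inr ())
    (by simp) (by rintro ((_ | i) | _) h1 h2 <;> simp at h1 h2 ⊢) p hp R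
  have hfun : (fun s : Option ι ⊕ Unit => (Sum.elim (fun o : Option ι => o.elim lam t) fun _ => lam') s +
      PowerSeries.X ^ p * (Sum.elim (fun o : Option ι => o.elim ρ fun _ => 0) fun _ => ρ') s) =
      Sum.elim (fun o : Option ι => o.elim μ t) fun _ => μ' := by
    funext s
    rcases s with (_ | i) | _ <;> simp [μ, μ']
  have hres : (fun s : Option ι ⊕ Unit => (PowerSeries.constantCoeff (R := F)) ((Sum.elim (fun o : Option ι => o.elim lam t) fun _ => lam') s)) =
      Sum.elim (fun o : Option ι => o.elim ((PowerSeries.constantCoeff (R := F)) lam) fun i => (PowerSeries.constantCoeff (R := F)) (t i)) fun _ => (PowerSeries.constantCoeff (R := F)) lam' := by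
    funext s
    rcases s with (_ | i) | _ <;> rfl
  rw [hfun, h0] at hE
  rw [hres] at hE'
  have h1 := congrArg (PowerSeries.coeff p) hE
  rw [map_zero, map_add, PowerSeries.coeff_X_pow_mul', if_pos le_rfl, Nat.sub_self,
    PowerSeries.coeff_zero_eq_constantCoeff_apply, hE'] at h1
  simp only [Sum.elim_inl, Sum.elim_inr, Option.elim_none] at h1
  rw [h1]
  ring

/-- Series congruent up to order `p` give congruent values. -/
lemma coeff_aeval_congr {σ : Type} {x y : σ → (PowerSeries F)} {p : ℕ}
    (h : ∀ v, PowerSeries.X ^ (p + 1) ∣ y v - x v) (P : MvPolynomial σ ℚ) :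
    PowerSeries.coeff p (MvPolynomial.aeval y P) = PowerSeries.coeff p (MvPolynomial.aeval x P) := by
  have hd : PowerSeries.X ^ (p + 1) ∣ MvPolynomial.aeval y P - MvPolynomial.aeval x P := by
    induction P using MvPolynomial.induction_on with
    | C r => simp
    | add P Q hP hQ =>
      rw [map_add, map_add, add_sub_add_comm]
      exact dvd_add hP hQ
    | mul_X P v hP =>
      rw [map_mul, map_mul, MvPolynomial.aeval_X, MvPolynomial.aeval_X,
        show MvPolynomial.aeval y P * y v - MvPolynomial.aeval x P * x v =
          MvPolynomial.aeval y P * (y v - x v) + (MvPolynomial.aeval y P - MvPolynomial.aeval x P) * x v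
          by ring]
      exact dvd_add (dvd_mul_of_dvd_right (h v) _) (dvd_mul_of_dvd_left hP _)
  rw [← sub_eq_zero, ← map_sub]
  exact PowerSeries.X_pow_dvd_iff.1 hd p (Nat.lt_succ_self p)

/-- The partner map: one affine map with nonzero slope, the same for all symbol values congruent to the
given ones up to order `p`. -/
theorem exists_affine {t : ι → (PowerSeries F)} {lam lam' : (PowerSeries F)}
    (ha : AlgebraicIndependent ℚ fun o : Option ι => o.elim ((PowerSeries.constantCoeff (R := F)) lam) fun i => (PowerSeries.constantCoeff (R := F)) (t i))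
    (hb : AlgebraicIndependent ℚ fun o : Option ι => o.elim ((PowerSeries.constantCoeff (R := F)) lam') fun i => (PowerSeries.constantCoeff (R := F)) (t i))
    (hab : Dep ℚ (fun i => (PowerSeries.constantCoeff (R := F)) (t i)) ((PowerSeries.constantCoeff (R := F)) lam) ((PowerSeries.constantCoeff (R := F)) lam')) {p : ℕ} (hp : 0 < p) :
    ∃ r β : F, r ≠ 0 ∧ ∀ t' : ι → (PowerSeries F), (∀ i, PowerSeries.X ^ (p + 1) ∣ t' i - t i) → ∀ ρ ρ' : (PowerSeries F),
      Dep ℚ t' (lam + PowerSeries.X ^ p * ρ) (lam' + PowerSeries.X ^ p * ρ') → (PowerSeries.constantCoeff (R := F)) ρ' = r * (PowerSeries.constantCoeff (R := F)) ρ + β := by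
  classical
  have hba := hab.symm ha hb
  obtain ⟨R, hR, hR'⟩ := exists_relation (x := fun o : Option ι => o.elim ((PowerSeries.constantCoeff (R := F)) lam) fun i => (PowerSeries.constantCoeff (R := F)) (t i))
    (b := (PowerSeries.constantCoeff (R := F)) lam') (by rw [range_elim]; exact hab)
  obtain ⟨S, hS, hS'⟩ := exists_relation (x := fun o : Option ι => o.elim ((PowerSeries.constantCoeff (R := F)) lam') fun i => (PowerSeries.constantCoeff (R := F)) (t i))
    (b := (PowerSeries.constantCoeff (R := F)) lam) (by rw [range_elim]; exact hba)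
  set Ra := MvPolynomial.aeval (Sum.elim (fun o : Option ι => o.elim ((PowerSeries.constantCoeff (R := F)) lam) fun i => (PowerSeries.constantCoeff (R := F)) (t i))
        fun _ => (PowerSeries.constantCoeff (R := F)) lam') (MvPolynomial.pderiv (Sum.inl none) R) with hRa
  set Rb := MvPolynomial.aeval (Sum.elim (fun o : Option ι => o.elim ((PowerSeries.constantCoeff (R := F)) lam) fun i => (PowerSeries.constantCoeff (R := F)) (t i))
        fun _ => (PowerSeries.constantCoeff (R := F)) lam') (MvPolynomial.pderiv (Sum.inr ()) R) with hRb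
  -- the slope is nonzero: solve the relation over constant series
  have hRa0 : Ra ≠ 0 := by
    intro h0
    let s : ι → (PowerSeries F) := fun i => PowerSeries.C ((PowerSeries.constantCoeff (R := F)) (t i))
    let v : Option ι ⊕ Unit → Polynomial (PowerSeries F) := Sum.elim
      (fun o : Option ι => o.elim (Polynomial.C (PowerSeries.C ((PowerSeries.constantCoeff (R := F)) lam) + PowerSeries.X))
        fun i => Polynomial.C (s i)) fun _ => Polynomial.X
    let g : Polynomial (PowerSeries F) := MvPolynomial.aeval v R
    let ψ : Polynomial (PowerSeries F) →ₐ[ℚ] F :=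
      RingHom.toRatAlgHom ((Polynomial.evalRingHom ((PowerSeries.constantCoeff (R := F)) lam')).comp (Polynomial.mapRingHom (PowerSeries.constantCoeff (R := F))))
    have hgen : ∀ P : MvPolynomial (Option ι ⊕ Unit) ℚ,
        ((MvPolynomial.aeval v P).map (PowerSeries.constantCoeff (R := F))).eval ((PowerSeries.constantCoeff (R := F)) lam') =
          MvPolynomial.aeval (Sum.elim (fun o : Option ι => o.elim ((PowerSeries.constantCoeff (R := F)) lam) fun i => (PowerSeries.constantCoeff (R := F)) (t i))
            fun _ => (PowerSeries.constantCoeff (R := F)) lam') P := by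
      intro P
      refine (MvPolynomial.comp_aeval_apply v ψ P).trans ?_
      congr 2
      funext w
      show ((v w).map (PowerSeries.constantCoeff (R := F))).eval ((PowerSeries.constantCoeff (R := F)) lam') = _
      rcases w with (_ | i) | _
      · simp [v]
      · simp [v, s]
      · simp [v]
    have hder : ∀ P : MvPolynomial (Option ι ⊕ Unit) ℚ, (MvPolynomial.aeval v P).derivative =
        MvPolynomial.aeval v (MvPolynomial.pderiv (Sum.inr ()) P) := by
      intro P
      induction P using MvPolynomial.induction_on with
      | C q => simp only [MvPolynomial.aeval_C, MvPolynomial.pderiv_C, map_zero,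
          Polynomial.algebraMap_apply, Polynomial.derivative_C]
      | add P Q hP hQ => rw [map_add, map_add, hP, hQ, map_add, map_add]
      | mul_X P w hP =>
        rw [map_mul, Polynomial.derivative_mul, hP, Derivation.leibniz, map_add, smul_eq_mul, smul_eq_mul,
          map_mul, map_mul, MvPolynomial.pderiv_X, MvPolynomial.aeval_X]
        rcases w with (_ | i) | _
        · rw [show (v (Sum.inl none)).derivative = 0 from Polynomial.derivative_C,
            Pi.single_eq_of_ne (by simp), map_zero]
          ring
        · rw [show (v (Sum.inl (some i))).derivative = 0 from Polynomial.derivative_C,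
            Pi.single_eq_of_ne (by simp), map_zero]
          ring
        · rw [show (v (Sum.inr ())).derivative = 1 from Polynomial.derivative_X, Pi.single_eq_same,
            map_one, mul_one]
          ring
    obtain ⟨z, hz, hzc⟩ := hensel g (a := (PowerSeries.constantCoeff (R := F)) lam') ((hgen R).trans hR) (by
      rw [Polynomial.derivative_map, hder, hgen]
      exact hR')
    have hzdep : Dep ℚ s (PowerSeries.C ((PowerSeries.constantCoeff (R := F)) lam) + PowerSeries.X) z := by
      set x : Option ι → (PowerSeries F) := fun o => o.elim (PowerSeries.C ((PowerSeries.constantCoeff (R := F)) lam) + PowerSeries.X) s with hx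
      have hgA : g ∈ Polynomial.lifts (algebraMap (adjoin ℚ (insert (PowerSeries.C ((PowerSeries.constantCoeff (R := F)) lam) + PowerSeries.X)
          (Set.range s))) (PowerSeries F)) := by
        rw [Polynomial.lifts_iff_coeff_lifts]
        suffices ∀ (P : MvPolynomial (Option ι ⊕ Unit) ℚ) (n : ℕ),
            (MvPolynomial.aeval v P).coeff n ∈
              adjoin ℚ (insert (PowerSeries.C ((PowerSeries.constantCoeff (R := F)) lam) + PowerSeries.X) (Set.range s)) from
          fun n => ⟨⟨_, this R n⟩, rfl⟩
        intro P
        induction P using MvPolynomial.induction_on with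
        | C q =>
          intro n
          simp only [MvPolynomial.aeval_C, Polynomial.algebraMap_apply, Polynomial.coeff_C]
          split_ifs
          · exact Subalgebra.algebraMap_mem _ q
          · exact zero_mem _
        | add P Q hP hQ => intro n; rw [map_add, Polynomial.coeff_add]; exact add_mem (hP n) (hQ n)
        | mul_X P w hP =>
          intro n
          rw [map_mul, MvPolynomial.aeval_X]
          rcases w with (_ | i) | _
          · simp only [v, Sum.elim_inl, Option.elim_none, Polynomial.coeff_mul_C]
            exact mul_mem (hP n) (Algebra.subset_adjoin (Set.mem_insert _ _))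
          · simp only [v, Sum.elim_inl, Option.elim_some, Polynomial.coeff_mul_C]
            exact mul_mem (hP n) (Algebra.subset_adjoin (Set.mem_insert_of_mem _ ⟨i, rfl⟩))
          · simp only [v, Sum.elim_inr]
            rcases n with _ | n
            · simp
            · rw [Polynomial.coeff_mul_X]; exact hP n
      obtain ⟨g', hg'⟩ := hgA
      rw [Polynomial.coe_mapRingHom] at hg'
      refine ⟨g', ?_, by rw [Polynomial.aeval_def, ← Polynomial.eval_map, hg', hz]⟩
      rintro rfl
      rw [Polynomial.map_zero] at hg'
      refine hR' ?_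
      rw [hRb, ← hgen, ← hder, show MvPolynomial.aeval v R = g from rfl, ← hg']
      simp
    -- both relations at order one
    have hzsub : ∃ ρ', z = PowerSeries.C ((PowerSeries.constantCoeff (R := F)) lam') + PowerSeries.X ^ 1 * ρ' := by
      obtain ⟨w, hw⟩ : PowerSeries.X ∣ z - PowerSeries.C ((PowerSeries.constantCoeff (R := F)) lam') :=
        PowerSeries.X_dvd_iff.2 (by simp [hzc])
      exact ⟨w, by rw [pow_one, ← hw]; ring⟩
    obtain ⟨ρ', rfl⟩ := hzsub
    have hdep' : Dep ℚ s (PowerSeries.C ((PowerSeries.constantCoeff (R := F)) lam) + PowerSeries.X ^ 1 * 1)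
        (PowerSeries.C ((PowerSeries.constantCoeff (R := F)) lam') + PowerSeries.X ^ 1 * ρ') := by
      rw [mul_one, pow_one] at *
      exact hzdep
    have hcs : (fun i => (PowerSeries.constantCoeff (R := F)) (s i)) = fun i => (PowerSeries.constantCoeff (R := F)) (t i) := by funext i; simp [s]
    have ha' : AlgebraicIndependent ℚ fun o : Option ι =>
        o.elim ((PowerSeries.constantCoeff (R := F)) (PowerSeries.C ((PowerSeries.constantCoeff (R := F)) lam))) fun i => (PowerSeries.constantCoeff (R := F)) (s i) := by
      rw [hcs, PowerSeries.constantCoeff_C]; exact ha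
    have hb' : AlgebraicIndependent ℚ fun o : Option ι =>
        o.elim ((PowerSeries.constantCoeff (R := F)) (PowerSeries.C ((PowerSeries.constantCoeff (R := F)) lam'))) fun i => (PowerSeries.constantCoeff (R := F)) (s i) := by
      rw [hcs, PowerSeries.constantCoeff_C]; exact hb
    have hconst : ∀ (P : MvPolynomial (Option ι ⊕ Unit) ℚ) (a b : F), PowerSeries.coeff 1
        (MvPolynomial.aeval (Sum.elim (fun o : Option ι => o.elim (PowerSeries.C a) s)
          fun _ => PowerSeries.C b) P) = 0 := by
      intro P a b
      have : MvPolynomial.aeval (Sum.elim (fun o : Option ι => o.elim (PowerSeries.C a) s)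
          fun _ => PowerSeries.C b) P = PowerSeries.C (MvPolynomial.aeval
            (Sum.elim (fun o : Option ι => o.elim a fun i => (PowerSeries.constantCoeff (R := F)) (t i)) fun _ => b) P) := by
        refine Eq.trans ?_ (MvPolynomial.comp_aeval_apply _
          (RingHom.toRatAlgHom (PowerSeries.C (R := F))) P).symm
        congr 2
        funext w
        rcases w with (_ | i) | _ <;> rfl
      rw [this, PowerSeries.coeff_C, if_neg one_ne_zero]
    have e1 := affine_of_relation (t := s) ha' (R := R)
      (by rw [hcs, PowerSeries.constantCoeff_C, PowerSeries.constantCoeff_C]; exact hR) one_pos 1 ρ' hdep'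
    simp only [hcs, PowerSeries.constantCoeff_C, hconst, ← hRa, ← hRb, h0, map_one, mul_zero, zero_add,
      add_zero] at e1
    have hρ0 : (PowerSeries.constantCoeff (R := F)) ρ' = 0 := (mul_eq_zero.1 e1).resolve_right hR'
    have hdep'' : Dep ℚ s (PowerSeries.C ((PowerSeries.constantCoeff (R := F)) lam') + PowerSeries.X ^ 1 * ρ')
        (PowerSeries.C ((PowerSeries.constantCoeff (R := F)) lam) + PowerSeries.X ^ 1 * 1) :=
      hdep'.symm (indep_of_res (by simpa [hcs] using ha)) (indep_of_res (by simpa [hcs] using hb))
    have e2 := affine_of_relation (t := s) hb' (R := S)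
      (by rw [hcs, PowerSeries.constantCoeff_C, PowerSeries.constantCoeff_C]; exact hS) one_pos ρ' 1 hdep''
    simp only [hcs, PowerSeries.constantCoeff_C, hconst, hρ0, map_one, one_mul, zero_mul, zero_add,
      add_zero] at e2
    exact hS' e2
  refine ⟨-Ra / Rb, -(PowerSeries.coeff p (MvPolynomial.aeval (Sum.elim
    (fun o : Option ι => o.elim lam t) fun _ => lam') R)) / Rb, div_ne_zero (neg_ne_zero.2 hRa0) hR',
    fun t' ht' ρ ρ' hdep => ?_⟩
  have hres : (fun i => (PowerSeries.constantCoeff (R := F)) (t' i)) = fun i => (PowerSeries.constantCoeff (R := F)) (t i) := funext fun i => by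
    have := PowerSeries.X_dvd_iff.1 ((dvd_pow_self _ (Nat.succ_ne_zero p)).trans (ht' i))
    rwa [map_sub, sub_eq_zero] at this
  have h := affine_of_relation (t := t') (by rw [hres]; exact ha) (R := R) (by rw [hres]; exact hR) hp
    ρ ρ' hdep
  rw [coeff_aeval_congr (x := Sum.elim (fun o : Option ι => o.elim lam t) fun _ : Unit => lam')
    (by rintro ((_ | i) | _) <;> simp [ht'])] at h
  simp only [hres, ← hRa, ← hRb] at h
  field_simp [hR']
  linear_combination h

end

end Vale.P199.Deletion
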