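import Vale.Agent.P199.Inv.Defs
import Vale.Agent.P199.Field.Extend
import Vale.Agent.P199.Field.Trdeg
import Vale.Agent.P199.Field.LaurResidue
import Vale.Agent.P199.Minimise.Arc
import Vale.Agent.P199.Minimise.ClassMono

/-!
P199, deletion: derivations of power and Laurent series over the centre. Coefficientwise derivations, the derivative in
the parameter, their corrections killing independent series with the same residues, and motions from derivations of a
field that contains the element of a row.
-/

namespace Vale.P199.Ders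

open Vale.Agent.P199

noncomputable section

variable {K : Type} [Field K]

/-- An integer derivation as a rational one. -/
def ratDer [CharZero K] (d : Derivation ℤ K K) : Derivation ℚ K K :=
  Derivation.mk'
    { toFun := d
      map_add' := fun a b => map_add d a b
      map_smul' := fun r a => map_ratCast_smul (d : K →+ K) ℚ ℚ r a }
    fun a b => d.leibniz a b

theorem ratDer_apply [CharZero K] (d : Derivation ℤ K K) (a : K) : ratDer d a = d a := rfl

/-- A derivation that kills generators kills what is algebraic over the algebra they generate. -/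
theorem eq_zero_of_algebraic [CharZero K] (d : Derivation ℤ K K) {S : Set K} (hS : ∀ a ∈ S, d a = 0)
    {z : K} (hz : IsAlgebraic (Algebra.adjoin ℚ S) z) : d z = 0 :=
  Fld.der_eq_zero_of_algebraic (ratDer d) hS (IntermediateField.isAlgebraic_adjoin_iff.2 hz)

/-- A map with the Leibniz rule as a derivation. -/
def mkDer {A : Type} [CommRing A] [Algebra ℤ A] (f : A → A) (hadd : ∀ a b, f (a + b) = f a + f b)
    (hmul : ∀ a b, f (a * b) = a * f b + b * f a) : Derivation ℤ A A :=
  Derivation.mk'
    (@LinearMap.mk ℤ ℤ _ _ (RingHom.id ℤ) A A _ _ Algebra.toModule (AddCommGroup.toIntModule A)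
      ⟨f, hadd⟩ fun r a => by
        rw [Algebra.smul_def, eq_intCast, ← zsmul_eq_mul, RingHom.id_apply]
        exact map_zsmul (AddMonoidHom.mk' f hadd) r a)
    fun a b => by
      rw [smul_eq_mul, smul_eq_mul]
      exact hmul a b

theorem mkDer_apply {A : Type} [CommRing A] [Algebra ℤ A] (f : A → A) (hadd hmul) (a : A) :
    mkDer f hadd hmul a = f a := rfl

/-- A derivation applied to the coefficients of a power series. -/
def psMap (d : Derivation ℤ K K) : Derivation ℤ (PowerSeries K) (PowerSeries K) :=
  mkDer (fun f => PowerSeries.mk fun m => d (PowerSeries.coeff m f))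
    (fun a b => PowerSeries.ext fun m => by simp)
    fun a b => PowerSeries.ext fun m => by
      rw [mul_comm b]
      simp only [PowerSeries.coeff_mk, map_add, PowerSeries.coeff_mul, map_sum, d.leibniz, smul_eq_mul,
        Finset.sum_add_distrib]
      congr 1
      exact Finset.sum_congr rfl fun x _ => mul_comm _ _

theorem coeff_psMap (d : Derivation ℤ K K) (f : PowerSeries K) (m : ℕ) :
    PowerSeries.coeff m (psMap d f) = d (PowerSeries.coeff m f) := by
  rw [psMap, mkDer_apply, PowerSeries.coeff_mk]

theorem cc_psMap (d : Derivation ℤ K K) (f : PowerSeries K) :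
    PowerSeries.constantCoeff (psMap d f) = d (PowerSeries.constantCoeff f) := by
  simp only [← PowerSeries.coeff_zero_eq_constantCoeff_apply, coeff_psMap]

/-- The derivative of a power series. -/
def psD : Derivation ℤ (PowerSeries K) (PowerSeries K) := (PowerSeries.derivative K).restrictScalars ℤ

theorem cc_psD (f : PowerSeries K) : PowerSeries.constantCoeff (psD f) = PowerSeries.coeff 1 f := by
  show PowerSeries.constantCoeff (PowerSeries.derivative K f) = _
  rw [← PowerSeries.coeff_zero_eq_constantCoeff_apply, PowerSeries.coeff_derivative]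
  simp

/-- A derivation applied to the coefficients of a Laurent series. -/
def lsMap (d : Derivation ℤ K K) : Derivation ℤ (LaurentSeries K) (LaurentSeries K) :=
  mkDer (fun f : LaurentSeries K => f.map (d : K →+ K))
    (fun a b => HahnSeries.ext (funext fun m => map_add d _ _))
    fun a b => HahnSeries.ext (funext fun m => by
      have hb : (b.map (d : K →+ K)).support ⊆ b.support := fun i hi h0 =>
        hi (by show d (b.coeff i) = 0; rw [h0, map_zero])
      have ha : (a.map (d : K →+ K)).support ⊆ a.support := fun i hi h0 =>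
        hi (by show d (a.coeff i) = 0; rw [h0, map_zero])
      show d ((a * b).coeff m) = _
      rw [mul_comm b, HahnSeries.coeff_add, HahnSeries.coeff_mul,
        HahnSeries.coeff_mul_right' b.isPWO_support hb, HahnSeries.coeff_mul_left' a.isPWO_support ha,
        map_sum, ← Finset.sum_add_distrib]
      refine Finset.sum_congr rfl fun x _ => ?_
      show d (a.coeff x.1 * b.coeff x.2) = a.coeff x.1 * d (b.coeff x.2) + d (a.coeff x.1) * b.coeff x.2
      rw [d.leibniz, smul_eq_mul, smul_eq_mul, mul_comm (b.coeff x.2)])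

theorem coeff_lsMap (d : Derivation ℤ K K) (f : LaurentSeries K) (m : ℤ) :
    (lsMap d f).coeff m = d (f.coeff m) := rfl

/-- The Euler operator. -/
def eulerFun (f : LaurentSeries K) : LaurentSeries K where
  coeff m := (m : K) * f.coeff m
  isPWO_support' := f.isPWO_support.mono fun m hm h0 => hm (by
    show (m : K) * f.coeff m = 0
    rw [h0, mul_zero])

/-- The Euler derivation of Laurent series. -/
def euler : Derivation ℤ (LaurentSeries K) (LaurentSeries K) :=
  mkDer eulerFun
    (fun a b => HahnSeries.ext (funext fun m => by simp [eulerFun, mul_add]))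
    fun a b => HahnSeries.ext (funext fun m => by
      show (m : K) * (a * b).coeff m = _
      rw [mul_comm b, HahnSeries.coeff_add, HahnSeries.coeff_mul,
        HahnSeries.coeff_mul_right' b.isPWO_support (fun i hi h0 => hi (by
          show (i : K) * b.coeff i = 0; rw [h0, mul_zero])),
        HahnSeries.coeff_mul_left' a.isPWO_support (fun i hi h0 => hi (by
          show (i : K) * a.coeff i = 0; rw [h0, mul_zero])),
        Finset.mul_sum, ← Finset.sum_add_distrib]
      refine Finset.sum_congr rfl fun x hx => ?_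
      rw [Finset.mem_antidiagonal] at hx
      show (m : K) * (a.coeff x.1 * b.coeff x.2) =
        a.coeff x.1 * ((x.2 : K) * b.coeff x.2) + (x.1 : K) * a.coeff x.1 * b.coeff x.2
      rw [← hx.2.2, Int.cast_add]
      ring)

theorem coeff_euler (f : LaurentSeries K) (m : ℤ) : (euler f).coeff m = (m : K) * f.coeff m := rfl

/-- The derivative of Laurent series in the parameter. -/
def lsD : Derivation ℤ (LaurentSeries K) (LaurentSeries K) :=
  (HahnSeries.single (-1 : ℤ) (1 : K) : LaurentSeries K) • euler

theorem ofPowerSeries_coeff_neg {A : Type} [Semiring A] (q : PowerSeries A) {n : ℤ} (hn : n < 0) :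
    (HahnSeries.ofPowerSeries ℤ A q).coeff n = 0 := by
  rw [HahnSeries.ofPowerSeries_apply, HahnSeries.embDomain_of_notMem_range]
  rintro ⟨k, hk⟩
  change (k : ℤ) = n at hk
  omega

theorem lsMap_coe (d : Derivation ℤ K K) (f : PowerSeries K) :
    lsMap d (HahnSeries.ofPowerSeries ℤ K f) = HahnSeries.ofPowerSeries ℤ K (psMap d f) := by
  refine HahnSeries.ext (funext fun m => ?_)
  rw [coeff_lsMap]
  rcases lt_or_ge m 0 with hm | hm
  · rw [ofPowerSeries_coeff_neg f hm, ofPowerSeries_coeff_neg _ hm, map_zero]
  · obtain ⟨k, rfl⟩ := Int.eq_ofNat_of_zero_le hm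
    rw [HahnSeries.ofPowerSeries_apply_coeff, HahnSeries.ofPowerSeries_apply_coeff, coeff_psMap]

theorem lsD_coe (f : PowerSeries K) :
    lsD (HahnSeries.ofPowerSeries ℤ K f) = HahnSeries.ofPowerSeries ℤ K (psD f) := by
  refine HahnSeries.ext (funext fun m => ?_)
  show ((HahnSeries.single (-1 : ℤ) (1 : K) : LaurentSeries K) * euler _).coeff m = _
  rw [HahnSeries.coeff_single_mul, one_mul, coeff_euler, sub_neg_eq_add]
  rcases lt_or_ge m 0 with hm | hm
  · rw [ofPowerSeries_coeff_neg (psD f) hm]
    rcases eq_or_lt_of_le (show m + 1 ≤ 0 by omega) with h | h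
    · simp [h]
    · rw [ofPowerSeries_coeff_neg f h, mul_zero]
  · obtain ⟨k, rfl⟩ := Int.eq_ofNat_of_zero_le hm
    rw [show (k : ℤ) + 1 = ((k + 1 : ℕ) : ℤ) by norm_num, HahnSeries.ofPowerSeries_apply_coeff,
      HahnSeries.ofPowerSeries_apply_coeff]
    show _ = PowerSeries.coeff k (PowerSeries.derivative K f)
    rw [PowerSeries.coeff_derivative]
    push_cast
    ring

/-- On independent values there are dual derivations. -/
theorem exists_duals [CharZero K] {ι : Type} [DecidableEq ι] {c : ι → K}
    (hc : AlgebraicIndependent ℚ c) :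
    ∃ δ : ι → Derivation ℤ K K, ∀ i k, δ i (c k) = if i = k then 1 else 0 := by
  choose d hd using fun i : ι => Fld.exists_der_of_algebraicIndependent hc fun k => if i = k then (1 : K) else 0
  exact ⟨fun i => (d i).restrictScalars ℤ, hd⟩

/-- Series with independent residues are killed by a correction of any derivation, unique at residue. -/
theorem exists_kill {ι : Type} [Fintype ι] [DecidableEq ι] (t : ι → PowerSeries K)
    (δ : ι → Derivation ℤ K K)
    (hδ : ∀ i k, δ i (PowerSeries.constantCoeff (t k)) = if i = k then 1 else 0)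
    (E : Derivation ℤ (PowerSeries K) (PowerSeries K)) :
    ∃ a : ι → PowerSeries K, (∀ k, E (t k) + ∑ i, a i * psMap (δ i) (t k) = 0) ∧
      (∀ i, PowerSeries.constantCoeff (a i) = -PowerSeries.constantCoeff (E (t i))) ∧
      ∀ p : ℕ, (∀ k, PowerSeries.X ^ p ∣ E (t k)) → ∀ i, PowerSeries.X ^ p ∣ a i := by
  let M : Matrix ι ι (PowerSeries K) := Matrix.of fun k i => psMap (δ i) (t k)
  have hM0 : M.map PowerSeries.constantCoeff = 1 := by
    ext k i
    rw [Matrix.map_apply, Matrix.one_apply]
    show PowerSeries.constantCoeff (psMap (δ i) (t k)) = _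
    rw [cc_psMap, hδ]
    exact if_congr eq_comm rfl rfl
  have hdet : IsUnit M.det := by
    rw [PowerSeries.isUnit_iff_constantCoeff, RingHom.map_det, RingHom.mapMatrix_apply, hM0,
      Matrix.det_one]
    exact isUnit_one
  let v : ι → PowerSeries K := fun k => -E (t k)
  let a := M⁻¹.mulVec v
  have ha : M.mulVec a = v := by
    rw [Matrix.mulVec_mulVec, Matrix.mul_nonsing_inv _ hdet, Matrix.one_mulVec]
  refine ⟨a, fun k => ?_, fun i => ?_, fun p hp i => Finset.dvd_sum fun k _ =>
    dvd_mul_of_dvd_right (dvd_neg.2 (hp k)) _⟩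
  · have h := congrFun ha k
    simp only [Matrix.mulVec, dotProduct, M, Matrix.of_apply, v] at h
    rw [show (∑ i, a i * psMap (δ i) (t k)) = ∑ i, psMap (δ i) (t k) * a i from
      Finset.sum_congr rfl fun i _ => mul_comm _ _, h, add_neg_cancel]
  · have h := congrArg PowerSeries.constantCoeff (congrFun ha i)
    simp only [Matrix.mulVec, dotProduct, M, Matrix.of_apply, v, map_sum, map_mul, map_neg, cc_psMap, hδ,
      ite_mul, one_mul, zero_mul, Finset.sum_ite_eq', Finset.mem_univ, if_true] at h
    exact h

/-- Coefficientwise derivations commute with coefficientwise extensions. -/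
theorem psMap_map {M : Type} [Field M] [Algebra K M] (d : Derivation ℤ K K) (d' : Derivation ℤ M M)
    (h : ∀ a, d' (algebraMap K M a) = algebraMap K M (d a)) (f : PowerSeries K) :
    psMap d' (PowerSeries.map (algebraMap K M) f) = PowerSeries.map (algebraMap K M) (psMap d f) := by
  refine PowerSeries.ext fun m => ?_
  rw [coeff_psMap, PowerSeries.coeff_map, PowerSeries.coeff_map, coeff_psMap, h]

theorem psD_map {M : Type} [Field M] [Algebra K M] (f : PowerSeries K) :
    psD (PowerSeries.map (algebraMap K M) f) = PowerSeries.map (algebraMap K M) (psD f) := by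
  refine PowerSeries.ext fun m => ?_
  show PowerSeries.coeff m (PowerSeries.derivative M _) =
    PowerSeries.coeff m (PowerSeries.map _ (PowerSeries.derivative K f))
  rw [PowerSeries.coeff_derivative, PowerSeries.coeff_map, PowerSeries.coeff_map,
    PowerSeries.coeff_derivative]
  simp

/-- Derivations extend along extensions of fields of characteristic zero. -/
theorem exists_extend [CharZero K] {M : Type} [Field M] [Algebra K M] (d : Derivation ℤ K K) :
    ∃ d' : Derivation ℤ M M, ∀ a, d' (algebraMap K M a) = algebraMap K M (d a) := by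
  have : CharZero M := charZero_of_injective_algebraMap (algebraMap K M).injective
  obtain ⟨d', hd'⟩ := Fld.exists_extend (k := ℚ) (F := K) (Om := M)
    ((Algebra.linearMap K M).compDer (ratDer d))
  exact ⟨d'.restrictScalars ℤ, hd'⟩

/-- Differentiating the equation of an element. -/
theorem eval_deriv {L : Type} [Field L] [Algebra K L] [Algebra ℤ L] (d : Derivation ℤ K K) (dL : Derivation ℤ L L)
    (h : ∀ a, dL (algebraMap K L a) = algebraMap K L (d a)) (g : Polynomial K) (x : L) {e : ℕ}
    (he : g.natDegree < e) :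
    dL (Polynomial.aeval x g) = ∑ i ∈ Finset.range e, algebraMap K L (d (g.coeff i)) * x ^ i +
      Polynomial.aeval x (Polynomial.derivative g) * dL x := by
  rw [Polynomial.aeval_eq_sum_range' he, Polynomial.aeval_def, Polynomial.eval₂_eq_eval_map,
    ← Polynomial.derivative_map, Polynomial.derivative_eval,
    Polynomial.sum_over_range' _ (fun _ => by simp) e (lt_of_le_of_lt Polynomial.natDegree_map_le he),
    map_sum, Finset.sum_mul, ← Finset.sum_add_distrib]
  refine Finset.sum_congr rfl fun i _ => ?_
  rw [Algebra.smul_def, dL.leibniz, h, dL.leibniz_pow, Polynomial.coeff_map]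
  simp only [smul_eq_mul, nsmul_eq_mul]
  ring

/-- A derivation of the centre killing the earlier symbols, extended to a field with the element of the row, gives a
motion. -/
theorem mem_motions {L : Listing} {j : ℕ} {Q : Pt} {F : Type} [Field F] [Algebra Q.K F] [Algebra ℤ F]
    (φ : F →ₐ[Q.K] Q.D) {x : F} (hx : φ x = Q.q L j) (d : Derivation ℤ Q.K Q.K)
    (hd : ∀ i < L.b j, d (Q.c i) = 0) (dF : Derivation ℤ F F)
    (h : ∀ a, dF (algebraMap Q.K F a) = algebraMap Q.K F (d a)) :
    φ (-(Polynomial.aeval x (Polynomial.derivative (minpoly Q.K (Q.q L j)))) * dF x) ∈ Inv.motions L j Q := by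
  refine ⟨d, hd, ?_⟩
  set g := minpoly Q.K (Q.q L j)
  have hg : g.Monic := minpoly.monic (Algebra.IsIntegral.isIntegral _)
  have h0 : Polynomial.aeval x g = 0 := φ.toRingHom.injective (by
    show φ (Polynomial.aeval x g) = φ 0
    rw [← Polynomial.aeval_algHom_apply, hx, minpoly.aeval, map_zero])
  have h1 := eval_deriv d dF h g x (Nat.lt_succ_self g.natDegree)
  rw [h0, map_zero, Finset.sum_range_succ, hg.coeff_natDegree, d.map_one_eq_zero, map_zero, zero_mul,
    add_zero] at h1
  rw [neg_mul, ← eq_neg_of_add_eq_zero_left h1.symm, map_sum]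
  refine Finset.sum_congr rfl fun i _ => ?_
  rw [map_mul, AlgHom.commutes, map_pow, hx, Algebra.smul_def]

/-- The value of a sum of derivations. -/
theorem der_sum_apply {A : Type} [CommRing A] [Algebra ℤ A] {ι : Type} (t : Finset ι)
    (f : ι → Derivation ℤ A A) (x : A) : (∑ i ∈ t, f i) x = ∑ i ∈ t, f i x := by
  induction t using Finset.cons_induction with
  | empty => simp
  | cons i t hi ih => rw [Finset.sum_cons, Finset.sum_cons, Derivation.add_apply, ih]

section Laur

variable {P₁ Q : Pt}

/-- A derivation of the Laurent field on the centre of the point. -/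
def transDer (T : Laur P₁ Q) (d : Derivation ℤ (LaurentSeries P₁.K) (LaurentSeries P₁.K)) :
    Derivation ℤ Q.K Q.K :=
  mkDer (fun a => T.eK (d (T.eK.symm a))) (fun a b => by simp) fun a b => by
    simp [d.leibniz]

theorem transDer_apply (T : Laur P₁ Q) (d : Derivation ℤ (LaurentSeries P₁.K) (LaurentSeries P₁.K))
    (a : Q.K) : transDer T d a = T.eK (d (T.eK.symm a)) := rfl

/-- Dual derivations on a basis of the symbols at the residue, still a basis at the point: every derivation of the
series, with a compatible one of the Laurent field, has a correction by them that kills the first `N` symbols. -/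
theorem exists_kill_symbols (T : Laur P₁ Q) {N : ℕ}
    (htr : Minimise.trdegSym N Q = Minimise.trdegSym N P₁) :
    ∃ (s : Finset (Fin N)) (δ : s → Derivation ℤ P₁.K P₁.K),
      ∀ (E : Derivation ℤ (PowerSeries P₁.K) (PowerSeries P₁.K))
        (E' : Derivation ℤ (LaurentSeries P₁.K) (LaurentSeries P₁.K)),
        (∀ f, E' (HahnSeries.ofPowerSeries ℤ P₁.K f) = HahnSeries.ofPowerSeries ℤ P₁.K (E f)) →
        ∃ a : s → PowerSeries P₁.K,
          (∀ i, PowerSeries.constantCoeff (a i) =
            -PowerSeries.constantCoeff (E (Fld.cser T (i : Fin N)))) ∧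
          (∀ p : ℕ, (∀ i < N, PowerSeries.X ^ p ∣ E (Fld.cser T i)) → ∀ k, PowerSeries.X ^ p ∣ a k) ∧
          ∀ i < N, transDer T (E' + ∑ k, (HahnSeries.ofPowerSeries ℤ P₁.K (a k)) • lsMap (δ k)) (Q.c i) = 0 := by
  classical
  obtain ⟨s, hs, hi⟩ := Minimise.exists_basis N P₁
  obtain ⟨δ, hδ⟩ := exists_duals hi
  refine ⟨s, δ, fun E E' hE => ?_⟩
  obtain ⟨a, ha, ha0, hap⟩ := exists_kill (fun i : s => Fld.cser T (i : Fin N)) δ
    (fun i k => by rw [Fld.constantCoeff_cser]; exact hδ i k) E
  refine ⟨a, ha0, fun p hp => hap p fun k => hp _ (k : Fin N).2, fun i hiN => ?_⟩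
  set d := transDer T (E' + ∑ k, (HahnSeries.ofPowerSeries ℤ P₁.K (a k)) • lsMap (δ k))
  have hiQ : AlgebraicIndependent ℚ fun k : s => Q.c (k : Fin N) :=
    Fld.step_independent P₁.extRefl T (fun k : s => ((k : Fin N) : ℕ)) hi
  have halg := IntermediateField.isAlgebraic_adjoin_iff.1
    (Minimise.isAlgebraic_of_card_eq hiQ (hs.trans htr.symm) ⟨i, hiN⟩)
  refine eq_zero_of_algebraic d (fun x hx => ?_) halg
  obtain ⟨k, hk, rfl⟩ := hx
  have hc : T.eK.symm (Q.c k) = HahnSeries.ofPowerSeries ℤ P₁.K (Fld.cser T k) := by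
    rw [T.eK.symm_apply_eq]
    exact (Fld.coe_cser T k).symm
  rw [transDer_apply, hc, map_eq_zero_iff _ T.eK.injective]
  simp only [Derivation.add_apply, der_sum_apply, Derivation.coe_smul,
    Pi.smul_apply, smul_eq_mul, hE, lsMap_coe]
  rw [← Finset.sum_congr rfl fun m _ => map_mul (HahnSeries.ofPowerSeries ℤ P₁.K) (a m) _, ← map_sum,
    ← map_add]
  exact (congrArg _ (ha ⟨k, hk⟩)).trans (map_zero _)

end Laur

/-- A derivation of the centre extends along a base change. -/
theorem exists_der_ext {P P₁ : Pt} (E : Ext P P₁) (d : Derivation ℤ P.K P.K) :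
    ∃ d₁ : Derivation ℤ P₁.K P₁.K, ∀ a, d₁ (E.iK a) = E.iK (d a) := by
  let _ : Algebra P.K P₁.K := E.iK.toAlgebra
  have : CharZero P.K := P.charZero
  exact exists_extend (M := P₁.K) d

/-- Motions are carried along a base change. -/
theorem motions_ext {L : Listing} {j : ℕ} {P P₁ : Pt} (E : Ext P P₁) {v : P.D}
    (hv : v ∈ Inv.motions L j P) : E.iD v ∈ Inv.motions L j P₁ := by
  obtain ⟨d, hd, rfl⟩ := hv
  obtain ⟨d₁, hd₁⟩ := exists_der_ext E d
  have hdeg : Minimise.degRow L j P₁ = Minimise.degRow L j P := by
    rw [Minimise.degRow, Minimise.minpoly_ext L E j, Polynomial.natDegree_map]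
    rfl
  refine ⟨d₁, fun i hi => by rw [E.c_eq, hd₁, hd i hi, map_zero], ?_⟩
  rw [hdeg, map_sum]
  refine Finset.sum_congr rfl fun i _ => ?_
  rw [Minimise.minpoly_ext L E j, Polynomial.coeff_map, hd₁, Algebra.smul_def, Algebra.smul_def, map_mul,
    E.map_algebraMap, map_pow, show E.iD (P.q L j) = P₁.q L j from E.ev_val (L.p j)]

/-- A moving element moves after a base change. -/
theorem moves_ext {L : Listing} {j : ℕ} {P P₁ : Pt} (E : Ext P P₁) (h : Inv.Moves L j P) :
    Inv.Moves L j P₁ := by
  obtain ⟨v, hv, h0⟩ := h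
  exact ⟨E.iD v, motions_ext E hv, (map_ne_zero_iff _ E.iD.injective).2 h0⟩

/-- The corrected extension of a derivation that kills the residues of the symbols keeps it as residue. -/
theorem exists_lift_killing {P₁ Q : Pt} (T : Laur P₁ Q) {N : ℕ}
    (htr : Minimise.trdegSym N Q = Minimise.trdegSym N P₁) :
    ∃ (s : Finset (Fin N)) (δ : s → Derivation ℤ P₁.K P₁.K),
      (∀ d : Derivation ℤ P₁.K P₁.K, (∀ i < N, d (P₁.c i) = 0) →
        ∃ a : s → PowerSeries P₁.K, (∀ k, PowerSeries.constantCoeff (a k) = 0) ∧
          ∀ i < N, transDer T (lsMap d + ∑ k, (HahnSeries.ofPowerSeries ℤ P₁.K (a k)) • lsMap (δ k)) (Q.c i) = 0) ∧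
      ∃ b : s → PowerSeries P₁.K,
        (∀ k, PowerSeries.constantCoeff (b k) = -PowerSeries.coeff 1 (Fld.cser T (k : Fin N))) ∧
        ∀ i < N, transDer T (lsD + ∑ k, (HahnSeries.ofPowerSeries ℤ P₁.K (b k)) • lsMap (δ k)) (Q.c i) = 0 := by
  obtain ⟨s, δ, h⟩ := exists_kill_symbols T htr
  refine ⟨s, δ, fun d hd => ?_, ?_⟩
  · obtain ⟨a, ha, -, hk⟩ := h (psMap d) (lsMap d) fun f => lsMap_coe d f
    exact ⟨a, fun k => by rw [ha, cc_psMap, Fld.constantCoeff_cser, hd _ (k : Fin N).2, neg_zero], hk⟩
  · obtain ⟨b, hb, -, hk⟩ := h psD lsD fun f => lsD_coe f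
    exact ⟨b, fun k => by rw [hb, cc_psD], hk⟩

end

end Vale.P199.Ders
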