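import Vale.Agent.P199.Deletion.KillStill
import Vale.Agent.P199.Deletion.Deletes
import Vale.Agent.P199.Inv.Induction

/-!
P199, deletion: still rows are killed along arcs and along lifts, as soon as the solved series points keep the
transcendence degree of the symbols below the row and keep its element still; both follow from the least invariants
along an edge.
-/

namespace Vale.Agent.P199

open Module

noncomputable section

namespace Inv

variable {L : Listing} {n : ℕ} {C : Stg L n → Prop}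

/-- Along an edge of a still row the symbols keep their transcendence degree and the element stays still. -/
theorem still_of_edge {s u : Stg L n} {v : Fin 5 → ℕ} (h : LowerBound L C s v) (h0 : s.rows.corank = v 0)
    (h1 : L.b n - Minimise.trdegSym (L.b n) s.P = v 1) (hv : v 2 = 1) (e : Edge L C s u) :
    Minimise.trdegSym (L.b n) u.P = Minimise.trdegSym (L.b n) s.P ∧ ¬Moves L n u.P := by
  obtain ⟨hc, ht⟩ := values_of_edge L h h0 h1 e
  refine ⟨?_, fun hm => ?_⟩
  · have := Minimise.trdegSym_le (L.b n) s.P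
    have := Minimise.trdegSym_le (L.b n) u.P
    omega
  · classical
    have h2 := h u (.single e) 2 fun k hk => by
      fin_cases k
      · exact hc
      · exact ht
      all_goals exact absurd hk (by decide)
    have h3 : value L n u 2 = 0 := by
      show (if Moves L n u.P then 0 else 1) = 0
      rw [if_pos hm]
    omega

end Inv

namespace SeriesPoint

variable {P : Pt} (X : ℕ → Bool → P.D) (Cs : ℕ → ℕ → P.K) (hX : X 0 = P.xy) (hC : Cs 0 = P.c)

/-- The symbol series of the point. -/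
theorem cser_data (i : ℕ) :
    Vale.P199.Fld.cser (data X Cs hX hC).laur i = PowerSeries.mk fun m => Cs m i :=
  PowerSeries.ext fun m => by
    rw [Vale.P199.Fld.cser, PowerSeries.coeff_mk, PowerSeries.coeff_mk]
    show (HahnSeries.ofPowerSeries ℤ P.K (PowerSeries.mk fun m => Cs m i)).coeff (m : ℤ) = _
    rw [HahnSeries.ofPowerSeries_apply_coeff, PowerSeries.coeff_mk]

/-- The element of a row at the point. -/
theorem emb_ev (L : Listing) (j : ℕ) :
    (data X Cs hX hC).laur.emb (Poly.ev (ser X Cs) (L.p j)) = (data X Cs hX hC).pt.q L j :=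
  (ev_data X Cs hX hC (L.p j)).symm

/-- The equation of a row in the series. -/
theorem ev_eqn (L : Listing) (j : ℕ) :
    Poly.ev (ser X Cs) (L.eqn j) = Poly.ev (ser X Cs) (L.p j) ^ L.e j +
      ∑ i ∈ Finset.range (L.e j), PowerSeries.map (algebraMap P.K P.D)
        (Vale.P199.Fld.cser (data X Cs hX hC).laur (L.b j + i)) * Poly.ev (ser X Cs) (L.p j) ^ i := by
  simp only [Listing.eqn, map_add, map_pow, map_sum, map_mul, Poly.ev_X]
  refine congrArg₂ _ rfl (Finset.sum_congr rfl fun i _ => ?_)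
  rw [cser_data X Cs hX hC]
  congr 1

end SeriesPoint

open SeriesPoint

/-- The transcendence degree at the base change in between. -/
theorem Minimise.trdegSym_mid {P P₁ Q : Pt} (E : Ext P P₁) (T : Laur P₁ Q) {N : ℕ}
    (h : Minimise.trdegSym N Q = Minimise.trdegSym N P) :
    Minimise.trdegSym N Q = Minimise.trdegSym N P₁ := by
  have h1 : Minimise.trdegSym N P₁ ≤ Minimise.trdegSym N Q :=
    Minimise.trdegSym_le_of_step ⟨P₁, ⟨P₁.extRefl⟩, ⟨T⟩⟩
  have h2 : Minimise.trdegSym N P ≤ Minimise.trdegSym N P₁ := by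
    obtain ⟨s, hs, hi⟩ := Minimise.exists_basis N P
    have : CharZero P.K := P.charZero
    have : CharZero P₁.K := P₁.charZero
    refine hs ▸ Minimise.card_le_trdegSym ?_
    have h3 := hi.map' (f := E.iK.toRatAlgHom) E.iK.injective
    simpa only [Function.comp_def, RingHom.toRatAlgHom_apply, ← E.c_eq] using h3
  omega

namespace Minimise

variable {P : Pt} {L : Listing} {n : ℕ} (r : Rows L n P)


/-- The solved series points below row `j` keep the symbols and keep the row still. -/
def StillKept (j : Fin n) : Prop :=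
  ∀ (X : ℕ → Bool → P.D) (Cs : ℕ → ℕ → P.K) (hX : X 0 = P.xy) (hC : Cs 0 = P.c),
    (data X Cs hX hC).pt.Solves L j →
      trdegSym (L.b j) (data X Cs hX hC).pt = trdegSym (L.b j) P ∧
        ¬Inv.Moves L j (data X Cs hX hC).pt

/-- **A still row along arcs**: the first coefficient is a scalar, and zero when the symbols are constant so far. -/
theorem arc_still (j : Fin n) (ht : (r.trunc j.2.le).Tight) (hg : ∀ i < (j : ℕ), L.Guarded i)
    (hpre : ArcPre r j) (hdeg : L.e j ≤ degRow L j P) (hkeep : StillKept (L := L) (P := P) j)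
    (X : ℕ → Bool → P.D) (Cs : ℕ → ℕ → P.K) (hX : X 0 = P.xy) (hC : Cs 0 = P.c)
    (hz : ∀ m i, 0 < m → L.b n ≤ i → Cs m i = 0) {p : ℕ} (hp : 1 ≤ p)
    (hrows : ∀ i : Fin n, i < j → ∀ k ≤ p, r.projF i ((PowerSeries.coeff k (Poly.ev (SeriesPoint.ser X Cs) (L.eqn i)))) = 0)
    (hlow : ∀ k < p, (PowerSeries.coeff k (Poly.ev (SeriesPoint.ser X Cs) (L.eqn j))) = 0) :
    (PowerSeries.coeff p (Poly.ev (SeriesPoint.ser X Cs) (L.eqn j))) ∈ P.scalars L j ∧
      ((∀ i < L.b (j + 1), ∀ k, 1 ≤ k → k ≤ p → Cs k i = 0) → (PowerSeries.coeff p (Poly.ev (SeriesPoint.ser X Cs) (L.eqn j))) = 0) := by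
  obtain ⟨X', Cs', hX', hC', hCs, hfix, hproj, hlow', hat⟩ := exists_perturb_arc r j ht hg X Cs hX hC
    hp hrows (Submodule.zero_mem _) (0 : P.K)
  rw [zero_smul, add_zero] at hat
  have hz' : ∀ m i, 0 < m → L.b n ≤ i → Cs' m i = 0 := fun m i hm hi => by
    rw [hfix m i ((NewRow.b_mono L j.2.le).trans hi), hz m i hm hi]
  have hsol : (data X' Cs' hX' hC').pt.Solves L j :=
    (solves_data X' Cs' hX' hC' L j).2 fun i hi k =>
      hpre X' Cs' hX' hC' hz' k (fun i' hi' k' _ => hproj i' hi' k') ⟨i, hi.trans j.2⟩ hi k le_rfl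
  obtain ⟨htr, hnm⟩ := hkeep X' Cs' hX' hC' hsol
  have h0 := fun k (hk : k < p) => (hlow' k hk).trans (hlow k hk)
  rw [ev_eqn X' Cs' hX' hC'] at h0
  obtain ⟨h1, h2⟩ := Vale.P199.Ders.still_coeff (data X' Cs' hX' hC').laur htr hnm hdeg
    (emb_ev X' Cs' hX' hC' L j) hp h0
  rw [← ev_eqn X' Cs' hX' hC', hat] at h1 h2
  refine ⟨h1, fun hs => h2 fun i hi k hk hkp => ?_⟩
  rw [cser_data X' Cs' hX' hC', PowerSeries.coeff_mk, hCs k hkp]
  exact hs i hi k hk hkp

/-- **A still row is killed along arcs.** -/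
theorem arcKill_still (j : Fin n) (ht : (r.trunc j.2.le).Tight) (hg : ∀ i < (j : ℕ), L.Guarded i)
    (hpre : ArcPre r j) (hdeg : L.e j ≤ degRow L j P) (hkeep : StillKept (L := L) (P := P) j) :
    ArcKill r j := fun X Cs hX hC hz p hp hrows hlow =>
  ⟨_, (arc_still r j ht hg hpre hdeg hkeep X Cs hX hC hz hp
    (fun i hi k hk => by rw [hrows i hi k hk, map_zero]) hlow).1, by rw [sub_self]; exact zero_mem _⟩

/-- **The differential of a still row**: where the rows before it are solved in projection it is a scalar, and it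
vanishes when the symbols are fixed. -/
theorem dEq_still (j : Fin n) (ht : (r.trunc j.2.le).Tight) (hg : ∀ i < (j : ℕ), L.Guarded i)
    (hS : P.Solves L n) (hpre : ArcPre r j) (hdeg : L.e j ≤ degRow L j P)
    (hkeep : StillKept (L := L) (P := P) j) (w : P.Dir (L.b n))
    (hrows : ∀ i : Fin n, i < j → r.projF i (P.dEq L (L.b n) i w) = 0) :
    P.dEq L (L.b n) j w ∈ P.scalars L j ∧ (w.2 = 0 → P.dEq L (L.b n) j w = 0) := by
  let X : ℕ → Bool → P.D := fun k => if k = 0 then P.xy else if k = 1 then w.1 else 0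
  let Cs : ℕ → ℕ → P.K := fun k i =>
    if k = 0 then P.c i else if h : k = 1 ∧ i < L.b n then w.2 ⟨i, h.2⟩ else 0
  have hX : X 0 = P.xy := if_pos rfl
  have hC : Cs 0 = P.c := funext fun i => if_pos rfl
  have h1 : ∀ i : ℕ, (PowerSeries.coeff 1 (Poly.ev (SeriesPoint.ser X Cs) (L.eqn i))) = P.dEq L (L.b n) i w := fun i => by
    rw [Poly.coeff_one_ev, cf_ser_zero X Cs hX hC, show Poly.cf 1 (ser X Cs) = P.dirVal w by
      rw [cf_ser]
      funext z
      cases z with
      | inl a => rfl
      | inr l => by_cases hl : l < L.b n <;> simp [Pt.dirVal, Cs, hl]]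
    rfl
  have h0 : ∀ i : ℕ, i < n → (PowerSeries.coeff 0 (Poly.ev (SeriesPoint.ser X Cs) (L.eqn i))) = 0 := fun i hi => by
    rw [Poly.coeff_zero_ev, cf_ser_zero X Cs hX hC, hS i hi]
  obtain ⟨g1, g2⟩ := arc_still r j ht hg hpre hdeg hkeep X Cs hX hC
    (fun m i hm hi => by simp [Cs, hm.ne', not_lt.2 hi]) (le_refl 1)
    (fun i hi k hk => by
      rcases Nat.le_one_iff_eq_zero_or_eq_one.1 hk with rfl | rfl
      · rw [h0 i i.2, map_zero]
      · rw [h1, hrows i hi])
    (fun k hk => by rw [Nat.lt_one_iff.1 hk, h0 j j.2])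
  rw [h1] at g1 g2
  exact ⟨g1, fun hw => g2 fun i _ k hk hk1 => by
    rw [le_antisymm hk1 hk]
    by_cases hi : i < L.b n <;> simp [Cs, hw]⟩

end Minimise

namespace LiftSeries

variable {P P₁ : Pt} (E : Ext P P₁) {L : Listing} {n : ℕ} (r : Rows L n P) (a b : Rows.Amb P)
  (U V : P₁.D)

/-- **A still row is killed at lifts.** -/
theorem rowKill_still (j : Fin n) (hdeg : L.e j ≤ Minimise.degRow L j P)
    (hkeep : ∀ w : ℕ → P₁.Dir (L.b n),
      (data (XW E a b U V w) (CW w) rfl rfl).pt.Solves L j →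
        Minimise.trdegSym (L.b j) (data (XW E a b U V w) (CW w) rfl rfl).pt =
            Minimise.trdegSym (L.b j) P ∧
          ¬Inv.Moves L j (data (XW E a b U V w) (CW w) rfl rfl).pt) :
    RowKill E r a b U V j := by
  intro w m hrows hlow
  have hsol : (data (XW E a b U V w) (CW w) rfl rfl).pt.Solves L j :=
    (solves_data _ _ rfl rfl L j).2 fun i hi k => hrows ⟨i, hi.trans j.2⟩ hi k
  obtain ⟨htr, hnm⟩ := hkeep w hsol
  have hdeg₁ : L.e j ≤ Minimise.degRow L j P₁ := by
    rw [Minimise.degRow, Minimise.minpoly_ext L E j, Polynomial.natDegree_map]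
    exact hdeg
  have h0 : ∀ k < m + 2, err E a b U V w k j = 0 := hlow
  simp only [err, serW] at h0
  rw [ev_eqn (XW E a b U V w) (CW w) rfl rfl] at h0
  obtain ⟨h1, -⟩ := Vale.P199.Ders.still_coeff (data (XW E a b U V w) (CW w) rfl rfl).laur
    (Minimise.trdegSym_mid E (data (XW E a b U V w) (CW w) rfl rfl).laur htr) hnm hdeg₁
    (emb_ev (XW E a b U V w) (CW w) rfl rfl L j) (show 1 ≤ m + 2 by omega) h0
  rw [← ev_eqn (XW E a b U V w) (CW w) rfl rfl] at h1
  exact ⟨_, h1, by rw [err, serW, sub_self]; exact zero_mem _⟩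

end LiftSeries

end

end Vale.Agent.P199
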