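import Vale.Agent.P199.Deletion.Perturb
import Vale.Agent.P199.LiftSym
import Vale.Agent.P199.Main.Trunc
import Vale.Agent.P199.FullImage

/-!
P199, deletion: perturbing the series of a lift below a row. The forms of the two directions cut the tangents of a
prefix without shrinking their image in a later row; adding such a tangent at an order from two on keeps the prefix
solved in projection and changes the later row at that order by its differential.
-/

namespace Vale.Agent.P199

open Module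

noncomputable section

/-- The equation of a guarded row only sees the symbols up to that row. -/
theorem Listing.ev_eqn_congr {R : Type} [Ring R] (L : Listing) {i : ℕ} (hg : L.Guarded i) {v v' : Var → R}
    (ha : ∀ a, v (Sum.inl a) = v' (Sum.inl a))
    (hi : ∀ k < L.b (i + 1), v (Sum.inr k) = v' (Sum.inr k)) :
    Poly.ev v (L.eqn i) = Poly.ev v' (L.eqn i) := by
  have hb : L.b i ≤ L.b (i + 1) := NewRow.b_mono L i.le_succ
  simp only [Listing.eqn, map_add, map_pow, map_sum, map_mul, Poly.ev_X,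
    hg v v' ha fun k h => hi k (h.trans_le hb)]
  congr 1
  refine Finset.sum_congr rfl fun k hk => ?_
  rw [hi (L.b i + k) (by rw [L.b_succ]; exact Nat.add_lt_add_left (Finset.mem_range.1 hk) _)]

theorem exists_dual_ext {F A B : Type*} [Field F] [AddCommGroup A] [Module F A] [AddCommGroup B]
    [Module F B] (ι : A →ₗ[F] B) (hι : Function.Injective ι) (f : A →ₗ[F] F) :
    ∃ g : B →ₗ[F] F, ∀ a, g (ι a) = f a := by
  obtain ⟨g, rfl⟩ := LinearMap.dualMap_surjective_of_injective hι f
  exact ⟨g, fun a => rfl⟩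

theorem eq_zero_of_dual {F A : Type*} [Field F] [AddCommGroup A] [Module F A] (a : A)
    (h : ∀ f : A →ₗ[F] F, f a = 0) : a = 0 :=
  (forall_dual_apply_eq_zero_iff F a).1 h

namespace LiftSeries

variable {P P₁ : Pt} (E : Ext P P₁) {L : Listing} {n : ℕ} (r : Rows L n P) {a b : Rows.Amb P}
  {U V : P₁.D}

theorem trunc_last {m : ℕ} {prev : Fin m → P₁.Dir (L.b n)} {f : ℕ → P₁.Dir (L.b n)}
    (hp : ∀ i : Fin m, prev i = f i) {i : ℕ} (hi : i < m + 1) : trunc prev (f m) i = f i := by
  simp only [trunc]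
  by_cases h1 : i < m
  · rw [dif_pos h1, hp]
  · rw [dif_neg h1, if_pos (by omega), show i = m by omega]

variable (a b U V)

/-- The coefficients on the symbols of a prefix. -/
def cutW {i : ℕ} (hi : i ≤ n) (w : ℕ → P₁.Dir (L.b n)) : ℕ → P₁.Dir (L.b i) :=
  fun m => P₁.cutDir (NewRow.b_mono L hi) (w m)

/-- A row only sees the symbols up to it. -/
theorem err_cutW {i : ℕ} (hi : i ≤ n) (w : ℕ → P₁.Dir (L.b n)) {j : ℕ} (hj : j < i)
    (hg : L.Guarded j) (m : ℕ) :
    err (L := L) (n := i) E a b U V (cutW hi w) m j = err E a b U V w m j := by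
  refine congrArg (PowerSeries.coeff m)
    (L.ev_eqn_congr (R := PowerSeries P₁.D) hg (fun c => ?_) fun k hk => ?_)
  · refine PowerSeries.ext fun p => ?_
    simp only [serW, SeriesPoint.ser, PowerSeries.coeff_mk]
    match p with
    | 0 => rfl
    | 1 => rfl
    | p + 2 => rfl
  · refine PowerSeries.ext fun p => ?_
    simp only [serW, SeriesPoint.ser, PowerSeries.coeff_mk]
    have hki : k < L.b i := hk.trans_le (NewRow.b_mono L hj)
    match p with
    | 0 => rfl
    | 1 => rfl
    | p + 2 => simp [CW, cutW, Pt.cutDir, hki, hki.trans_le (NewRow.b_mono L hi)]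

/-- Vanishing projections on a prefix. -/
theorem PF_cutW {i : ℕ} (hi : i ≤ n) (hg : ∀ j < i, L.Guarded j) (w : ℕ → P₁.Dir (L.b n))
    (j : Fin i) (m : ℕ) :
    PF E (r.trunc hi) j (err (L := L) (n := i) E a b U V (cutW hi w) m j) =
      PF E r (Fin.castLE hi j) (err E a b U V w m j) := by
  rw [err_cutW E a b U V hi w j.2 (hg j j.2)]
  rfl

variable {a b U V}

/-- A prefix is again ready to be lifted. -/
theorem LiftData.cutRows (h : LiftData E r a b U V) {i : ℕ} (hi : i ≤ n)
    (ht : (r.trunc hi).Tight) (ha : (r.trunc hi).Alternating) :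
    LiftData E (r.trunc hi) a b U V := by
  let ι : (r.trunc hi).Y →ₗ[P.K] r.Y :=
    (((r.res hi).dualMap).comp (r.trunc hi).Y.subtype).codRestrict r.Y fun y =>
      r.dualMap_res_mem hi y.2
  have hι : Function.Injective ι := fun y z e => Subtype.ext
    (LinearMap.dualMap_injective_of_surjective (r.res_surjective hi) (congrArg Subtype.val e))
  refine
    { tight := ht, alt := ha, mul := h.mul, memU := h.memU, memV := h.memV, comm := h.comm
      memA := r.T_le_trunc hi h.memA, memB := r.T_le_trunc hi h.memB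
      ab := fun y hy => by rw [← r.form_trunc hi]; exact h.ab _ (r.dualMap_res_mem hi hy)
      solA := fun f => ?_, solB := fun f => ?_ }
  all_goals obtain ⟨g, hg⟩ := exists_dual_ext (F := P.K) (A := (r.trunc hi).Y) (B := r.Y) ι hι f
  · obtain ⟨s, hs, h'⟩ := h.solA g
    exact ⟨s, r.T_le_trunc hi hs, fun y => by
      rw [← r.form_trunc hi, ← r.form_trunc hi]
      exact ⟨(h' (ι y)).1.trans (hg y), (h' (ι y)).2⟩⟩
  · obtain ⟨s, hs, h'⟩ := h.solB g
    exact ⟨s, r.T_le_trunc hi hs, fun y => by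
      rw [← r.form_trunc hi, ← r.form_trunc hi]
      exact ⟨(h' (ι y)).1.trans (hg y), (h' (ι y)).2⟩⟩

/-- A tangent of a prefix may be changed into one killed by the forms of `a` and `b` with the same
differential on a row. -/
theorem exists_cut (h : LiftData E r a b U V) {i : ℕ} (hi : i ≤ n) (j : Fin n) {t₀ : Rows.Amb P}
    (ht₀ : t₀ ∈ (r.trunc hi).T) :
    ∃ t ∈ (r.trunc hi).T,
      (∀ y ∈ (r.trunc hi).Y, (r.trunc hi).form y a t = 0 ∧ (r.trunc hi).form y b t = 0) ∧
      P.dEq L (L.b n) j (t, 0) = P.dEq L (L.b n) j (t₀, 0) := by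
  set r' := r.trunc hi
  let Φ : (r'.Y × r'.Y) →ₗ[P.K] Dual P.K r'.T :=
    ((pairing r' a).dualMap ∘ₗ r'.Y.subtype).coprod ((pairing r' b).dualMap ∘ₗ r'.Y.subtype)
  have hval : ∀ (y z : r'.Y) (s : r'.T), Φ (y, z) s = r'.form y a s + r'.form z b s :=
    fun y z s => rfl
  let Ψ : r'.T →ₗ[P.K] P.D :=
    ((P.dEq L (L.b n) j).comp (LinearMap.inl P.K _ _)).comp r'.T.subtype
  have hT : (r.T.comap r'.T.subtype) ≤ LinearMap.ker Ψ := fun s hs =>
    LinearMap.mem_ker.2 (h.tight.fixed _ hs j)
  have hinj : ∀ p, (∀ s ∈ r.T.comap r'.T.subtype, Φ p s = 0) → p = 0 := by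
    rintro ⟨y, z⟩ hp
    have hp' : ∀ s ∈ r.T, r.form ((r.res hi).dualMap y) a s + r.form ((r.res hi).dualMap z) b s = 0 :=
      fun s hs => by
        have h1 := hp ⟨s, r.T_le_trunc hi hs⟩ hs
        rw [hval] at h1
        rw [r.form_trunc hi, r.form_trunc hi]
        exact h1
    have h0 : ∀ (y₀ : r'.Y), (∀ f : Dual P.K r.Y,
        f ⟨_, r.dualMap_res_mem hi y₀.2⟩ = 0) → y₀ = 0 := fun y₀ hy₀ => by
      have h1 := eq_zero_of_dual (F := P.K) (A := r.Y) _ hy₀
      exact Subtype.ext (LinearMap.dualMap_injective_of_surjective (r.res_surjective hi)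
        ((congrArg Subtype.val h1).trans (map_zero _).symm))
    refine Prod.ext (h0 y fun f => ?_) (h0 z fun f => ?_)
    · obtain ⟨s, hs, hs'⟩ := h.solA f
      have h1 := hp' s hs
      rwa [(hs' ⟨_, r.dualMap_res_mem hi y.2⟩).1, (hs' ⟨_, r.dualMap_res_mem hi z.2⟩).2,
        add_zero] at h1
    · obtain ⟨s, hs, hs'⟩ := h.solB f
      have h1 := hp' s hs
      rwa [(hs' ⟨_, r.dualMap_res_mem hi y.2⟩).2, (hs' ⟨_, r.dualMap_res_mem hi z.2⟩).1,
        zero_add] at h1
  have h1 : Ψ ⟨t₀, ht₀⟩ ∈ Submodule.map Ψ (LinearMap.range Φ).dualCoannihilator := by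
    rw [Vale.P199.FullImage.map_coannihilator_eq_range (F := P.K) (Y := r'.Y × r'.Y) Φ Ψ _ hT hinj]
    exact LinearMap.mem_range_self _ _
  obtain ⟨t, ht, he⟩ := Submodule.mem_map.1 h1
  rw [Submodule.mem_dualCoannihilator] at ht
  refine ⟨t, t.2, fun y hy => ⟨?_, ?_⟩, he⟩
  · have h2 := ht _ ⟨(⟨y, hy⟩, 0), rfl⟩
    rw [hval] at h2
    simpa [Rows.form] using h2
  · have h2 := ht _ ⟨(0, ⟨y, hy⟩), rfl⟩
    rw [hval] at h2
    simpa [Rows.form] using h2

/-- **Perturbation below a row**: the rows before `j` stay solved in projection, row `j` keeps its coefficients below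
the order and moves at it by the differential of the tangent. -/
theorem exists_perturb_row (h : LiftData E r a b U V) (j : Fin n)
    (ht : (r.trunc j.2.le).Tight) (ha : (r.trunc j.2.le).Alternating)
    (hg : ∀ i < (j : ℕ), L.Guarded i) (hS : P.Solves L j) (w : ℕ → P₁.Dir (L.b n))
    (hw : ∀ i : Fin n, i < j → ∀ k, PF E r i (err E a b U V w k i) = 0) {M : P₁.D}
    (hM : M ∈ monSpan E) {t₀ : Rows.Amb P} (ht₀ : t₀ ∈ (r.trunc j.2.le).T) (m : ℕ) (s : P₁.K) :
    ∃ w' : ℕ → P₁.Dir (L.b n), (∀ k ≤ m + 2, CW w' k = CW w k) ∧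
      (∀ i : Fin n, i < j → ∀ k, PF E r i (err E a b U V w' k i) = 0) ∧
      (∀ k < m + 2, err E a b U V w' k j = err E a b U V w k j) ∧
      err E a b U V w' (m + 2) j =
        err E a b U V w (m + 2) j + s • (E.iD (P.dEq L (L.b n) j (t₀, 0)) * M) := by
  have hi : (j : ℕ) ≤ n := j.2.le
  obtain ⟨t, htT, hforms, htd⟩ := exists_cut E r h hi j ht₀
  have hd := LiftData.cutRows E r h hi ht ha
  set r' := r.trunc hi with hr'
  have hsM : s • M ∈ monSpan E := Submodule.smul_mem _ _ hM
  let u : P₁.Dir (L.b j) := (fun c => E.iD (t c) * (s • M), 0)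
  obtain ⟨hu, hu'⟩ := free_tangent E r' hd (ν := s • M) htT hsM (fun y hy => (hforms y hy).1)
    fun y hy => (hforms y hy).2
  have hw' : ∀ (i : Fin j) k, PF E r' i (err (L := L) (n := j) E a b U V (cutW hi w) k i) = 0 :=
    fun i k => by
      rw [PF_cutW E r a b U V hi hg]
      exact hw (Fin.castLE hi i) i.2 k
  obtain ⟨v, hv, hvm, hvp, -, -⟩ := exists_perturbed E r' hS hd (cutW hi w) hw' m u hu hu'
  let w₁ : ℕ → P₁.Dir (L.b n) := fun k =>
    ((v k).1, fun i => if hk : (i : ℕ) < L.b j then (v k).2 ⟨i, hk⟩ else (w k).2 i)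
  have hcut : cutW hi w₁ = v := funext fun k =>
    Prod.ext rfl (funext fun i => by simp [cutW, Pt.cutDir, w₁])
  have hlow : ∀ k < m, w₁ k = w k := fun k hk =>
    Prod.ext (by simp [w₁, hv k hk, cutW, Pt.cutDir]) (funext fun i => by
      by_cases hib : (i : ℕ) < L.b j
      · simp [w₁, hv k hk, cutW, Pt.cutDir, hib]
      · simp [w₁, hib])
  have hat : w₁ m = w m + ((fun c => E.iD (t c) * (s • M), 0) : P₁.Dir (L.b n)) :=
    Prod.ext (by simp [w₁, hvm, cutW, Pt.cutDir, u]) (funext fun i => by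
      by_cases hib : (i : ℕ) < L.b j
      · simp [w₁, hvm, cutW, Pt.cutDir, u, hib]
      · simp [w₁, hib])
  refine ⟨w₁, fun k hk => ?_, fun i hij k => ?_, fun k hk => ?_, ?_⟩
  · match k with
    | 0 => rfl
    | 1 => rfl
    | k + 2 =>
      have h2 : (w₁ k).2 = (w k).2 := by
        rcases Nat.lt_or_eq_of_le (show k ≤ m by omega) with h1 | rfl
        · rw [hlow k h1]
        · rw [hat]; simp
      funext i
      simp only [CW, h2]
  · have h1 := hvp ⟨i, hij⟩ k
    rw [← hcut, PF_cutW E r a b U V hi hg] at h1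
    exact h1
  · exact err_congr E a b U V (k := m) hlow hk j
  · have h1 : ∀ (x : ℕ → P₁.Dir (L.b n)), (∀ i < m, x i = w i) →
        err E a b U V x (m + 2) j =
          P₁.dEq L (L.b n) j (x m) + err E a b U V (trunc (fun i : Fin m => w i) 0) (m + 2) j :=
      fun x hx => by
        rw [← err_trunc_low E a b U V (fun i : Fin m => w i) (x m) j]
        exact err_congr E a b U V (k := m + 1)
          (fun i hi' => (trunc_last (fun l => (hx l l.2).symm) hi').symm) (by omega) j
    rw [h1 w₁ hlow, h1 w fun _ _ => rfl, hat, map_add, dEq_mul E t hsM, htd, mul_smul_comm]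
    abel

end LiftSeries

end

end Vale.Agent.P199
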