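import Vale.Agent.P199.Deletion.KeyPoint
import Vale.Agent.P199.Deletion.StillRows
import Vale.Agent.P199.Inv.DeleteRows
import Vale.Agent.P199.Inv.Minimiser

/-!
P199, KEY on the invariant: at an edge descendant the remembered lower bounds make the class field small, so KEY at a
series point gives the hypotheses of deletion at moving rows.
-/

namespace Vale.Agent.P199

open Module SkewLaurent

noncomputable section

namespace KeyPoint

open Inv

variable {L : Listing} {j : ℕ}

/-- The class field grows along a base change. -/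
theorem classF_ext {P P₁ : Pt} (E : Ext P P₁) {a : P.D} (ha : a ∈ classF L j P) :
    E.iD a ∈ classF L j P₁ := by
  induction ha using Algebra.adjoin_induction with
  | mem x hx =>
    obtain ⟨u, hu, w, hw, hu0, rfl⟩ := hx
    exact Algebra.subset_adjoin ⟨_, Vale.P199.Ders.motions_ext E hu, _, Vale.P199.Ders.motions_ext E hw,
      (map_ne_zero_iff _ E.iD.injective).2 hu0, by rw [map_mul, map_inv₀]⟩
  | algebraMap r => rw [E.map_algebraMap]; exact Subalgebra.algebraMap_mem _ _
  | add x y _ _ hx hy => rw [map_add]; exact add_mem hx hy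
  | mul x y _ _ hx hy => rw [map_mul]; exact mul_mem hx hy

/-- Its dimension does not drop. -/
theorem finrank_classF_le {P P₁ : Pt} (E : Ext P P₁) :
    finrank P.K (classF L j P) ≤ finrank P₁.K (classF L j P₁) := by
  let b := finBasis P.K (classF L j P)
  have hli : LinearIndependent P.K fun i => (b i : P.D) :=
    b.linearIndependent.map' (classF L j P).val.toLinearMap (LinearMap.ker_eq_bot.2 Subtype.val_injective)
  have h1 : LinearIndependent P₁.K fun i => (⟨E.iD (b i : P.D), classF_ext E (b i).2⟩ : classF L j P₁) :=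
    LinearIndependent.of_comp (classF L j P₁).val.toLinearMap (E.linearIndependent_iD hli)
  simpa using h1.fintype_card_le_finrank

/-- Small algebras for a larger field are small for a smaller one. -/
theorem small_mono {P : Pt} {F F' : Set P.D} (h : F ⊆ F') {d : ℕ} {y : P.D}
    (hy : Deletion.Small F' d y) : Deletion.Small F d y :=
  (Submodule.finrank_mono (s := (Algebra.adjoin P.K (insert y F)).toSubmodule)
    (t := (Algebra.adjoin P.K (insert y F')).toSubmodule)
    (Algebra.adjoin_mono (Set.insert_subset_insert h))).trans hy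

/-- **The lower bounds make the class field small** at an edge descendant that moves at full degree. -/
theorem bound_of_edge {C : Stg L j → Prop} {s t : Stg L j} {v : Fin 5 → ℕ} (hlb : LowerBound L C s v)
    (h0 : s.rows.corank = v 0) (h1 : L.b j - Minimise.trdegSym (L.b j) s.P = v 1) (he : Edge L C s t)
    (hv2 : v 2 = 0) (hv4 : finrank s.P.K (classF L j s.P) * v 4 = L.e j) (hpos : 0 < L.e j) {N : ℕ}
    (hdim : finrank t.P.K t.P.D = L.e j ^ 2 * N ^ 2 * v 3) (hmov : Moves L j t.P)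
    (hdeg : L.e j * N ≤ Minimise.degRow L j t.P) :
    finrank t.P.K (classF L j t.P) ≤ finrank s.P.K (classF L j s.P) * N := by
  classical
  obtain ⟨c0, c1⟩ := values_of_edge L hlb h0 h1 he
  have e0 : value L j t 0 = v 0 := c0
  have e1 : value L j t 1 = v 1 := c1
  have e2 : value L j t 2 = v 2 := by rw [hv2]; exact if_pos hmov
  have hd : 0 < finrank t.P.K t.P.D := Module.finrank_pos
  set d := Minimise.degRow L j t.P
  have hd0 : 0 < d := Minimise.degRow_pos L j t.P
  have l3 : v 3 ≤ finrank t.P.K t.P.D / d ^ 2 := hlb t (.single he) 3 fun k hk => by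
    have hk' : (k : ℕ) < 3 := hk
    fin_cases k <;> first | exact e0 | exact e1 | exact e2 | exact absurd hk' (by norm_num)
  have hmul : d ^ 2 * v 3 ≤ (L.e j * N) ^ 2 * v 3 := by
    calc d ^ 2 * v 3 ≤ d ^ 2 * (finrank t.P.K t.P.D / d ^ 2) := Nat.mul_le_mul_left _ l3
      _ ≤ finrank t.P.K t.P.D := Nat.mul_div_le _ _
      _ = _ := by rw [hdim]; ring
  have hv3 : 0 < v 3 := by
    rcases Nat.eq_zero_or_pos (v 3) with h | h
    · rw [hdim, h, mul_zero] at hd; exact absurd hd (lt_irrefl 0)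
    · exact h
  have hdN : d = L.e j * N :=
    le_antisymm ((Nat.pow_le_pow_iff_left two_ne_zero).1 (Nat.le_of_mul_le_mul_right hmul hv3)) hdeg
  have e3 : value L j t 3 = v 3 := by
    show finrank t.P.K t.P.D / d ^ 2 = v 3
    rw [hdim, hdN, show L.e j ^ 2 * N ^ 2 * v 3 = (L.e j * N) ^ 2 * v 3 by ring,
      Nat.mul_div_cancel_left _ (pow_pos (hdN ▸ hd0) 2)]
  have l4 : v 4 ≤ d / finrank t.P.K (classF L j t.P) := hlb t (.single he) 4 fun k hk => by
    have hk' : (k : ℕ) < 4 := hk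
    fin_cases k <;> first | exact e0 | exact e1 | exact e2 | exact e3 | exact absurd hk' (by norm_num)
  have h4 : 0 < v 4 := Nat.pos_of_ne_zero fun h => by rw [h, mul_zero] at hv4; omega
  have h : finrank t.P.K (classF L j t.P) * v 4 ≤ L.e j * N :=
    (Nat.mul_le_mul_left _ l4).trans ((Nat.mul_div_le _ _).trans_eq hdN)
  rw [← hv4, mul_right_comm] at h
  exact Nat.le_of_mul_le_mul_right h h4

/-- **KEY on the invariant**: at series over a base change of a stage with lower bounds, whose points are edge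
descendants, the error shifted by a scalar is small. -/
theorem key_of_edges {C : Stg L j → Prop} {t : Stg L j} {v : Fin 5 → ℕ} (hlb : LowerBound L C t v)
    (h0 : t.rows.corank = v 0) (h1 : L.b j - Minimise.trdegSym (L.b j) t.P = v 1) (hv2 : v 2 = 0)
    (hv4 : finrank t.P.K (classF L j t.P) * v 4 = L.e j) (hpos : 0 < L.e j)
    (hsol : Poly.ev t.P.val (L.eqn j) = 0) (hdeg : Minimise.degRow L j t.P = L.e j) {ρ : t.P.D}
    (hρ : ρ ∈ motions L j t.P) (hρ0 : ρ ≠ 0) {P₁ : Pt} (E : Ext t.P P₁) {N : ℕ}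
    (hdim : finrank P₁.K P₁.D = L.e j ^ 2 * N ^ 2 * v 3) (Cs : ℕ → ℕ → P₁.K) (hC : Cs 0 = P₁.c)
    {p : ℕ} (hp : 0 < p) :
    ∃ β ∈ P₁.scalars L j,
      ((∀ k, 0 < k → k ≤ p → ∀ i < L.b (j + 1), Cs k i = 0) → β = 0) ∧
      ∀ (X' : ℕ → Bool → P₁.D) (Cs' : ℕ → ℕ → P₁.K) (hX : X' 0 = P₁.xy) (hC' : Cs' 0 = P₁.c),
        (∀ i < L.b (j + 1), ∀ k ≤ p, Cs' k i = Cs k i) →
        (∃ r : Rows L j (SeriesPoint.data X' Cs' hX hC').pt, Edge L C t ⟨_, r⟩) →
        (∀ k < p, PowerSeries.coeff k (Poly.ev (SeriesPoint.ser X' Cs') (L.eqn j)) = 0) →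
        Deletion.Gen (P₁.q L j) (L.e j) N
          (PowerSeries.coeff p (Poly.ev (SeriesPoint.ser X' Cs') (L.eqn j))) →
        Deletion.Small (E.iD '' (classF L j t.P : Set t.P.D)) (finrank t.P.K (classF L j t.P) * N)
          ((E.iD ρ)⁻¹ * (PowerSeries.coeff p (Poly.ev (SeriesPoint.ser X' Cs') (L.eqn j)) - β)) := by
  have hN : 0 < N := Nat.pos_of_ne_zero fun h => by
    have hd : 0 < finrank P₁.K P₁.D := Module.finrank_pos
    simp [hdim, h] at hd
  have hsol₁ : Poly.ev P₁.val (L.eqn j) = 0 := by rw [← E.ev_val, hsol, map_zero]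
  have hdeg₁ : Minimise.degRow L j P₁ = L.e j := by
    rw [← hdeg, Minimise.degRow, Minimise.minpoly_ext L E j, Polynomial.natDegree_map]
    rfl
  obtain ⟨β, hβ, hzero, hkey⟩ := key hsol₁ hdeg₁ (Vale.P199.Ders.motions_ext E hρ)
    ((map_ne_zero_iff _ E.iD.injective).2 hρ0) hN (finrank_classF_le E) Cs hC hp
  refine ⟨β, hβ, hzero, fun X' Cs' hX hC' hCs hedge hlow hgen => ?_⟩
  obtain ⟨r, hr⟩ := hedge
  set T := SeriesPoint.data X' Cs' hX hC'
  set f := Poly.ev (SeriesPoint.ser X' Cs') (L.eqn j) with hf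
  let Ser : PowerSeries P₁.D := PowerSeries.mk fun k => PowerSeries.coeff (k + p) f
  have hSer : PowerSeries.X ^ p * Ser = f := PowerSeries.ext fun k => by
    rw [PowerSeries.coeff_X_pow_mul']
    split_ifs with h
    · rw [PowerSeries.coeff_mk, Nat.sub_add_cancel h]
    · rw [hlow k (not_le.1 h)]
  have hcc : PowerSeries.constantCoeff Ser = PowerSeries.coeff p f := by
    rw [← PowerSeries.coeff_zero_eq_constantCoeff_apply, PowerSeries.coeff_mk, zero_add]
  have htr : Minimise.trdegSym (L.b j) T.pt = Minimise.trdegSym (L.b j) P₁ := by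
    refine Minimise.trdegSym_mid E T.laur ?_
    exact Inv.trdeg_of_desc L hlb h0 h1 (.single hr)
  have hdimT : finrank T.pt.K T.pt.D = L.e j ^ 2 * N ^ 2 * v 3 := T.finrank_pt.trans hdim
  have h := hkey T.pt T.laur (fun i hi k hk => by
      rw [← hCs i hi k hk, SeriesPoint.cser_data X' Cs' hX hC', PowerSeries.coeff_mk]) htr Ser (by
      rw [hSer, SeriesPoint.ev_data]; rfl)
    (fun hmov hd => bound_of_edge hlb h0 h1 hr hv2 hv4 hpos hdimT hmov hd) (by rw [hcc]; exact hgen)
  rw [hcc] at h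
  refine small_mono ?_ h.2
  rintro _ ⟨a, ha, rfl⟩
  exact classF_ext E ha

end KeyPoint

namespace Inv

variable {L : Listing}

/-- **KEY along arcs.** -/
theorem arcKeyAt : ArcKeyAt L := by
  intro n t j v hctx hm hedges μ Pr hμ hF hN hd hρ Cs p hC _ hp
  obtain ⟨β, hβ, -, hkey⟩ := KeyPoint.key_of_edges hctx.lb hctx.corank hctx.trdeg hm.still hm.dim hctx.pos
    hctx.solved hctx.deg hρ Pr.ρ_ne t.P.extRefl hμ Cs hC hp
  refine ⟨β, hβ, fun X' Cs' hX hC' _ hfix hrows hlow hgen => ?_⟩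
  rw [hN] at hgen
  rw [hd, hF]
  have h := hkey X' Cs' hX hC' (fun i _ k hk => congrFun (hfix k hk) i)
    (hedges X' Cs' hX hC' ((SeriesPoint.solves_data _ _ hX hC' L j).2 fun i hi k =>
      hrows ⟨i, hi.trans j.2⟩ hi k)) hlow hgen
  refine KeyPoint.small_mono ?_ h
  intro a ha
  exact ⟨a, ha, rfl⟩

/-- **KEY at lifts.** -/
theorem liftKeyAt {adm : ∀ {n : ℕ}, Stg L n → ℕ → Prop} : LiftKeyAt L adm := by
  intro n t j v hctx hm S a b _ hedges μ ρ Pr hμ hρ hρ' hF hN hd w m hrows
  have hρ0 : ρ ≠ 0 := fun h => Pr.ρ_ne (by rw [hρ', h, map_zero])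
  have hdim : finrank S.pt.K S.pt.D = L.e j ^ 2 * (μ * S.l) ^ 2 * v 3 := by
    rw [finrank_symPt, hμ]; ring
  obtain ⟨β, hβ, -, hkey⟩ := KeyPoint.key_of_edges hctx.lb hctx.corank hctx.trdeg hm.still hm.dim hctx.pos
    hctx.solved hctx.deg hρ hρ0 S.ext hdim (LiftSeries.CW w) rfl (Nat.succ_pos (m + 1))
  refine ⟨β, hβ, fun w' hC' hrows' hlow hgen => ?_⟩
  rw [hN] at hgen
  rw [hd, hF, hρ']
  exact hkey (LiftSeries.XW S.ext a b S.U S.V w') (LiftSeries.CW w') rfl rfl
    (fun i _ k hk => congrFun (hC' k hk) i)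
    (hedges w' ((SeriesPoint.solves_data _ _ rfl rfl L j).2 fun i hi k => hrows' ⟨i, hi.trans j.2⟩ hi k))
    hlow hgen

end Inv

end

end Vale.Agent.P199
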