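import Vale.Agent.P199.Lift.Lead
import Vale.Agent.P199.Minimise.Degree
import Vale.Agent.P199.Deletion.Roots

/-!
P199, deletion, KEY step 1: a commutative subalgebra `S` of a Laurent point. Its residues form a field `M` of the same
degree, its integral elements are exactly the series over `M` (Hensel at a primitive element), and the intermediate
subalgebras correspond to the series with coefficients in their residue fields.
-/

namespace Vale.Agent.P199

open Module Polynomial

noncomputable section

namespace KeyField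

variable {K A : Type} [Field K] [Ring A] [Algebra K A]

/-- Scalar series inside the series over an algebra. -/
abbrev sc : PowerSeries K →+* PowerSeries A := PowerSeries.map (algebraMap K A)

theorem sc_commute (z : PowerSeries K) (g : PowerSeries A) : Commute (sc z) g := by
  refine PowerSeries.ext fun m => ?_
  rw [PowerSeries.coeff_mul, PowerSeries.coeff_mul, ← Finset.Nat.sum_antidiagonal_swap]
  refine Finset.sum_congr rfl fun x _ => ?_
  rw [Prod.fst_swap, Prod.snd_swap, PowerSeries.coeff_map]
  exact Algebra.commutes _ _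

theorem cc_map {R S : Type} [Semiring R] [Semiring S] (f : R →+* S) (y : PowerSeries R) :
    PowerSeries.constantCoeff (PowerSeries.map f y) = f (PowerSeries.constantCoeff y) := by
  rw [← PowerSeries.coeff_zero_eq_constantCoeff_apply, PowerSeries.coeff_map,
    PowerSeries.coeff_zero_eq_constantCoeff_apply]

/-- Evaluation of polynomials over the scalar series at a series. -/
def evS (p : PowerSeries A) : (PowerSeries K)[X] →+* PowerSeries A :=
  Polynomial.eval₂RingHom' sc p fun a => sc_commute a p

theorem evS_apply (p : PowerSeries A) (R : (PowerSeries K)[X]) : evS p R = R.eval₂ sc p := rfl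

theorem evS_C (p : PowerSeries A) (z : PowerSeries K) : evS p (Polynomial.C z) = sc z :=
  eval₂_C _ _

theorem evS_X (p : PowerSeries A) : evS (K := K) p X = p := eval₂_X _ _

/-- A series in a basis. -/
theorem series_repr {ι : Type} [Fintype ι] (b : Basis ι K A) (s : PowerSeries A) :
    ∑ i, sc (PowerSeries.mk fun m => b.repr (PowerSeries.coeff m s) i) * PowerSeries.C (b i) = s := by
  refine PowerSeries.ext fun m => ?_
  conv_rhs => rw [← b.sum_repr (PowerSeries.coeff m s)]
  rw [map_sum]
  exact Finset.sum_congr rfl fun i _ => by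
    rw [PowerSeries.coeff_mul_C, PowerSeries.coeff_map, PowerSeries.coeff_mk, Algebra.smul_def]

/-- Series with independent residues are independent over the scalar series. -/
theorem eq_zero_of_sum {ι : Type} [Fintype ι] (v : ι → PowerSeries A)
    (hv : LinearIndependent K fun i => PowerSeries.constantCoeff (v i)) (z : ι → PowerSeries K)
    (h : ∑ i, sc (z i) * v i = 0) (i : ι) : z i = 0 := by
  suffices main : ∀ (m : ℕ) i, PowerSeries.coeff m (z i) = 0 from
    PowerSeries.ext fun m => by rw [main m i, map_zero]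
  intro m
  induction m using Nat.strong_induction_on with
  | _ m ih =>
    have hm := congrArg (PowerSeries.coeff m) h
    rw [map_sum, map_zero] at hm
    refine Fintype.linearIndependent_iff.1 hv (fun i => PowerSeries.coeff m (z i))
      ((Finset.sum_congr rfl fun i _ => ?_).trans hm)
    rw [PowerSeries.coeff_mul, Finset.sum_eq_single (m, 0), PowerSeries.coeff_map,
      PowerSeries.coeff_zero_eq_constantCoeff_apply, Algebra.smul_def]
    · intro q hq hq'
      rw [Finset.HasAntidiagonal.mem_antidiagonal] at hq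
      have hq1 : q.1 < m := by
        by_contra hge
        exact hq' (Prod.ext (by simp only; omega) (by simp only; omega))
      rw [PowerSeries.coeff_map, ih q.1 hq1, map_zero, zero_mul]
    · intro hn
      exact absurd (by simp) hn

variable {M : Type} [Field M]

/-- A simple root is determined by its residue. -/
theorem root_unique (f : (PowerSeries M)[X]) {u v : PowerSeries M} (hu : f.eval u = 0)
    (hv : f.eval v = 0) (hc : PowerSeries.constantCoeff u = PowerSeries.constantCoeff v)
    (h1 : (f.map PowerSeries.constantCoeff).derivative.eval (PowerSeries.constantCoeff v) ≠ 0) :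
    u = v := by
  obtain ⟨k, hk⟩ := binomExpansion f v (u - v)
  rw [add_sub_cancel, hu, hv, zero_add] at hk
  have hunit : IsUnit (f.derivative.eval v + k * (u - v)) := Vale.P199.Deletion.isUnit_of_cc (by
    rwa [map_add, map_mul, map_sub, hc, sub_self, mul_zero, add_zero, ← eval₂_at_apply, ← eval_map,
      ← derivative_map])
  have h0 : (f.derivative.eval v + k * (u - v)) * (u - v) = 0 := by
    linear_combination -hk
  exact sub_eq_zero.1 ((hunit.mul_right_eq_zero).1 h0)

/-- A series near a simple residual root: the root has coefficients in the small field, and the distance to it is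
read off from the value. -/
theorem exists_root_expansion {L : Type} [Field L] (i : L →+* M) (f : (PowerSeries L)[X]) {a : L}
    (h0 : (f.map PowerSeries.constantCoeff).eval a = 0)
    (h1 : (f.map PowerSeries.constantCoeff).derivative.eval a ≠ 0) (q : PowerSeries M)
    (hq : PowerSeries.constantCoeff q = i a) {p : ℕ} (E : PowerSeries M)
    (hE : f.eval₂ (PowerSeries.map i) q = PowerSeries.X ^ p * E) :
    ∃ lam : PowerSeries L, f.eval lam = 0 ∧ PowerSeries.constantCoeff lam = a ∧
      ∃ Z : PowerSeries M, q = PowerSeries.map i lam + PowerSeries.X ^ p * Z ∧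
        PowerSeries.constantCoeff Z =
          PowerSeries.constantCoeff E / i ((f.map PowerSeries.constantCoeff).derivative.eval a) := by
  obtain ⟨lam, hlam, hlc⟩ := Vale.P199.Deletion.hensel f h0 h1
  refine ⟨lam, hlam, hlc, ?_⟩
  set fM := f.map (PowerSeries.map i) with hfM
  set l := PowerSeries.map i lam with hl
  set w := i ((f.map PowerSeries.constantCoeff).derivative.eval a) with hwdef
  have hfl : fM.eval l = 0 := by rw [hfM, eval_map, hl, eval₂_at_apply, hlam, map_zero]
  have hd : PowerSeries.constantCoeff (fM.derivative.eval l) = w := by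
    rw [hfM, derivative_map, eval_map, hl, eval₂_at_apply, hwdef, ← hlc, derivative_map, eval_map,
      eval₂_at_apply]
    simp only [cc_map]
  obtain ⟨k, hk⟩ := binomExpansion fM l (q - l)
  rw [add_sub_cancel, hfl, zero_add, hfM, eval_map, hE] at hk
  have hcc : PowerSeries.constantCoeff (q - l) = 0 := by
    rw [map_sub, hq, hl, ← hlc]
    simp [cc_map]
  set u := fM.derivative.eval l + k * (q - l) with hu
  have hcu : PowerSeries.constantCoeff u = w := by
    rw [hu, map_add, map_mul, hcc, mul_zero, add_zero, hd]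
  have hw : w ≠ 0 := (map_ne_zero i).2 h1
  obtain ⟨v, hv⟩ := Vale.P199.Deletion.isUnit_of_cc (F := M) (a := u) (by rw [hcu]; exact hw)
  refine ⟨E * ↑v⁻¹, ?_, ?_⟩
  · have h2 : (q - l) * u = PowerSeries.X ^ p * E := by rw [hk, hu, hfM]; ring
    rw [← hv] at h2
    rw [← mul_assoc, ← h2, Units.mul_inv_cancel_right, add_sub_cancel]
  · have h3 : PowerSeries.constantCoeff (↑v⁻¹ : PowerSeries M) * w = 1 := by
      rw [← hcu, ← hv, ← map_mul, Units.inv_mul, map_one]
    rw [map_mul, eq_div_iff hw, mul_assoc, h3, mul_one]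

/-- Reduction modulo an equation of a series. -/
theorem evS_mod {G : (PowerSeries K)[X]} (hG : G.Monic) {d : ℕ} (hGd : G.natDegree = d)
    (F : (PowerSeries K)[X]) {y : PowerSeries A} (hy : evS y G = 0) :
    evS y F = ∑ k : Fin d, sc ((F %ₘ G).coeff k) * y ^ (k : ℕ) := by
  conv_lhs => rw [← modByMonic_add_div F G]
  rw [map_add, map_mul, hy, zero_mul, add_zero]
  rcases eq_or_ne (F %ₘ G) 0 with h0 | h0
  · simp [h0]
  have hlt : (F %ₘ G).natDegree < d := by
    have h1 := degree_modByMonic_lt F hG
    rw [degree_eq_natDegree hG.ne_zero, hGd] at h1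
    exact (natDegree_lt_iff_degree_lt h0).2 h1
  rw [evS_apply, eval₂_eq_sum_range' _ hlt, Fin.sum_univ_eq_sum_range
    (fun k => sc ((F %ₘ G).coeff k) * y ^ k)]

/-- A lift of a primitive element generates the series. -/
theorem evS_surjective [Algebra K M] {d : ℕ} (b : Basis (Fin d) K M) {θ : M}
    (hb : ∀ k : Fin d, b k = θ ^ (k : ℕ)) {w : PowerSeries M}
    (hwθ : PowerSeries.constantCoeff w = θ) : Function.Surjective (evS (K := K) w) := by
  let Am : Matrix (Fin d) (Fin d) (PowerSeries K) := .of fun k i =>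
    PowerSeries.mk fun m => b.repr (PowerSeries.coeff m (w ^ (k : ℕ))) i
  have hdet : IsUnit Am.det := by
    refine PowerSeries.isUnit_iff_constantCoeff.2 ?_
    have h1 : (PowerSeries.constantCoeff (R := K)).mapMatrix Am = 1 := by
      refine Matrix.ext fun k i => ?_
      rw [RingHom.mapMatrix_apply, Matrix.map_apply, show Am k i =
          PowerSeries.mk (fun m => b.repr (PowerSeries.coeff m (w ^ (k : ℕ))) i) from rfl,
        PowerSeries.constantCoeff_mk, PowerSeries.coeff_zero_eq_constantCoeff_apply, map_pow, hwθ,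
        ← hb, b.repr_self, Finsupp.single_apply, Matrix.one_apply]
    rw [RingHom.map_det, h1, Matrix.det_one]
    exact isUnit_one
  intro s
  let c : Fin d → PowerSeries K := fun i => PowerSeries.mk fun m => b.repr (PowerSeries.coeff m s) i
  refine ⟨∑ k : Fin d, Polynomial.C (∑ i, c i * Am⁻¹ i k) * X ^ (k : ℕ), ?_⟩
  have hC : ∀ i, ∑ k, sc (Am⁻¹ i k) * w ^ (k : ℕ) = PowerSeries.C (b i) := by
    intro i
    calc ∑ k, sc (Am⁻¹ i k) * w ^ (k : ℕ)
        = ∑ k, sc (Am⁻¹ i k) * ∑ i', sc (Am k i') * PowerSeries.C (b i') :=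
          Finset.sum_congr rfl fun k _ => by
            conv_lhs => rw [← series_repr b (w ^ (k : ℕ))]
            rfl
      _ = ∑ i', sc ((Am⁻¹ * Am) i i') * PowerSeries.C (b i') := by
          simp only [Finset.mul_sum, ← mul_assoc, ← map_mul, Matrix.mul_apply, map_sum, Finset.sum_mul]
          exact Finset.sum_comm
      _ = PowerSeries.C (b i) := by
          simp [Matrix.nonsing_inv_mul Am hdet, Matrix.one_apply, apply_ite (PowerSeries.map _), ite_mul]
  calc evS w (∑ k : Fin d, Polynomial.C (∑ i, c i * Am⁻¹ i k) * X ^ (k : ℕ))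
      = ∑ k : Fin d, sc (∑ i, c i * Am⁻¹ i k) * w ^ (k : ℕ) := by
        simp only [map_sum (evS w), map_mul (evS w), map_pow (evS w), evS_C, evS_X]
    _ = ∑ i, sc (c i) * ∑ k, sc (Am⁻¹ i k) * w ^ (k : ℕ) := by
        simp only [map_sum, map_mul, Finset.sum_mul, Finset.mul_sum, mul_assoc]
        exact Finset.sum_comm
    _ = s := by simp only [hC]; exact series_repr b s

/-- Sending a lift of a primitive element to a series with the same residue and equation. -/
theorem exists_lift_hom (inc : M →+* A) [Algebra K M]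
    (hinc : ∀ y, inc (algebraMap K M y) = algebraMap K A y) (hinj : Function.Injective inc) {d : ℕ}
    (b : Basis (Fin d) K M) {θ : M} (hb : ∀ k : Fin d, b k = θ ^ (k : ℕ)) {G : (PowerSeries K)[X]}
    (hG : G.Monic) (hGd : G.natDegree = d) {w : PowerSeries M} (hwθ : PowerSeries.constantCoeff w = θ)
    {p : PowerSeries A} (hpθ : PowerSeries.constantCoeff p = inc θ) (hGw : evS w G = 0)
    (hGp : evS p G = 0) :
    ∃ σ : PowerSeries M →+* PowerSeries A, Function.Injective σ ∧
      (∀ s, PowerSeries.constantCoeff (σ s) = inc (PowerSeries.constantCoeff s)) ∧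
      (∀ y : PowerSeries K, σ (sc y) = sc y) ∧
      (∀ s, ∃ c : Fin d → PowerSeries K, σ s = ∑ k, sc (c k) * p ^ (k : ℕ)) ∧
      ∀ c : Fin d → PowerSeries K, ∃ s, σ s = ∑ k, sc (c k) * p ^ (k : ℕ) := by
  classical
  let incA : M →ₐ[K] A := { inc with commutes' := hinc }
  have hwLI : LinearIndependent K fun k : Fin d => PowerSeries.constantCoeff (w ^ (k : ℕ)) := by
    simp only [map_pow, hwθ, ← hb]
    exact b.linearIndependent
  have hpLI : LinearIndependent K fun k : Fin d => PowerSeries.constantCoeff (p ^ (k : ℕ)) := by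
    simp only [map_pow, hpθ, ← map_pow inc, ← hb]
    exact b.linearIndependent.map' incA.toLinearMap (LinearMap.ker_eq_bot.2 hinj)
  have hred := fun (F : (PowerSeries K)[X]) => evS_mod (A := A) hG hGd F (y := p) hGp
  have hredw := fun (F : (PowerSeries K)[X]) => evS_mod (A := M) hG hGd F (y := w) hGw
  have hker : RingHom.ker (evS w) ≤ RingHom.ker (evS p) := fun F hF => by
    rw [RingHom.mem_ker] at hF ⊢
    rw [hredw F] at hF
    rw [hred F]
    exact Finset.sum_eq_zero fun k _ => by
      rw [eq_zero_of_sum _ hwLI _ hF k, map_zero, zero_mul]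
  have hsurj : Function.Surjective (evS (K := K) w) := evS_surjective b hb hwθ
  have hwd : ∀ F F' : (PowerSeries K)[X], evS w F = evS w F' → evS p F = evS p F' := fun F F' e => by
    have h1 : F - F' ∈ RingHom.ker (evS (K := K) w) :=
      RingHom.mem_ker.2 ((map_sub (evS (K := K) w) F F').trans (by rw [e, sub_self]))
    have h2 := RingHom.mem_ker.1 (hker h1)
    rwa [map_sub (evS (K := K) p), sub_eq_zero] at h2
  choose inv hinv using hsurj
  let σ : PowerSeries M →+* PowerSeries A :=
    { toFun := fun s => evS p (inv s)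
      map_one' := (hwd _ 1 (by rw [hinv, map_one])).trans (map_one _)
      map_mul' := fun a c => (hwd _ (inv a * inv c) (by rw [hinv, map_mul, hinv, hinv])).trans (map_mul _ _ _)
      map_zero' := (hwd _ 0 (by rw [hinv, map_zero])).trans (map_zero _)
      map_add' := fun a c => (hwd _ (inv a + inv c) (by rw [hinv, map_add, hinv, hinv])).trans (map_add _ _ _) }
  have hσ : ∀ F, σ (evS w F) = evS p F := fun F => hwd _ _ (hinv _)
  refine ⟨σ, (injective_iff_map_eq_zero _).2 fun s hs => ?_, fun s => ?_, fun y => ?_, fun s => ?_,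
    fun c => ⟨evS w (∑ k : Fin d, Polynomial.C (c k) * X ^ (k : ℕ)), ?_⟩⟩
  · obtain ⟨F, rfl⟩ : ∃ F, evS w F = s := ⟨inv s, hinv s⟩
    rw [hσ, hred F] at hs
    rw [hredw F]
    exact Finset.sum_eq_zero fun k _ => by rw [eq_zero_of_sum _ hpLI _ hs k, map_zero, zero_mul]
  · obtain ⟨F, rfl⟩ : ∃ F, evS w F = s := ⟨inv s, hinv s⟩
    rw [hσ, evS_apply, evS_apply, hom_eval₂, hom_eval₂, hpθ, hwθ, hom_eval₂]
    congr 1
    exact RingHom.ext fun y => by simp only [RingHom.comp_apply, cc_map, hinc]
  · rw [← evS_C w y, hσ, evS_C]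
  · obtain ⟨F, rfl⟩ : ∃ F, evS w F = s := ⟨inv s, hinv s⟩
    exact ⟨_, (hσ F).trans (hred F)⟩
  · simp only [hσ, map_sum (evS p), map_mul (evS p), map_pow (evS p), evS_C, evS_X]

end KeyField

namespace Laur

open KeyField LaurentAlg SkewLaurent

variable {P₁ Q : Pt} (h : Laur P₁ Q)

theorem emb_injective : Function.Injective h.emb := h.eD.injective.comp psE_injective

/-- The residues of the integral elements of a subalgebra. -/
def resAlg (S : Subalgebra Q.K Q.D) : Subalgebra P₁.K P₁.D where
  carrier := {a | ∃ p : PowerSeries P₁.D, h.emb p ∈ S ∧ PowerSeries.constantCoeff p = a}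
  mul_mem' := by
    rintro a b ⟨p, hp, rfl⟩ ⟨p', hp', rfl⟩
    exact ⟨p * p', by rw [map_mul]; exact mul_mem hp hp', map_mul _ _ _⟩
  one_mem' := ⟨1, by rw [map_one]; exact one_mem _, map_one _⟩
  add_mem' := by
    rintro a b ⟨p, hp, rfl⟩ ⟨p', hp', rfl⟩
    exact ⟨p + p', by rw [map_add]; exact add_mem hp hp', map_add _ _ _⟩
  zero_mem' := ⟨0, by rw [map_zero]; exact zero_mem _, map_zero _⟩
  algebraMap_mem' a := ⟨PowerSeries.map (algebraMap P₁.K P₁.D) (PowerSeries.C a),
    by rw [emb_apply, h.eD_scalar]; exact Subalgebra.algebraMap_mem _ _,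
    by rw [PowerSeries.map_C, PowerSeries.constantCoeff_C]⟩

theorem mem_resAlg {S : Subalgebra Q.K Q.D} {a : P₁.D} :
    a ∈ h.resAlg S ↔
      ∃ p : PowerSeries P₁.D, h.emb p ∈ S ∧ PowerSeries.constantCoeff p = a := Iff.rfl

theorem resAlg_mono {S S' : Subalgebra Q.K Q.D} (hS : S ≤ S') : h.resAlg S ≤ h.resAlg S' :=
  fun _ ⟨p, hp, ha⟩ => ⟨p, hS hp, ha⟩

theorem resAlg_comm {S : Subalgebra Q.K Q.D} (hS : ∀ a ∈ S, ∀ b ∈ S, a * b = b * a) {a b : P₁.D}
    (ha : a ∈ h.resAlg S) (hb : b ∈ h.resAlg S) : a * b = b * a := by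
  obtain ⟨p, hp, rfl⟩ := ha
  obtain ⟨p', hp', rfl⟩ := hb
  rw [← map_mul, ← map_mul, h.emb_injective (by rw [map_mul, map_mul]; exact hS _ hp _ hp' :
    h.emb (p * p') = h.emb (p' * p))]

theorem emb_sc_mem (S : Subalgebra Q.K Q.D) (z : PowerSeries P₁.K) :
    h.emb (sc z) ∈ S := by
  rw [emb_apply, h.eD_scalar]
  exact Subalgebra.algebraMap_mem _ _

theorem emb_sum_mem {S : Subalgebra Q.K Q.D} {ι : Type} [Fintype ι] (z : ι → PowerSeries P₁.K)
    (p : ι → PowerSeries P₁.D) (hp : ∀ i, h.emb (p i) ∈ S) :
    h.emb (∑ i, sc (z i) * p i) ∈ S := by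
  rw [map_sum]
  exact sum_mem fun i _ => by rw [map_mul]; exact mul_mem (h.emb_sc_mem S _) (hp i)

/-- A subalgebra is closed under division by powers of the parameter. -/
theorem div_mem {S : Subalgebra Q.K Q.D} {k : ℕ} {p : PowerSeries P₁.D}
    (hp : h.emb (PowerSeries.X ^ k * p) ∈ S) : h.emb p ∈ S := by
  have hX : (PowerSeries.X : PowerSeries P₁.D) ^ k = sc ((PowerSeries.X : PowerSeries P₁.K) ^ k) := by
    rw [map_pow, PowerSeries.map_X]
  rw [hX, map_mul, emb_apply, h.eD_scalar, ← Algebra.smul_def] at hp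
  set t := h.eK (HahnSeries.ofPowerSeries ℤ P₁.K (PowerSeries.X ^ k))
  have ht : t ≠ 0 := (map_ne_zero_iff _ h.eK.injective).2
    ((map_ne_zero_iff _ HahnSeries.ofPowerSeries_injective).2 (pow_ne_zero _ PowerSeries.X_ne_zero))
  have h2 := S.smul_mem hp t⁻¹
  rwa [inv_smul_smul₀ ht] at h2

/-- Residues keep the dimension. -/
theorem finrank_resAlg (S : Subalgebra Q.K Q.D) : finrank P₁.K (h.resAlg S) = finrank Q.K S := by
  let _ := laurentAlgebra (K := P₁.K) (D := P₁.D)
  have halg : ∀ z, algebraMap (LaurentSeries P₁.K) (SkewLaurent (1 : RingAut P₁.D)) z =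
      laurentScalarHom z := fun _ => rfl
  have hsmul : ∀ (z : LaurentSeries P₁.K) (f : SkewLaurent (1 : RingAut P₁.D)),
      h.eD (z • f) = h.eK z • h.eD f := fun z f => by
    have hz : laurentScalarHom z = h.eD.symm (algebraMap Q.K Q.D (h.eK z)) :=
      ext_cf fun n => by rw [cf_laurentScalarHom, h.map_scalar]
    rw [Algebra.smul_def, halg, hz, map_mul, RingEquiv.apply_symm_apply, ← Algebra.smul_def]
  let S' : Submodule (LaurentSeries P₁.K) (Unit → SkewLaurent (1 : RingAut P₁.D)) :=
    { carrier := {f | h.eD (f ()) ∈ S}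
      zero_mem' := by simp [zero_mem S]
      add_mem' := fun {f g} hf hg => by
        show h.eD (f () + g ()) ∈ S
        rw [h.eD.map_add]; exact add_mem hf hg
      smul_mem' := fun z f hf => by
        show h.eD (z • f ()) ∈ S
        rw [hsmul]; exact S.smul_mem hf _ }
  have h1 : finrank (LaurentSeries P₁.K) S' = finrank Q.K S := by
    let j : S' ≃+ S :=
      { toFun := fun f => ⟨h.eD (f.1 ()), f.2⟩
        invFun := fun a => ⟨fun _ => h.eD.symm a.1, by
          show h.eD (h.eD.symm a.1) ∈ S
          rw [RingEquiv.apply_symm_apply]; exact a.2⟩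
        left_inv := fun f => Subtype.ext (funext fun _ => h.eD.symm_apply_apply _)
        right_inv := fun a => Subtype.ext (h.eD.apply_symm_apply _)
        map_add' := fun f g => Subtype.ext (h.eD.map_add _ _) }
    exact congrArg Cardinal.toNat (rank_eq_of_equiv_equiv h.eK j h.eK.bijective
      fun z f => Subtype.ext (hsmul z (f.1 ())))
  rw [← h1, ← LeadE.finrank_lead halg S']
  refine (LinearEquiv.finrank_eq (LinearEquiv.ofEq _ _ (?_ : Subalgebra.toSubmodule (h.resAlg S) =
    (LeadE.lead halg S').map (LinearEquiv.funUnique Unit P₁.K P₁.D).toLinearMap))).trans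
    (LinearEquiv.finrank_map_eq _ _)
  ext a
  constructor
  · rintro ⟨p, hp, rfl⟩
    refine ⟨fun _ => PowerSeries.constantCoeff p, ⟨fun _ => psE p, hp, fun _ n hn => cf_neg_psE p hn,
      funext fun _ => ?_⟩, rfl⟩
    show cf (psE p) ((0 : ℕ) : ℤ) = _
    rw [cf_psE, PowerSeries.coeff_zero_eq_constantCoeff_apply]
  · rintro ⟨x, ⟨f, hf, hfi, rfl⟩, rfl⟩
    obtain ⟨p, hp⟩ := exists_psE_of_integral (hfi ())
    refine ⟨p, ?_, ?_⟩
    · rw [emb_apply, hp]; exact hf
    · show _ = cf (f ()) ((0 : ℕ) : ℤ)
      rw [← hp, cf_psE, PowerSeries.coeff_zero_eq_constantCoeff_apply]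

/-- Integral coordinates in a family with independent residues of full size. -/
theorem exists_coords {S : Subalgebra Q.K Q.D} {ι : Type} [Fintype ι] (p : ι → PowerSeries P₁.D)
    (hp : ∀ i, h.emb (p i) ∈ S) (hb : LinearIndependent P₁.K fun i => PowerSeries.constantCoeff (p i))
    (hcard : finrank Q.K S ≤ Fintype.card ι) {r : PowerSeries P₁.D} (hr : h.emb r ∈ S) :
    ∃ z : ι → PowerSeries P₁.K, r = ∑ i, sc (z i) * p i := by
  classical
  let v : Option ι → PowerSeries P₁.D := fun o => o.elim r p
  have hdep : ¬LinearIndependent Q.K fun o => h.emb (v o) := fun hLI => by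
    have hS : ∀ o, h.emb (v o) ∈ S := fun o => by cases o with
      | none => exact hr
      | some i => exact hp i
    have h1 := (LinearIndependent.of_comp S.val.toLinearMap
      (v := fun o => (⟨h.emb (v o), hS o⟩ : S)) hLI).fintype_card_le_finrank
    rw [Fintype.card_option] at h1
    omega
  obtain ⟨z, ⟨o, ho⟩, hz⟩ := h.exists_relation v hdep
  rw [Fintype.sum_option] at hz
  have hn : PowerSeries.constantCoeff (z none) ≠ 0 := fun h0 => by
    have h2 := congrArg PowerSeries.constantCoeff hz
    simp only [map_add, map_mul, map_sum, map_zero] at h2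
    have hcc : ∀ y : PowerSeries P₁.K, PowerSeries.constantCoeff (sc y : PowerSeries P₁.D) =
        algebraMap P₁.K P₁.D (PowerSeries.constantCoeff y) := fun y => by
      simp [cc_map]
    simp only [hcc, h0, map_zero, zero_mul, zero_add] at h2
    have h3 := Fintype.linearIndependent_iff.1 hb (fun i => PowerSeries.constantCoeff (z (some i)))
      (by simpa [v, Algebra.smul_def] using h2)
    cases o with
    | none => exact ho h0
    | some i => exact ho (h3 i)
  obtain ⟨u, hu⟩ := Vale.P199.Deletion.isUnit_of_cc hn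
  refine ⟨fun i => -(↑u⁻¹ * z (some i)), ?_⟩
  have h4 : sc (z none) * r + ∑ i, sc (z (some i)) * p i = 0 := hz
  have h5 := congrArg (fun y => sc (↑u⁻¹ : PowerSeries P₁.K) * y) (eq_neg_of_add_eq_zero_left h4)
  simp only [← mul_assoc, ← map_mul, ← hu, Units.inv_mul, map_one, one_mul] at h5
  rw [h5, mul_neg, Finset.mul_sum, ← Finset.sum_neg_distrib]
  exact Finset.sum_congr rfl fun i _ => by rw [← mul_assoc, ← map_mul, map_neg, neg_mul]

/-- The integral elements of a commutative subalgebra as series over its residue field. -/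
structure Model (S : Subalgebra Q.K Q.D) where
  /-- The residue field. -/
  M : Type
  [instF : Field M]
  [instA : Algebra P₁.K M]
  [instFin : FiniteDimensional P₁.K M]
  /-- The inclusion into the residue algebra. -/
  inc : M →ₐ[P₁.K] P₁.D
  range_inc : inc.range = h.resAlg S
  /-- The lift of series. -/
  sig : PowerSeries M →+* PowerSeries P₁.D
  sig_injective : Function.Injective sig
  res : ∀ s, PowerSeries.constantCoeff (sig s) = inc (PowerSeries.constantCoeff s)
  scalar : ∀ z : PowerSeries P₁.K, sig (sc z) = sc z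
  mem : ∀ s, h.emb (sig s) ∈ S
  surj : ∀ r, h.emb r ∈ S → ∃ s, sig s = r

attribute [instance] Model.instF Model.instA Model.instFin

/-- **There is a model.** -/
theorem nonempty_model (S : Subalgebra Q.K Q.D) (hS : ∀ a ∈ S, ∀ b ∈ S, a * b = b * a) :
    Nonempty (h.Model S) := by
  classical
  let R := h.resAlg S
  let _ : CommRing R :=
    { (inferInstance : Ring R) with mul_comm := fun a b => Subtype.ext (h.resAlg_comm hS a.2 b.2) }
  have : IsDomain R := Function.Injective.isDomain R.val.toRingHom Subtype.val_injective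
  let _ : Field R := fieldOfFiniteDimensional P₁.K R
  have := P₁.charZero
  obtain ⟨θ, hθ⟩ := Field.exists_primitive_element P₁.K R
  set d := (minpoly P₁.K θ).natDegree
  have hd : d = finrank P₁.K R := by
    rw [← IntermediateField.finrank_top' (F := P₁.K) (E := R), ← hθ,
      IntermediateField.adjoin.finrank (Algebra.IsIntegral.isIntegral θ)]
  obtain ⟨p, hp, hpθ⟩ := θ.2
  have hpow : LinearIndependent P₁.K fun k : Fin d => PowerSeries.constantCoeff (p ^ (k : ℕ)) := by
    have h1 := (linearIndependent_pow (K := P₁.K) θ).map' R.val.toLinearMap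
      (LinearMap.ker_eq_bot.2 Subtype.val_injective)
    have e : (fun k : Fin d => PowerSeries.constantCoeff (p ^ (k : ℕ))) =
        R.val.toLinearMap ∘ fun k : Fin d => θ ^ (k : ℕ) := funext fun k => by
      rw [map_pow, hpθ]
      rfl
    rw [e]
    exact h1
  obtain ⟨z, hz⟩ := h.exists_coords (fun k : Fin d => p ^ (k : ℕ))
    (fun k => by rw [map_pow]; exact pow_mem hp _) hpow
    (by rw [← h.finrank_resAlg S, Fintype.card_fin, hd]) (r := p ^ d)
    (by rw [map_pow]; exact pow_mem hp _)
  -- the equation of the lift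
  let G : (PowerSeries P₁.K)[X] := X ^ d - ∑ k : Fin d, Polynomial.C (z k) * X ^ (k : ℕ)
  have hG : G.Monic := monic_X_pow_sub (degree_sum_fin_lt z)
  have hGd : G.natDegree = d := natDegree_eq_of_degree_eq_some
    ((degree_sub_eq_left_of_degree_lt (by rw [degree_X_pow]; exact degree_sum_fin_lt z)).trans
      (degree_X_pow d))
  have hGp : evS p G = 0 := by
    simp only [G, map_sub, map_pow, map_sum, map_mul, evS_C, evS_X]
    rw [sub_eq_zero, hz]
  set g := G.map PowerSeries.constantCoeff with hg
  have hgθ : aeval θ g = 0 := by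
    refine Subtype.ext ?_
    show R.val (aeval θ g) = ((0 : R) : P₁.D)
    rw [← aeval_algHom_apply]
    have h2 := congrArg PowerSeries.constantCoeff hGp
    rw [evS_apply, hom_eval₂, map_zero, hpθ] at h2
    rw [aeval_def, hg, eval₂_map]
    refine Eq.trans ?_ h2
    congr 1
  have hgmin : g = minpoly P₁.K θ := (Polynomial.eq_of_monic_of_dvd_of_natDegree_le
    (minpoly.monic (Algebra.IsIntegral.isIntegral θ)) (hG.map _) (minpoly.dvd _ θ hgθ)
    (by rw [hG.natDegree_map, hGd]))
  have hg' : aeval θ g.derivative ≠ 0 := by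
    rw [hgmin]
    exact (minpoly.irreducible (Algebra.IsIntegral.isIntegral θ)).separable.aeval_derivative_ne_zero
      (minpoly.aeval _ θ)
  -- its root in the series over the residue field
  have hmapcc : ((G.map (sc : PowerSeries P₁.K →+* PowerSeries R)).map PowerSeries.constantCoeff) =
      g.map (algebraMap P₁.K R) := by
    rw [hg, Polynomial.map_map, Polynomial.map_map]
    congr 1
  obtain ⟨w, hw, hwθ⟩ := Vale.P199.Deletion.hensel (G.map (sc : PowerSeries P₁.K →+* PowerSeries R))
    (a := θ) (by rw [hmapcc, eval_map, ← aeval_def, hgθ])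
    (by rw [hmapcc, derivative_map, eval_map, ← aeval_def]; exact hg')
  have hGw : evS w G = 0 := by rw [evS_apply, ← eval_map]; exact hw
  have hne : Nonempty (Fin d) := ⟨⟨0, hd ▸ finrank_pos⟩⟩
  let b : Basis (Fin d) P₁.K R := basisOfLinearIndependentOfCardEqFinrank
    (linearIndependent_pow θ) (by simp [d, ← hd])
  obtain ⟨σ, hσi, hσr, hσs, hσm, hσe⟩ := exists_lift_hom R.val.toRingHom (fun _ => rfl)
    Subtype.val_injective b (θ := θ) (fun k => by simp [b]) hG hGd hwθ hpθ hGw hGp
  refine ⟨{ M := R, inc := R.val, range_inc := Subalgebra.range_val _, sig := σ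
            sig_injective := hσi, res := hσr, scalar := hσs, mem := fun s => ?_
            surj := fun r hr => ?_ }⟩
  · obtain ⟨c, hc⟩ := hσm s
    rw [hc]
    exact h.emb_sum_mem _ _ fun k => by rw [map_pow]; exact pow_mem hp _
  · obtain ⟨c, hc⟩ := h.exists_coords (fun k : Fin d => p ^ (k : ℕ))
      (fun k => by rw [map_pow]; exact pow_mem hp _) hpow
      (by rw [← h.finrank_resAlg S, Fintype.card_fin, hd]) hr
    rw [hc]
    exact hσe c

namespace Model

variable {h} {S : Subalgebra Q.K Q.D} (m : h.Model S)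

theorem inc_injective : Function.Injective m.inc := m.inc.toRingHom.injective

theorem inc_mem (a : m.M) : m.inc a ∈ h.resAlg S := m.range_inc ▸ ⟨a, rfl⟩

theorem exists_inc {a : P₁.D} (ha : a ∈ h.resAlg S) : ∃ x : m.M, m.inc x = a := by
  rw [← m.range_inc] at ha
  exact ha

/-- The residue field has the degree of the subalgebra. -/
theorem finrank_eq : finrank P₁.K m.M = finrank Q.K S := by
  rw [← h.finrank_resAlg S, ← m.range_inc]
  exact (AlgEquiv.ofInjective m.inc m.inc_injective).toLinearEquiv.finrank_eq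

/-- Lifting commutes with evaluation. -/
theorem sig_eval (F : (PowerSeries P₁.K)[X]) (u : PowerSeries m.M) :
    m.sig (F.eval₂ sc u) = F.eval₂ sc (m.sig u) := by
  rw [hom_eval₂]
  congr 1
  exact RingHom.ext m.scalar

/-- The lift of a residue of an intermediate subalgebra lies in it. -/
theorem sig_C_mem {S₂ : Subalgebra Q.K Q.D} (hle : S₂ ≤ S)
    (hS : ∀ a ∈ S, ∀ b ∈ S, a * b = b * a) {a : m.M} (ha : m.inc a ∈ h.resAlg S₂) :
    h.emb (m.sig (PowerSeries.C a)) ∈ S₂ := by
  have := P₁.charZero
  obtain ⟨m₂⟩ := h.nonempty_model S₂ fun x hx y hy => hS x (hle hx) y (hle hy)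
  obtain ⟨a₂, ha₂⟩ := m₂.exists_inc ha
  obtain ⟨u, hu⟩ := m.surj _ (hle (m₂.mem (PowerSeries.C a₂)))
  set G := (minpoly P₁.K a).map PowerSeries.C with hG
  have hev : ∀ {A : Type} [Ring A] [Algebra P₁.K A] (x : A),
      G.eval₂ sc (PowerSeries.C x) = PowerSeries.C (aeval x (minpoly P₁.K a)) := by
    intro A _ _ x
    rw [hG, eval₂_map, aeval_def, hom_eval₂]
    congr 1
    exact RingHom.ext fun y => by simp
  have h2 : aeval a₂ (minpoly P₁.K a) = 0 := m₂.inc_injective (by
    rw [map_zero, ← aeval_algHom_apply, ha₂, aeval_algHom_apply, minpoly.aeval, map_zero])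
  have hu0 : G.eval₂ sc u = 0 := m.sig_injective (by
    rw [m.sig_eval, hu, ← m₂.sig_eval, hev, h2, map_zero, map_zero, map_zero])
  have hcu : PowerSeries.constantCoeff u = a := m.inc_injective (by
    rw [← m.res, hu, m₂.res, PowerSeries.constantCoeff_C, ha₂])
  have huC : u = PowerSeries.C a := by
    refine root_unique (G.map sc) (by rw [eval_map]; exact hu0)
      (by rw [eval_map, hev, minpoly.aeval, map_zero]) (by rw [hcu, PowerSeries.constantCoeff_C]) ?_
    rw [PowerSeries.constantCoeff_C, hG, Polynomial.map_map, Polynomial.map_map,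
      show ((PowerSeries.constantCoeff (R := m.M)).comp sc).comp PowerSeries.C = algebraMap P₁.K m.M
        from RingHom.ext fun y => by simp, derivative_map, eval_map, ← aeval_def]
    exact (minpoly.irreducible (Algebra.IsIntegral.isIntegral a)).separable.aeval_derivative_ne_zero
      (minpoly.aeval _ a)
  rw [← huC, hu]
  exact m₂.mem _

/-- **Intermediate subalgebras** are the series with coefficients in their residues. -/
theorem mem_sub_iff {S₂ : Subalgebra Q.K Q.D} (hle : S₂ ≤ S)
    (hS : ∀ a ∈ S, ∀ b ∈ S, a * b = b * a) (s : PowerSeries m.M) :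
    h.emb (m.sig s) ∈ S₂ ↔ ∀ k, m.inc (PowerSeries.coeff k s) ∈ h.resAlg S₂ := by
  let B := Module.finBasis P₁.K (h.resAlg S₂)
  choose x hx using fun i => m.exists_inc (h.resAlg_mono hle (B i).2)
  have hmem : ∀ i, h.emb (m.sig (PowerSeries.C (x i))) ∈ S₂ := fun i =>
    m.sig_C_mem hle hS (hx i ▸ (B i).2)
  constructor
  · intro hs
    obtain ⟨z, hz⟩ := h.exists_coords (S := S₂) (fun i => m.sig (PowerSeries.C (x i))) hmem
      (by
        simp only [m.res, PowerSeries.constantCoeff_C, hx]
        exact B.linearIndependent.map' (h.resAlg S₂).val.toLinearMap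
          (LinearMap.ker_eq_bot.2 Subtype.val_injective))
      (by rw [Fintype.card_fin, h.finrank_resAlg]) hs
    have hs' : s = ∑ i, sc (z i) * PowerSeries.C (x i) := m.sig_injective (by
      rw [hz, map_sum]
      exact Finset.sum_congr rfl fun i _ => by rw [map_mul, m.scalar])
    intro k
    rw [hs', map_sum, map_sum]
    refine sum_mem fun i _ => ?_
    rw [PowerSeries.coeff_mul_C, PowerSeries.coeff_map, map_mul, AlgHom.commutes, hx,
      ← Algebra.smul_def]
    exact (h.resAlg S₂).smul_mem (B i).2 _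
  · intro hs
    have hs' : s = ∑ i, sc (PowerSeries.mk fun k => B.repr ⟨_, hs k⟩ i) * PowerSeries.C (x i) := by
      refine PowerSeries.ext fun k => m.inc_injective ?_
      have h1 := congrArg (h.resAlg S₂).val (B.sum_repr ⟨_, hs k⟩)
      simp only [map_sum, map_smul] at h1
      rw [map_sum, map_sum]
      refine h1.symm.trans (Finset.sum_congr rfl fun i _ => ?_)
      rw [PowerSeries.coeff_mul_C, PowerSeries.coeff_map, map_mul, AlgHom.commutes, hx,
        PowerSeries.coeff_mk, ← Algebra.smul_def]
      rfl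
    rw [hs', map_sum]
    simp only [map_mul, m.scalar]
    rw [map_sum]
    exact sum_mem fun i _ => by rw [map_mul]; exact mul_mem (h.emb_sc_mem _ _) (hmem i)

/-- An independent family of residues bounds the degree from below. -/
theorem card_le_finrank {ι : Type} [Fintype ι] (v : ι → m.M)
    (hv : LinearIndependent P₁.K fun i => m.inc (v i)) : Fintype.card ι ≤ finrank Q.K S := by
  rw [← m.finrank_eq]
  exact (LinearIndependent.of_comp m.inc.toLinearMap hv).fintype_card_le_finrank

/-- Every element of the subalgebra is a multiple of a lifted series. -/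
theorem exists_smul {g : Q.D} (hg : g ∈ S) :
    ∃ (c : Q.K) (s : PowerSeries m.M), c ≠ 0 ∧ g = c • h.emb (m.sig s) := by
  obtain ⟨p, k, hk⟩ := LaurentAlg.exists_psE (h.eD.symm g)
  set t := h.eK (HahnSeries.single k (1 : P₁.K)) with ht
  have ht0 : t ≠ 0 := (map_ne_zero_iff _ h.eK.injective).2 (HahnSeries.single_ne_zero one_ne_zero)
  have hT : algebraMap Q.K Q.D t = h.eD (SkewLaurent.T 1 k) := by
    refine h.eD.symm.injective (SkewLaurent.ext_cf fun n => ?_)
    rw [h.map_scalar, RingEquiv.symm_apply_apply, SkewLaurent.cf_T, HahnSeries.coeff_single]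
    split_ifs <;> simp
  have hgp : g = t • h.emb p := by
    rw [Algebra.smul_def, hT, emb_apply, ← map_mul, ← hk, RingEquiv.apply_symm_apply]
  obtain ⟨s, hs⟩ := m.surj p (by
    have h1 := S.smul_mem hg t⁻¹
    rwa [hgp, inv_smul_smul₀ ht0] at h1)
  exact ⟨t, s, ht0, by rw [hs, hgp]⟩

/-- The element of a row as a lifted series. -/
theorem exists_q (L : Listing) (j : ℕ) (hq : Q.q L j ∈ S) :
    ∃ s : PowerSeries m.M, h.emb (m.sig s) = Q.q L j ∧
      m.inc (PowerSeries.constantCoeff s) = P₁.q L j := by
  obtain ⟨f, hf, hf0⟩ := h.exists_ev (L.p j)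
  obtain ⟨s, hs⟩ := m.surj f (by rw [hf]; exact hq)
  exact ⟨s, by rw [hs, hf]; rfl, by rw [← m.res, hs, hf0]; rfl⟩

end Model

end Laur

end

end Vale.Agent.P199
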