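import Mathlib

/-!
# P199: the key step in series

In `M[[X]]` the series `q = λ + X ^ p Z` has its root part `λ` with motions over `L`. If the ratio of the two motions
of `q` lies in a saturated subalgebra `𝔉`, then a combination of `Z 0` and a scalar of `L` lies in the residue algebra
of `𝔉`; a bound on its dimension then bounds the part inside `L`.
-/

namespace Vale.P199.Key

open Polynomial

noncomputable section

variable {K M : Type*} [Field K] [Field M] [Algebra K M]


/-- The residue algebra. -/
def residue (S : Subalgebra K ((PowerSeries M))) : Subalgebra K M :=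
  S.map { PowerSeries.constantCoeff (R := M) with
    commutes' := fun r => by simp [PowerSeries.algebraMap_apply] }

lemma mem_residue {S : Subalgebra K ((PowerSeries M))} {c : M} : c ∈ residue S ↔ ∃ f ∈ S, (PowerSeries.constantCoeff (R := M)) f = c :=
  Subalgebra.mem_map

lemma X_pow_dvd_mul_sub {a : (PowerSeries M)} {c : M} {k : ℕ} (h : PowerSeries.X ^ k ∣ a - PowerSeries.C c) (f : (PowerSeries M)) :
    PowerSeries.X ^ k ∣ f * a - f * PowerSeries.C c := by
  rw [← mul_sub]; exact dvd_mul_of_dvd_right h f

/-- A separable residue has approximations of every order in the algebra (Newton). -/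
theorem exists_approx [CharZero K] [FiniteDimensional K M] (S : Subalgebra K ((PowerSeries M))) {c : M}
    (hc : c ∈ residue S) (k : ℕ) : ∃ a ∈ S, PowerSeries.X ^ k ∣ a - PowerSeries.C c := by
  obtain ⟨f, hf, rfl⟩ := mem_residue.1 hc
  have hint : IsIntegral K ((PowerSeries.constantCoeff (R := M)) f) := IsIntegral.of_finite K _
  set h := minpoly K ((PowerSeries.constantCoeff (R := M)) f)
  obtain ⟨u, v, huv⟩ : IsCoprime h h.derivative := (minpoly.irreducible hint).separable
  have hcca : ((PowerSeries.constantCoeff (R := M))).comp (algebraMap K ((PowerSeries M))) = algebraMap K M :=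
    RingHom.ext fun r => by simp [PowerSeries.algebraMap_apply]
  have hw : ∀ a : (PowerSeries M), (PowerSeries.constantCoeff (R := M)) (aeval a v) = aeval ((PowerSeries.constantCoeff (R := M)) a) v := fun a => by
    rw [aeval_def, hom_eval₂, aeval_def, hcca]
  have hv : aeval ((PowerSeries.constantCoeff (R := M)) f) h.derivative * aeval ((PowerSeries.constantCoeff (R := M)) f) v = 1 := by
    have := congrArg (aeval ((PowerSeries.constantCoeff (R := M)) f)) huv
    simpa [h, minpoly.aeval, mul_comm] using this
  induction k with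
  | zero => exact ⟨f, hf, by simp⟩
  | succ k ih =>
    rcases Nat.eq_zero_or_pos k with rfl | hk
    · refine ⟨f, hf, ?_⟩
      rw [zero_add, pow_one, PowerSeries.X_dvd_iff, map_sub, PowerSeries.constantCoeff_C, sub_self]
    obtain ⟨a, ha, hadvd⟩ := ih
    set x : (PowerSeries M) := PowerSeries.C ((PowerSeries.constantCoeff (R := M)) f) with hx
    set e : (PowerSeries M) := a - x
    have hca : (PowerSeries.constantCoeff (R := M)) a = (PowerSeries.constantCoeff (R := M)) f := by
      have h0 := PowerSeries.X_dvd_iff.1 ((dvd_pow_self _ hk.ne').trans hadvd)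
      rwa [map_sub, hx, PowerSeries.constantCoeff_C, sub_eq_zero] at h0
    have hmem : ∀ P : K[X], aeval a P ∈ S := fun P => by
      have h1 := Subalgebra.aeval_coe S ⟨a, ha⟩ P
      exact h1 ▸ Subtype.mem _
    refine ⟨a - aeval a h * aeval a v, sub_mem ha (mul_mem (hmem h) (hmem v)), ?_⟩
    have hxh : aeval x h = 0 := by
      have hC : x = (IsScalarTower.toAlgHom K M ((PowerSeries M))) ((PowerSeries.constantCoeff (R := M)) f) := by
        simp [x]
      rw [hC, aeval_algHom_apply, minpoly.aeval, map_zero]
    obtain ⟨r, hr⟩ := binomExpansion (h.map (algebraMap K ((PowerSeries M)))) x e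
    simp only [eval_map, ← aeval_def, derivative_map, hxh, zero_add] at hr
    rw [show x + e = a by simp [e]] at hr
    have hone : PowerSeries.X ∣ 1 - aeval x h.derivative * aeval a v := by
      rw [PowerSeries.X_dvd_iff, map_sub, map_one, map_mul, hw, hca]
      have hd : (PowerSeries.constantCoeff (R := M)) (aeval x h.derivative) = aeval ((PowerSeries.constantCoeff (R := M)) f) h.derivative := by
        rw [aeval_def, hom_eval₂, aeval_def, hcca, PowerSeries.constantCoeff_C]
      rw [hd, hv, sub_self]
    rw [hr, show a - (aeval x h.derivative * e + r * e ^ 2) * aeval a v - x =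
      e * (1 - aeval x h.derivative * aeval a v) - r * aeval a v * e ^ 2 by simp only [e]; ring]
    refine dvd_sub ?_ (dvd_mul_of_dvd_right ?_ _)
    · rw [pow_succ]; exact mul_dvd_mul hadvd hone
    · refine (pow_dvd_pow _ (show k + 1 ≤ 2 * k by omega)).trans ?_
      rw [mul_comm 2 k, pow_mul]
      exact pow_dvd_pow_of_dvd hadvd 2

/-- Peeling: in a saturated algebra the first coefficient beyond those of `L` is a residue. -/
theorem coeff_mem_residue [CharZero K] [FiniteDimensional K M] (S : Subalgebra K ((PowerSeries M)))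
    (hX : PowerSeries.X ∈ S) (hsat : ∀ f : (PowerSeries M), PowerSeries.X * f ∈ S → f ∈ S) (m : ℕ) {R : (PowerSeries M)} (hR : R ∈ S) :
    PowerSeries.coeff m R ∈ residue S := by
  have hsatn : ∀ (i : ℕ) (f : (PowerSeries M)), PowerSeries.X ^ i * f ∈ S → f ∈ S := by
    intro i
    induction i with
    | zero => intro f hf; simpa using hf
    | succ i ih => intro f hf; exact ih f (hsat _ (by rwa [← mul_assoc, ← pow_succ']))
  induction m using Nat.strong_induction_on with
  | _ m ih =>
    choose a ha hadvd using fun k : Fin m => exists_approx S (ih k k.2) (m + 1)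
    set R' : (PowerSeries M) := R - ∑ k : Fin m, PowerSeries.X ^ (k : ℕ) * a k
    have hR' : R' ∈ S := sub_mem hR (Subalgebra.sum_mem _ fun k _ => mul_mem (pow_mem hX _) (ha k))
    have hcoeff : ∀ i ≤ m, PowerSeries.coeff i R' = if i < m then 0 else PowerSeries.coeff i R := by
      intro i hi
      have hk : ∀ k : Fin m, PowerSeries.coeff i (PowerSeries.X ^ (k : ℕ) * a k) =
          if (k : ℕ) = i then PowerSeries.coeff k R else 0 := by
        intro k
        rw [PowerSeries.coeff_X_pow_mul']
        rcases lt_trichotomy (k : ℕ) i with h1 | h1 | h1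
        · rw [if_pos h1.le, if_neg h1.ne]
          have := PowerSeries.X_pow_dvd_iff.1 (hadvd k) (i - k) (by omega)
          rwa [map_sub, PowerSeries.coeff_C, if_neg (by omega), sub_zero] at this
        · subst h1
          rw [if_pos le_rfl, if_pos rfl, Nat.sub_self]
          have := PowerSeries.X_pow_dvd_iff.1 (hadvd k) 0 (by omega)
          rwa [map_sub, PowerSeries.coeff_C, if_pos rfl, sub_eq_zero] at this
        · rw [if_neg (by omega), if_neg (by omega)]
      simp only [R', map_sub, map_sum, hk]
      by_cases him : i < m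
      · rw [if_pos him, Finset.sum_eq_single ⟨i, him⟩
          (fun k _ hne => if_neg fun h => hne (Fin.ext h)) (fun h => absurd (Finset.mem_univ _) h),
          if_pos rfl, sub_self]
      · rw [if_neg him, Finset.sum_eq_zero fun k _ => if_neg (by omega), sub_zero]
    obtain ⟨f, hf⟩ : PowerSeries.X ^ m ∣ R' :=
      PowerSeries.X_pow_dvd_iff.2 fun i hi => by rw [hcoeff i hi.le, if_pos hi]
    refine mem_residue.2 ⟨f, hsatn m f (hf ▸ hR'), ?_⟩
    have h1 := hcoeff m le_rfl
    rw [if_neg (lt_irrefl m), hf, PowerSeries.coeff_X_pow_mul', if_pos le_rfl, Nat.sub_self,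
      PowerSeries.coeff_zero_eq_constantCoeff_apply] at h1
    exact h1

/-- Coefficients of a quotient stay in a subfield. -/
theorem coeff_quot_mem {L : Subfield M} {A B R : (PowerSeries M)} {m : ℕ} (hA : ∀ k ≤ m, PowerSeries.coeff k A ∈ L)
    (hB : ∀ k ≤ m, PowerSeries.coeff k B ∈ L) (hB0 : (PowerSeries.constantCoeff (R := M)) B ≠ 0)
    (hR : PowerSeries.X ^ (m + 1) ∣ R * B - A) : PowerSeries.coeff m R ∈ L := by
  induction m using Nat.strong_induction_on with
  | _ m ih =>
    have h0 := PowerSeries.X_pow_dvd_iff.1 hR m (Nat.lt_succ_self m)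
    rw [map_sub, sub_eq_zero, PowerSeries.coeff_mul, Finset.Nat.sum_antidiagonal_eq_sum_range_succ_mk,
      Finset.sum_range_succ, Nat.sub_self] at h0
    have hsum : (∑ k ∈ Finset.range m, PowerSeries.coeff k R * PowerSeries.coeff (m - k) B) ∈ L :=
      sum_mem fun k hk => mul_mem (ih k (Finset.mem_range.1 hk) (fun i hi => hA i (by
        have := Finset.mem_range.1 hk; omega)) (fun i hi => hB i (by
        have := Finset.mem_range.1 hk; omega))
        ((pow_dvd_pow _ (by have := Finset.mem_range.1 hk; omega)).trans hR)) (hB _ (Nat.sub_le m k))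
    have h1 : PowerSeries.coeff m R =
        (PowerSeries.coeff m A - ∑ k ∈ Finset.range m, PowerSeries.coeff k R * PowerSeries.coeff (m - k) B) /
          (PowerSeries.constantCoeff (R := M)) B := by
      rw [eq_div_iff hB0, ← PowerSeries.coeff_zero_eq_constantCoeff_apply, eq_sub_iff_add_eq, add_comm]
      exact h0
    rw [h1]
    exact div_mem (sub_mem (hA m le_rfl) hsum) (by
      rw [← PowerSeries.coeff_zero_eq_constantCoeff_apply]; exact hB 0 (Nat.zero_le m))

/-- **KEY, series part**: the combination of `Z 0` with a scalar of `L` is a residue. -/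
theorem key_series [CharZero K] [FiniteDimensional K M] (S : Subalgebra K ((PowerSeries M))) (hX : PowerSeries.X ∈ S)
    (hsat : ∀ f : (PowerSeries M), PowerSeries.X * f ∈ S → f ∈ S) (L : Subfield M) (D d : Derivation ℤ (PowerSeries M) (PowerSeries M))
    (hD : D PowerSeries.X = 1) (hd : d PowerSeries.X = 0) {p : ℕ} (hp : 0 < p) {lam Z R : (PowerSeries M)}
    (hDlam : ∀ k < p, PowerSeries.coeff k (D lam) ∈ L) (hdlam : ∀ k < p, PowerSeries.coeff k (d lam) ∈ L)
    (hu : (PowerSeries.constantCoeff (R := M)) (d lam) ≠ 0) (hR : R ∈ S)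
    (hRq : R * d (lam + PowerSeries.X ^ p * Z) = D (lam + PowerSeries.X ^ p * Z)) :
    PowerSeries.coeff (p - 1) (D lam * (d lam)⁻¹) ∈ L ∧
      PowerSeries.coeff (p - 1) (D lam * (d lam)⁻¹) + (p : M) * (PowerSeries.constantCoeff (R := M)) Z / (PowerSeries.constantCoeff (R := M)) (d lam) ∈ residue S := by
  obtain ⟨m, rfl⟩ : ∃ m, p = m + 1 := ⟨p - 1, by omega⟩
  rw [Nat.add_sub_cancel]
  have hinv : d lam * (d lam)⁻¹ = 1 := PowerSeries.mul_inv_cancel _ hu
  refine ⟨coeff_quot_mem (fun k hk => hDlam k (by omega)) (fun k hk => hdlam k (by omega)) hu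
    (by rw [mul_assoc, mul_comm (d lam)⁻¹, hinv, mul_one, sub_self]; exact dvd_zero _), ?_⟩
  -- `R` modulo `X ^ p`
  have hexp : PowerSeries.X ^ (m + 1) ∣
      R - (D lam * (d lam)⁻¹ + PowerSeries.X ^ m * (((m + 1 : ℕ) : (PowerSeries M)) * (Z * (d lam)⁻¹))) := by
    have h1 : R * d lam - (D lam + ((m + 1 : ℕ) : (PowerSeries M)) * PowerSeries.X ^ m * Z) =
        PowerSeries.X ^ (m + 1) * (D Z - R * d Z) := by
      simp only [map_add, Derivation.leibniz, Derivation.leibniz_pow, hD, hd, smul_eq_mul, nsmul_eq_mul,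
        mul_zero, add_zero, Nat.add_sub_cancel, mul_one] at hRq
      linear_combination hRq
    have h2 : R - (D lam * (d lam)⁻¹ + PowerSeries.X ^ m * (((m + 1 : ℕ) : (PowerSeries M)) * (Z * (d lam)⁻¹))) =
        (R * d lam - (D lam + ((m + 1 : ℕ) : (PowerSeries M)) * PowerSeries.X ^ m * Z)) * (d lam)⁻¹ := by
      linear_combination (-R) * hinv
    rw [h2, h1, mul_assoc]
    exact dvd_mul_right _ _
  have hc := coeff_mem_residue S hX hsat m hR
  have h3 := PowerSeries.X_pow_dvd_iff.1 hexp m (Nat.lt_succ_self m)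
  rw [map_sub, map_add, sub_eq_zero, PowerSeries.coeff_X_pow_mul', if_pos le_rfl, Nat.sub_self,
    PowerSeries.coeff_zero_eq_constantCoeff_apply, RingHom.map_mul, RingHom.map_mul,
    PowerSeries.constantCoeff_inv, map_natCast] at h3
  rw [h3] at hc
  rw [div_eq_mul_inv, mul_assoc]
  exact hc

/-- Powers of an affine image stay independent. -/
theorem indep_affine {L : IntermediateField K M} {z : M} {N : ℕ}
    (hz : LinearIndependent L fun k : Fin N => z ^ (k : ℕ)) {a c : M} (ha : a ∈ L) (hc : c ∈ L) (hc0 : c ≠ 0) :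
    LinearIndependent L fun k : Fin N => (a + c * z) ^ (k : ℕ) := by
  refine Fintype.linearIndependent_iff.2 fun coef hcoef k => ?_
  set Q : L[X] := ∑ i : Fin N, C (coef i) * X ^ (i : ℕ) with hQ
  set T : L[X] := C (⟨c, hc⟩ : L) * X + C ⟨a, ha⟩ with hT
  have hdeg : T.natDegree = 1 := natDegree_linear fun h => hc0 (congrArg Subtype.val h)
  have h0 : aeval z (Q.comp T) = 0 := by
    rw [aeval_comp, hQ, map_sum]
    refine (Finset.sum_congr rfl fun i _ => ?_).trans hcoef
    simp [T, Algebra.smul_def, add_comm, IntermediateField.algebraMap_apply]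
  have hQd : Q.degree < N := degree_sum_fin_lt coef
  have hcomp : Q.comp T = 0 := by
    by_contra hne
    have hQ0 : Q ≠ 0 := fun h => hne (by rw [h, zero_comp])
    have hlt : (Q.comp T).natDegree < N := by
      rw [natDegree_comp, hdeg, mul_one]
      exact (natDegree_lt_iff_degree_lt hQ0).2 hQd
    rw [aeval_eq_sum_range' hlt, ← Fin.sum_univ_eq_sum_range
      (fun i => (Q.comp T).coeff i • z ^ i)] at h0
    have hall := Fintype.linearIndependent_iff.1 hz (fun i => (Q.comp T).coeff i) h0
    exact hne (leadingCoeff_eq_zero.1 (hall ⟨_, hlt⟩))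
  rcases comp_eq_zero_iff.1 hcomp with h | ⟨-, h⟩
  · have := congrArg (fun P => P.coeff (k : ℕ)) h
    simp only [hQ, finsetSum_coeff, coeff_C_mul, coeff_X_pow, coeff_zero] at this
    rw [Finset.sum_eq_single k (fun i _ hi => by rw [if_neg fun h' => hi (Fin.ext h'.symm), mul_zero])
      (fun hk => absurd (Finset.mem_univ k) hk), if_pos rfl, mul_one] at this
    exact this
  · rw [h, natDegree_C] at hdeg
    exact absurd hdeg zero_ne_one

/-- **KEY, dimensions**: the residue algebra meets `L` in the class field. -/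
theorem key_dim [FiniteDimensional K M] {F0 F1 : Subalgebra K M} {L : IntermediateField K M} {w : M} {g N : ℕ}
    (hF0 : Module.finrank K F0 ≤ g * N) (hF1 : F1 ≤ F0) (hF1L : F1 ≤ L.toSubalgebra)
    (hg : g ≤ Module.finrank K F1) (hw : w ∈ F0) (hN : 0 < N)
    (hind : LinearIndependent L fun k : Fin N => w ^ (k : ℕ)) :
    F0 ⊓ L.toSubalgebra = F1 ∧ Module.finrank K F1 = g ∧
      Module.finrank K (Algebra.adjoin K (insert w (F1 : Set M))) ≤ g * N := by
  set L2 := F0 ⊓ L.toSubalgebra
  have hle : F1 ≤ L2 := le_inf hF1 hF1L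
  let b := Module.finBasis K L2
  have hmem : ∀ i k, (b i : M) * w ^ k ∈ F0 := fun i k => mul_mem (b i).2.1 (pow_mem hw k)
  have hli : LinearIndependent K fun q : Fin (Module.finrank K L2) × Fin N =>
      (⟨(b q.1 : M) * w ^ (q.2 : ℕ), hmem _ _⟩ : F0) := by
    refine Fintype.linearIndependent_iff.2 fun coef hcoef q => ?_
    have h0 := congrArg Subtype.val hcoef
    simp only [AddSubmonoidClass.coe_finsetSum, Fintype.sum_prod_type, SetLike.val_smul,
      ZeroMemClass.coe_zero] at h0
    rw [Finset.sum_comm] at h0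
    have hin : ∀ k, (∑ i, coef (i, k) • (b i : M)) ∈ L :=
      fun k => Submodule.sum_mem L.toSubalgebra.toSubmodule fun i _ => Submodule.smul_mem _ _ (b i).2.2
    have h1 : ∑ k : Fin N, (⟨_, hin k⟩ : L) • w ^ (k : ℕ) = 0 := by
      rw [← h0]
      refine Finset.sum_congr rfl fun k _ => ?_
      rw [Algebra.smul_def, IntermediateField.algebraMap_apply, Finset.sum_mul]
      exact Finset.sum_congr rfl fun i _ => smul_mul_assoc _ _ _
    have h2 := congrArg Subtype.val (Fintype.linearIndependent_iff.1 hind _ h1 q.2)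
    have h3 : ∑ i, coef (i, q.2) • b i = 0 := Subtype.ext (by
      simpa [AddSubmonoidClass.coe_finsetSum] using h2)
    exact Fintype.linearIndependent_iff.1 b.linearIndependent _ h3 q.1
  have hcard := hli.fintype_card_le_finrank
  rw [Fintype.card_prod, Fintype.card_fin, Fintype.card_fin] at hcard
  have h2 : Module.finrank K L2 ≤ g := Nat.le_of_mul_le_mul_right (hcard.trans hF0) hN
  have hmono : Module.finrank K F1 ≤ Module.finrank K L2 :=
    Submodule.finrank_mono (s := F1.toSubmodule) (t := L2.toSubmodule) hle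
  refine ⟨(Subalgebra.toSubmodule.injective (Submodule.eq_of_le_of_finrank_le
      (S₁ := F1.toSubmodule) (S₂ := L2.toSubmodule) hle (h2.trans hg))).symm, le_antisymm (hmono.trans h2) hg, ?_⟩
  · refine le_trans ?_ hF0
    exact Submodule.finrank_mono (s := (Algebra.adjoin K (insert w (F1 : Set M))).toSubmodule)
      (t := F0.toSubmodule) (Algebra.adjoin_le (Set.insert_subset hw hF1))

end

end Vale.P199.Key
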