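import Vale.Agent.P199.Deletion.Ders

/-!
P199, deletion: the killing derivations on Laurent series over a finite extension of the residue centre, and the motions
and class field elements they give when such a field carries the element of a row at the point.
-/

namespace Vale.P199.Ders

open Vale.Agent.P199

noncomputable section

variable {P₁ Q : Pt}

/-- The centre of the point inside Laurent series over an extension of the residue centre. -/
def incl (T : Laur P₁ Q) (M : Type) [Field M] [Algebra P₁.K M] : Q.K →+* LaurentSeries M :=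
  ({ toFun := fun f => f.map (algebraMap P₁.K M)
     map_zero' := HahnSeries.ext (funext fun m => by simp)
     map_one' := HahnSeries.ext (funext fun m => by
       simp [HahnSeries.coeff_one, apply_ite (algebraMap P₁.K M)])
     map_add' := fun x y => HahnSeries.ext (funext fun m => by simp)
     map_mul' := fun x y => HahnSeries.map_mul (algebraMap P₁.K M).toNonUnitalRingHom } :
      LaurentSeries P₁.K →+* LaurentSeries M).comp T.eK.symm.toRingHom

theorem coeff_incl (T : Laur P₁ Q) (M : Type) [Field M] [Algebra P₁.K M] (a : Q.K) (m : ℤ) :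
    (incl T M a).coeff m = algebraMap P₁.K M ((T.eK.symm a).coeff m) := rfl

theorem incl_coe (T : Laur P₁ Q) (M : Type) [Field M] [Algebra P₁.K M] (f : PowerSeries P₁.K) :
    incl T M (T.eK (HahnSeries.ofPowerSeries ℤ P₁.K f)) =
      HahnSeries.ofPowerSeries ℤ M (PowerSeries.map (algebraMap P₁.K M) f) := by
  refine HahnSeries.ext (funext fun m => ?_)
  rw [coeff_incl, RingEquiv.symm_apply_apply]
  rcases lt_or_ge m 0 with hm | hm
  · rw [ofPowerSeries_coeff_neg f hm, ofPowerSeries_coeff_neg _ hm, map_zero]
  · obtain ⟨k, rfl⟩ := Int.eq_ofNat_of_zero_le hm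
    rw [HahnSeries.ofPowerSeries_apply_coeff, HahnSeries.ofPowerSeries_apply_coeff, PowerSeries.coeff_map]

variable (T : Laur P₁ Q) (M : Type) [Field M] [Algebra P₁.K M]

/-- Coefficientwise derivations commute with the inclusion. -/
theorem lsMap_incl (d : Derivation ℤ P₁.K P₁.K) (d' : Derivation ℤ M M)
    (h : ∀ a, d' (algebraMap P₁.K M a) = algebraMap P₁.K M (d a)) (a : Q.K) :
    lsMap d' (incl T M a) = incl T M (transDer T (lsMap d) a) :=
  HahnSeries.ext (funext fun m => by
    rw [coeff_lsMap, coeff_incl, coeff_incl, h, transDer_apply, RingEquiv.symm_apply_apply, coeff_lsMap])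

theorem lsD_incl (a : Q.K) : lsD (incl T M a) = incl T M (transDer T lsD a) :=
  HahnSeries.ext (funext fun m => by
    rw [coeff_incl, transDer_apply, RingEquiv.symm_apply_apply]
    show ((HahnSeries.single (-1 : ℤ) (1 : M) : LaurentSeries M) * euler _).coeff m =
      algebraMap P₁.K M
        (((HahnSeries.single (-1 : ℤ) (1 : P₁.K) : LaurentSeries P₁.K) * euler _).coeff m)
    rw [HahnSeries.coeff_single_mul, HahnSeries.coeff_single_mul, one_mul, one_mul, coeff_euler,
      coeff_euler, coeff_incl, map_mul, map_intCast])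

/-- A corrected derivation on the series over `M`: compatible on power series and with the centre of the point. -/
theorem exists_der_pair {s : Type} [Fintype s] (δ : s → Derivation ℤ P₁.K P₁.K)
    (δ' : s → Derivation ℤ M M) (hδ : ∀ k a, δ' k (algebraMap P₁.K M a) = algebraMap P₁.K M (δ k a))
    (E : Derivation ℤ (LaurentSeries P₁.K) (LaurentSeries P₁.K))
    (E' : Derivation ℤ (PowerSeries M) (PowerSeries M))
    (E'' : Derivation ℤ (LaurentSeries M) (LaurentSeries M))
    (h1 : ∀ f, E'' (HahnSeries.ofPowerSeries ℤ M f) = HahnSeries.ofPowerSeries ℤ M (E' f))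
    (h2 : ∀ a, E'' (incl T M a) = incl T M (transDer T E a)) (a : s → PowerSeries P₁.K) :
    ∃ (dP : Derivation ℤ (PowerSeries M) (PowerSeries M))
      (dL : Derivation ℤ (LaurentSeries M) (LaurentSeries M)),
      (∀ f, dP f = E' f + ∑ k, PowerSeries.map (algebraMap P₁.K M) (a k) * psMap (δ' k) f) ∧
      (∀ f, dL (HahnSeries.ofPowerSeries ℤ M f) = HahnSeries.ofPowerSeries ℤ M (dP f)) ∧
      ∀ x, dL (incl T M x) =
        incl T M (transDer T (E + ∑ k, (HahnSeries.ofPowerSeries ℤ P₁.K (a k)) • lsMap (δ k)) x) := by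
  let dP : Derivation ℤ (PowerSeries M) (PowerSeries M) :=
    mkDer (fun f => E' f + ∑ k, PowerSeries.map (algebraMap P₁.K M) (a k) * psMap (δ' k) f)
      (fun x y => by simp only [map_add, mul_add, Finset.sum_add_distrib]; abel)
      fun x y => by
        simp only [Derivation.leibniz, smul_eq_mul, mul_add, Finset.sum_add_distrib, Finset.mul_sum,
          mul_left_comm]
        abel
  let dL : Derivation ℤ (LaurentSeries M) (LaurentSeries M) :=
    E'' + ∑ k, (HahnSeries.ofPowerSeries ℤ M (PowerSeries.map (algebraMap P₁.K M) (a k))) • lsMap (δ' k)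
  refine ⟨dP, dL, fun f => mkDer_apply _ _ _ f, fun f => ?_, fun x => ?_⟩
  · rw [mkDer_apply]
    simp only [dL, Derivation.add_apply, der_sum_apply, Derivation.smul_apply, smul_eq_mul, h1, lsMap_coe,
      map_add, map_sum, map_mul]
  · simp only [dL, Derivation.add_apply, der_sum_apply, Derivation.smul_apply, smul_eq_mul, h2,
      transDer_apply, lsMap_incl T M (δ _) (δ' _) (hδ _), map_add, map_sum, map_mul]
    congr 1
    exact Finset.sum_congr rfl fun k _ => by rw [incl_coe]

/-- **The derivations of KEY.** For every extension to `M` of a derivation killing the residue symbols there is one on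
`M[[ε]]`, killing `ε`, with that residue, and one of the parameter; their extensions to Laurent series come from
derivations of the centre killing the symbols of the point. -/
theorem exists_key_ders {N : ℕ} (htr : Minimise.trdegSym N Q = Minimise.trdegSym N P₁) :
    (∀ (d : Derivation ℤ P₁.K P₁.K) (d' : Derivation ℤ M M),
      (∀ a, d' (algebraMap P₁.K M a) = algebraMap P₁.K M (d a)) → (∀ i < N, d (P₁.c i) = 0) →
      ∃ (dP : Derivation ℤ (PowerSeries M) (PowerSeries M))
        (dL : Derivation ℤ (LaurentSeries M) (LaurentSeries M)) (dK : Derivation ℤ Q.K Q.K),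
        (∀ i < N, dK (Q.c i) = 0) ∧ dP PowerSeries.X = 0 ∧
        (∀ f, PowerSeries.constantCoeff (dP f) = d' (PowerSeries.constantCoeff f)) ∧
        (∀ f, dL (HahnSeries.ofPowerSeries ℤ M f) = HahnSeries.ofPowerSeries ℤ M (dP f)) ∧
        ∀ x, dL (incl T M x) = incl T M (dK x)) ∧
    ∃ (DP : Derivation ℤ (PowerSeries M) (PowerSeries M))
      (DL : Derivation ℤ (LaurentSeries M) (LaurentSeries M)) (DK : Derivation ℤ Q.K Q.K)
      (D₀ : Derivation ℤ M M),
      (∀ i < N, DK (Q.c i) = 0) ∧ DP PowerSeries.X = 1 ∧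
      (∀ f, PowerSeries.constantCoeff (DP f) =
        PowerSeries.coeff 1 f + D₀ (PowerSeries.constantCoeff f)) ∧
      (∀ f, DL (HahnSeries.ofPowerSeries ℤ M f) = HahnSeries.ofPowerSeries ℤ M (DP f)) ∧
      ∀ x, DL (incl T M x) = incl T M (DK x) := by
  have : CharZero P₁.K := P₁.charZero
  obtain ⟨s, δ, hkill, b, hb, hbk⟩ := exists_lift_killing T htr
  choose δ' hδ' using fun k => exists_extend (M := M) (δ k)
  have hX : ∀ (g : Derivation ℤ M M), psMap g PowerSeries.X = 0 := fun g => PowerSeries.ext fun m => by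
    rw [coeff_psMap, PowerSeries.coeff_X, map_zero]
    split_ifs
    · exact g.map_one_eq_zero
    · exact map_zero g
  refine ⟨fun d d' hd hkd => ?_, ?_⟩
  · obtain ⟨a, ha, hk⟩ := hkill d hkd
    obtain ⟨dP, dL, hP, hL, hK⟩ := exists_der_pair T M δ δ' hδ' (lsMap d) (psMap d') (lsMap d')
      (fun f => lsMap_coe d' f) (fun x => lsMap_incl T M d d' hd x) a
    refine ⟨dP, dL, _, hk, by simp [hP, hX], fun f => ?_, hL, hK⟩
    rw [hP, map_add, cc_psMap, map_sum, Finset.sum_eq_zero fun k _ => ?_, add_zero]
    rw [map_mul, ← PowerSeries.coeff_zero_eq_constantCoeff_apply (φ := PowerSeries.map _ _),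
      PowerSeries.coeff_map, PowerSeries.coeff_zero_eq_constantCoeff_apply, ha, map_zero, zero_mul]
  · obtain ⟨DP, DL, hP, hL, hK⟩ := exists_der_pair T M δ δ' hδ' lsD psD lsD
      (fun f => lsD_coe f) (fun x => lsD_incl T M x) b
    refine ⟨DP, DL, _, ∑ k, (algebraMap P₁.K M (PowerSeries.constantCoeff (b k))) • δ' k, hbk, ?_,
      fun f => ?_, hL, hK⟩
    · have h1 : psD (PowerSeries.X : PowerSeries M) = 1 := PowerSeries.derivative_X
      simp [hP, hX, h1]
    · simp only [hP, map_add, cc_psD, map_sum, map_mul, cc_psMap, der_sum_apply, Derivation.smul_apply,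
        smul_eq_mul]
      congr 1

variable {T M} in
/-- Motions and class field elements at the point, when the series carry the element of the row. -/
theorem motions_of_series {L : Listing} {j : ℕ} [Algebra Q.K (LaurentSeries M)]
    (halg : algebraMap Q.K (LaurentSeries M) = incl T M) (φ : LaurentSeries M →ₐ[Q.K] Q.D)
    {x : LaurentSeries M} (hx : φ x = Q.q L j) (dK : Derivation ℤ Q.K Q.K)
    (hk : ∀ i < L.b j, dK (Q.c i) = 0) (dL : Derivation ℤ (LaurentSeries M) (LaurentSeries M))
    (hc : ∀ a, dL (incl T M a) = incl T M (dK a)) (h0 : dL x ≠ 0) :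
    Inv.Moves L j Q ∧
      ∀ (eK : Derivation ℤ Q.K Q.K), (∀ i < L.b j, eK (Q.c i) = 0) →
        ∀ eL : Derivation ℤ (LaurentSeries M) (LaurentSeries M),
          (∀ a, eL (incl T M a) = incl T M (eK a)) → φ ((dL x)⁻¹ * eL x) ∈ Inv.classF L j Q := by
  set g := minpoly Q.K (Q.q L j)
  have hg : Irreducible g := minpoly.irreducible (Algebra.IsIntegral.isIntegral _)
  have hroot : Polynomial.aeval x g = 0 := φ.toRingHom.injective (by
    show φ (Polynomial.aeval x g) = φ 0
    rw [← Polynomial.aeval_algHom_apply, hx, minpoly.aeval, map_zero])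
  have : CharZero Q.K := Q.charZero
  have hd : Polynomial.aeval x (Polynomial.derivative g) ≠ 0 :=
    hg.separable.aeval_derivative_ne_zero hroot
  have hne : φ (-(Polynomial.aeval x (Polynomial.derivative g)) * dL x) ≠ 0 :=
    (map_ne_zero_iff φ φ.toRingHom.injective).2 (mul_ne_zero (neg_ne_zero.2 hd) h0)
  have hv := mem_motions φ hx dK hk dL (fun a => by rw [halg]; exact hc a)
  refine ⟨⟨_, hv, hne⟩, fun eK hek eL hec => ?_⟩
  have hw := mem_motions φ hx eK hek eL (fun a => by rw [halg]; exact hec a)
  refine Algebra.subset_adjoin ⟨_, hv, _, hw, hne, ?_⟩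
  rw [← map_inv₀ φ, ← map_mul]
  congr 1
  field_simp
  exact (mul_div_cancel_right₀ _ hd).symm

end

end Vale.P199.Ders
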