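import Vale.Agent.P199.Deletion.KeyField
import Vale.Agent.P199.Deletion.KeySeries
import Vale.Agent.P199.Deletion.Moving

/-!
P199, deletion, KEY step 1 continued: the series model of a commutative subalgebra of a Laurent point as a field of
Laurent series inside the point, and the intermediate subalgebras pulled back to series.
-/

namespace Vale.Agent.P199

open Module

noncomputable section

namespace Laur.Model

open KeyField

variable {P₁ Q : Pt} {h : Laur P₁ Q} {S : Subalgebra Q.K Q.D} (m : h.Model S)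

theorem emb_injective' : Function.Injective fun s => h.emb (m.sig s) :=
  h.emb_injective.comp m.sig_injective

/-- The embedding of the Laurent series over the residue field. -/
theorem exists_lau (hS : ∀ a ∈ S, ∀ b ∈ S, a * b = b * a) :
    ∃ φ : LaurentSeries m.M →+* Q.D,
      (∀ s, φ (HahnSeries.ofPowerSeries ℤ m.M s) = h.emb (m.sig s)) ∧
      (∀ a, φ (Vale.P199.Ders.incl h m.M a) = algebraMap Q.K Q.D a) ∧
      (∀ x, φ x ∈ S) ∧ ∀ g ∈ S, ∃ x, φ x = g := by
  let _ : CommRing S :=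
    { (inferInstance : Ring S) with mul_comm := fun a b => Subtype.ext (hS _ a.2 _ b.2) }
  let g : PowerSeries m.M →+* S := (h.emb.comp m.sig).codRestrict S m.mem
  have hX : h.emb (m.sig PowerSeries.X) =
      algebraMap Q.K Q.D (h.eK (HahnSeries.ofPowerSeries ℤ P₁.K PowerSeries.X)) := by
    rw [← h.eD_scalar, ← emb_apply, ← m.scalar, sc, PowerSeries.map_X]
  have hXne : h.eK (HahnSeries.ofPowerSeries ℤ P₁.K PowerSeries.X) ≠ 0 :=
    (map_ne_zero_iff _ h.eK.injective).2
      ((map_ne_zero_iff _ HahnSeries.ofPowerSeries_injective).2 PowerSeries.X_ne_zero)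
  have hgu : ∀ y : Submonoid.powers (PowerSeries.X : PowerSeries m.M), IsUnit (g y) := by
    rintro ⟨_, k, rfl⟩
    rw [map_pow]
    refine IsUnit.pow k ⟨⟨g PowerSeries.X,
      algebraMap Q.K S (h.eK (HahnSeries.ofPowerSeries ℤ P₁.K PowerSeries.X))⁻¹, ?_, ?_⟩, rfl⟩ <;>
    · refine Subtype.ext ?_
      show _ * _ = (1 : Q.D)
      simp only [g, RingHom.codRestrict_apply, RingHom.comp_apply, Subalgebra.coe_algebraMap, hX,
        ← map_mul, inv_mul_cancel₀ hXne, mul_inv_cancel₀ hXne, map_one]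
  let ψ : LaurentSeries m.M →+* S := IsLocalization.lift hgu
  have hψ : ∀ s, (ψ (HahnSeries.ofPowerSeries ℤ m.M s) : Q.D) = h.emb (m.sig s) := fun s => by
    have h1 := congrArg Subtype.val (IsLocalization.lift_eq (S := LaurentSeries m.M) hgu s)
    rw [LaurentSeries.coe_algebraMap] at h1
    exact h1
  have hmul : ∀ x y, ((ψ (x * y) : S) : Q.D) = (ψ x : Q.D) * (ψ y : Q.D) := fun x y => by
    rw [map_mul]
    exact Subalgebra.coe_mul S _ _
  have hincl : ∀ a, (ψ (Vale.P199.Ders.incl h m.M a) : Q.D) = algebraMap Q.K Q.D a := by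
    intro a
    obtain ⟨b, rfl⟩ := h.eK.surjective a
    obtain ⟨⟨f, y⟩, hf⟩ :=
      IsLocalization.surj (Submonoid.powers (PowerSeries.X : PowerSeries P₁.K)) b
    have hk : ∀ f : PowerSeries P₁.K,
        (ψ (Vale.P199.Ders.incl h m.M (h.eK (HahnSeries.ofPowerSeries ℤ P₁.K f))) : Q.D) =
          algebraMap Q.K Q.D (h.eK (HahnSeries.ofPowerSeries ℤ P₁.K f)) := fun f => by
      rw [Vale.P199.Ders.incl_coe, hψ, show PowerSeries.map (algebraMap P₁.K m.M) f = sc f from rfl,
        m.scalar, emb_apply, h.eD_scalar]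
    simp only [LaurentSeries.coe_algebraMap] at hf
    have hy : h.eK (HahnSeries.ofPowerSeries ℤ P₁.K (y : PowerSeries P₁.K)) ≠ 0 := by
      obtain ⟨k, hk'⟩ := y.2
      rw [← hk']
      exact (map_ne_zero_iff _ h.eK.injective).2 ((map_ne_zero_iff _ HahnSeries.ofPowerSeries_injective).2
        (pow_ne_zero _ PowerSeries.X_ne_zero))
    refine mul_right_cancel₀ ((map_ne_zero (algebraMap Q.K Q.D)).2 hy) ?_
    conv_lhs => rw [← hk, ← hmul, ← map_mul, ← map_mul, hf]
    rw [hk, ← map_mul, ← map_mul, hf]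
  refine ⟨S.val.toRingHom.comp ψ, hψ, hincl, fun x => (ψ x).2, fun g hg => ?_⟩
  obtain ⟨c, s, -, hcs⟩ := m.exists_smul hg
  refine ⟨Vale.P199.Ders.incl h m.M c * HahnSeries.ofPowerSeries ℤ m.M s, ?_⟩
  show (ψ _ : Q.D) = g
  rw [hmul, hincl, hψ, hcs, Algebra.smul_def]

/-- The embedding of the Laurent series over the residue field, onto the subalgebra. -/
def lau (hS : ∀ a ∈ S, ∀ b ∈ S, a * b = b * a) : LaurentSeries m.M →+* Q.D :=
  (m.exists_lau hS).choose

variable (hS : ∀ a ∈ S, ∀ b ∈ S, a * b = b * a)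

theorem lau_coe (s : PowerSeries m.M) :
    m.lau hS (HahnSeries.ofPowerSeries ℤ m.M s) = h.emb (m.sig s) :=
  (m.exists_lau hS).choose_spec.1 s

theorem lau_incl (a : Q.K) : m.lau hS (Vale.P199.Ders.incl h m.M a) = algebraMap Q.K Q.D a :=
  (m.exists_lau hS).choose_spec.2.1 a

theorem lau_mem (x : LaurentSeries m.M) : m.lau hS x ∈ S :=
  (m.exists_lau hS).choose_spec.2.2.1 x

theorem exists_lau_eq {g : Q.D} (hg : g ∈ S) : ∃ x, m.lau hS x = g :=
  (m.exists_lau hS).choose_spec.2.2.2 g hg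

/-- The embedding as a map of algebras over the centre of the point. -/
def lauAlg [Algebra Q.K (LaurentSeries m.M)]
    (halg : algebraMap Q.K (LaurentSeries m.M) = Vale.P199.Ders.incl h m.M) :
    LaurentSeries m.M →ₐ[Q.K] Q.D :=
  { m.lau hS with commutes' := fun a => by rw [halg]; exact m.lau_incl hS a }

theorem lauAlg_apply [Algebra Q.K (LaurentSeries m.M)]
    (halg : algebraMap Q.K (LaurentSeries m.M) = Vale.P199.Ders.incl h m.M) (x : LaurentSeries m.M) :
    m.lauAlg hS halg x = m.lau hS x := rfl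

/-- The series whose lift lies in a subalgebra. -/
def pull (S₂ : Subalgebra Q.K Q.D) : Subalgebra P₁.K (PowerSeries m.M) where
  carrier := {s | h.emb (m.sig s) ∈ S₂}
  mul_mem' := fun {a b} ha hb => by
    show h.emb (m.sig (a * b)) ∈ S₂
    rw [map_mul, map_mul]; exact mul_mem ha hb
  one_mem' := by
    show h.emb (m.sig 1) ∈ S₂
    rw [map_one, map_one]; exact one_mem _
  add_mem' := fun {a b} ha hb => by
    show h.emb (m.sig (a + b)) ∈ S₂
    rw [map_add, map_add]; exact add_mem ha hb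
  zero_mem' := by
    show h.emb (m.sig 0) ∈ S₂
    rw [map_zero, map_zero]; exact zero_mem _
  algebraMap_mem' r := by
    show h.emb (m.sig _) ∈ S₂
    have h1 : algebraMap P₁.K (PowerSeries m.M) r = sc (PowerSeries.C r) := by
      rw [PowerSeries.algebraMap_apply, sc, PowerSeries.map_C]
    rw [h1, m.scalar]
    exact h.emb_sc_mem S₂ _

theorem mem_pull {S₂ : Subalgebra Q.K Q.D} {s : PowerSeries m.M} :
    s ∈ m.pull S₂ ↔ h.emb (m.sig s) ∈ S₂ := Iff.rfl

theorem X_mem_pull (S₂ : Subalgebra Q.K Q.D) : PowerSeries.X ∈ m.pull S₂ := by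
  rw [mem_pull, ← PowerSeries.map_X (algebraMap P₁.K m.M), show
    PowerSeries.map (algebraMap P₁.K m.M) PowerSeries.X = sc (PowerSeries.X : PowerSeries P₁.K) from rfl,
    m.scalar]
  exact h.emb_sc_mem S₂ _

theorem pull_saturated (S₂ : Subalgebra Q.K Q.D) (s : PowerSeries m.M)
    (hs : PowerSeries.X * s ∈ m.pull S₂) : s ∈ m.pull S₂ := by
  rw [mem_pull] at hs ⊢
  refine h.div_mem (k := 1) ?_
  rwa [map_mul, ← PowerSeries.map_X (algebraMap P₁.K m.M), show
    PowerSeries.map (algebraMap P₁.K m.M) PowerSeries.X = sc (PowerSeries.X : PowerSeries P₁.K) from rfl,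
    m.scalar, sc, PowerSeries.map_X, ← pow_one (PowerSeries.X : PowerSeries P₁.D)] at hs

include hS in
/-- The residues of a pulled back subalgebra. -/
theorem mem_residue_pull {S₂ : Subalgebra Q.K Q.D} (hle : S₂ ≤ S) {c : m.M} :
    c ∈ Vale.P199.Key.residue (m.pull S₂) ↔ m.inc c ∈ h.resAlg S₂ := by
  rw [Vale.P199.Key.mem_residue]
  refine ⟨?_, fun hc => ⟨PowerSeries.C c, m.sig_C_mem hle hS hc, PowerSeries.constantCoeff_C c⟩⟩
  rintro ⟨f, hf, rfl⟩
  exact ⟨m.sig f, hf, m.res f⟩

include hS in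
/-- They have the dimension of the subalgebra. -/
theorem finrank_residue_pull {S₂ : Subalgebra Q.K Q.D} (hle : S₂ ≤ S) :
    finrank P₁.K (Vale.P199.Key.residue (m.pull S₂)) = finrank Q.K S₂ := by
  rw [← h.finrank_resAlg S₂]
  have hmap : (Vale.P199.Key.residue (m.pull S₂)).map m.inc = h.resAlg S₂ := by
    refine SetLike.ext fun a => ⟨?_, fun ha => ?_⟩
    · rintro ⟨c, hc, rfl⟩
      exact (m.mem_residue_pull hS hle).1 hc
    · obtain ⟨c, rfl⟩ := m.exists_inc (h.resAlg_mono hle ha)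
      exact ⟨c, (m.mem_residue_pull hS hle).2 ha, rfl⟩
  rw [← hmap]
  exact (Subalgebra.equivMapOfInjective _ m.inc m.inc_injective).toLinearEquiv.finrank_eq

end Laur.Model

end

end Vale.Agent.P199
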