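import Vale.Agent.P199.Deletion.KeyPrep

/-!
P199, **KEY at a series point.** The first error of a moving row along a series point, shifted by a scalar that only
depends on the symbols up to its order, generates a small algebra over the class field as soon as the point is as
small as the lower bounds say.
-/

namespace Vale.Agent.P199

open Module Polynomial KeyField Vale.P199 Vale.P199.Ders

noncomputable section

namespace KeyPoint

theorem psMap_X {M : Type} [Field M] (D : Derivation ℤ M M) : psMap D PowerSeries.X = 0 :=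
  PowerSeries.ext fun l => by
    rw [coeff_psMap, PowerSeries.coeff_X, map_zero]
    split_ifs
    · exact D.map_one_eq_zero
    · exact map_zero D

theorem psMap_C {M : Type} [Field M] (D : Derivation ℤ M M) (a : M) :
    psMap D (PowerSeries.C a) = PowerSeries.C (D a) :=
  PowerSeries.ext fun l => by
    rw [coeff_psMap, PowerSeries.coeff_C, PowerSeries.coeff_C]
    split_ifs
    · rfl
    · exact map_zero D

theorem psD_C {M : Type} [Field M] (a : M) : psD (PowerSeries.C a) = 0 := PowerSeries.derivative_C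

theorem X_pow_dvd_sub_of_coeff {M : Type} [Field M] {f g : PowerSeries M} {p : ℕ}
    (h : ∀ k ≤ p, PowerSeries.coeff k f = PowerSeries.coeff k g) : PowerSeries.X ^ (p + 1) ∣ f - g :=
  PowerSeries.X_pow_dvd_iff.2 fun k hk => by rw [map_sub, h k (by omega), sub_self]

variable {L : Listing} {j : ℕ} {P₁ : Pt}

section Root

variable {K Lf : Type} [Field K] [Field Lf] [Algebra K Lf]

/-- The equation of a row with series symbols, over a residue field. -/
def rootPoly (Lf : Type) [Field Lf] [Algebra K Lf] (b e : ℕ) (t : ℕ → PowerSeries K) : (PowerSeries Lf)[X] :=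
  (rowSeries e fun i => t (b + i)).map (sc (K := K) (A := Lf))

theorem rootPoly_cc (b e : ℕ) {t : ℕ → PowerSeries K} {c : ℕ → K}
    (ht : ∀ i, PowerSeries.constantCoeff (t i) = c i) :
    (rootPoly Lf b e t).map PowerSeries.constantCoeff =
      (rowPoly e fun i => c (b + i)).map (algebraMap K Lf) := by
  rw [rootPoly, Polynomial.map_map,
    show (PowerSeries.constantCoeff (R := Lf)).comp (sc (K := K) (A := Lf)) =
      (algebraMap K Lf).comp PowerSeries.constantCoeff from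
      RingHom.ext fun z => cc_map (algebraMap K Lf) z,
    ← Polynomial.map_map, map_rowSeries]
  simp [ht]

theorem rootPoly_congr (b e : ℕ) {t t₀ : ℕ → PowerSeries K} {k : ℕ}
    (h : ∀ i < b + e, PowerSeries.X ^ k ∣ t i - t₀ i) (l : ℕ) :
    PowerSeries.X ^ k ∣ (rootPoly Lf b e t).coeff l - (rootPoly Lf b e t₀).coeff l := by
  simp only [rootPoly, Polynomial.coeff_map, coeff_rowSeries, map_add, add_sub_add_left_eq_sub]
  by_cases h2 : l < e
  · rw [if_pos h2, if_pos h2, ← map_sub]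
    exact dvd_map (h _ (by omega))
  · rw [if_neg h2, if_neg h2, sub_self]
    exact dvd_zero _

theorem rootPoly_natDegree (b e : ℕ) (t : ℕ → PowerSeries K) : (rootPoly Lf b e t).natDegree < e + 1 :=
  Nat.lt_succ_of_le (natDegree_map_le.trans (rowSeries_natDegree_le _ _))

/-- The root over constant symbols. -/
theorem rootPoly_eval_C (b e : ℕ) (c : ℕ → K) {x : Lf} (hx : aeval x (rowPoly e fun i => c (b + i)) = 0) :
    (rootPoly Lf b e fun i => PowerSeries.C (c i)).eval (PowerSeries.C x) = 0 := by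
  rw [rootPoly, eval_map, eval₂_rowSeries]
  simp only [sc, PowerSeries.map_C, ← map_pow, ← map_mul, ← map_sum, ← map_add]
  rw [← map_zero (PowerSeries.C (R := Lf)), ← hx]
  simp [rowPoly]

end Root

/-- The equation at a point over Laurent series, on series. -/
theorem emb_rowSeries {Q : Pt} (T : Laur P₁ Q) {f : PowerSeries P₁.D} (hf : T.emb f = Q.q L j) :
    T.emb ((rowSeries (L.e j) fun i => Fld.cser T (L.b j + i)).eval₂ sc f) = Poly.ev Q.val (L.eqn j) := by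
  rw [eval₂_rowSeries]
  simp only [map_add, map_sum, map_mul, map_pow, hf, Listing.eqn, Poly.ev_X]
  refine congrArg _ (Finset.sum_congr rfl fun l _ => ?_)
  rw [Laur.emb_apply, sc, T.eD_scalar, Fld.coe_cser]
  rfl

section Point

variable {Q : Pt} {T : Laur P₁ Q} {S : Subalgebra Q.K Q.D} (m : T.Model S)

/-- The element of the row over the residue field. -/
theorem qAlg_le_range (hq : Q.q L j ∈ S) : P₁.qAlg L j ≤ m.inc.range := by
  obtain ⟨s, -, hs⟩ := m.exists_q L j hq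
  exact Algebra.adjoin_le (Set.singleton_subset_iff.2 ⟨_, hs⟩)

/-- Series vanishing below an order are divisible inside the model. -/
theorem exists_val {s : PowerSeries m.M} {E : PowerSeries P₁.D} {p : ℕ}
    (h : T.emb (m.sig s) = T.emb (PowerSeries.X ^ p * E)) :
    ∃ E' : PowerSeries m.M, m.sig E' = E ∧ s = PowerSeries.X ^ p * E' := by
  obtain ⟨E', hE'⟩ := m.surj E (T.div_mem (k := p) (by rw [← h]; exact m.mem _))
  refine ⟨E', hE', m.sig_injective (T.emb_injective ?_)⟩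
  have hX : m.sig PowerSeries.X = PowerSeries.X := by
    have h := m.scalar PowerSeries.X
    simpa [sc] using h
  rw [h, map_mul m.sig, map_pow m.sig, hX, hE']

variable (hS : ∀ a ∈ S, ∀ b ∈ S, a * b = b * a)

include hS in
/-- Two derivations of the point: it moves, and the ratio of their values is in the class field. -/
theorem ratio_mem {q : PowerSeries m.M} (hq : T.emb (m.sig q) = Q.q L j)
    {eP₁ eP₂ : Derivation ℤ (PowerSeries m.M) (PowerSeries m.M)}
    {eL₁ eL₂ : Derivation ℤ (LaurentSeries m.M) (LaurentSeries m.M)} {eK₁ eK₂ : Derivation ℤ Q.K Q.K}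
    (h1 : ∀ f, eL₁ (HahnSeries.ofPowerSeries ℤ m.M f) = HahnSeries.ofPowerSeries ℤ m.M (eP₁ f))
    (h2 : ∀ f, eL₂ (HahnSeries.ofPowerSeries ℤ m.M f) = HahnSeries.ofPowerSeries ℤ m.M (eP₂ f))
    (k1 : ∀ l < L.b j, eK₁ (Q.c l) = 0) (k2 : ∀ l < L.b j, eK₂ (Q.c l) = 0)
    (c1 : ∀ z, eL₁ (incl T m.M z) = incl T m.M (eK₁ z)) (c2 : ∀ z, eL₂ (incl T m.M z) = incl T m.M (eK₂ z))
    (hu : PowerSeries.constantCoeff (eP₁ q) ≠ 0) :
    Inv.Moves L j Q ∧ (eP₁ q)⁻¹ * eP₂ q ∈ m.pull (Inv.classF L j Q) := by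
  let _ : Algebra Q.K (LaurentSeries m.M) := (incl T m.M).toAlgebra
  have hφx : m.lauAlg hS rfl (HahnSeries.ofPowerSeries ℤ m.M q) = Q.q L j := by
    rw [m.lauAlg_apply, m.lau_coe, hq]
  have hinv : HahnSeries.ofPowerSeries ℤ m.M (eP₁ q) * HahnSeries.ofPowerSeries ℤ m.M (eP₁ q)⁻¹ = 1 := by
    rw [← map_mul, PowerSeries.mul_inv_cancel _ hu, map_one]
  have h0 : eL₁ (HahnSeries.ofPowerSeries ℤ m.M q) ≠ 0 := fun h0 => by
    rw [h1] at h0; rw [h0, zero_mul] at hinv; exact zero_ne_one hinv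
  obtain ⟨hmov, hcl⟩ := motions_of_series (T := T) rfl (m.lauAlg hS rfl) hφx eK₁ k1 eL₁ c1 h0
  refine ⟨hmov, ?_⟩
  have h := hcl eK₂ k2 eL₂ c2
  rw [h1, h2, show (HahnSeries.ofPowerSeries ℤ m.M (eP₁ q))⁻¹ = HahnSeries.ofPowerSeries ℤ m.M (eP₁ q)⁻¹ from
    inv_eq_of_mul_eq_one_right hinv, ← map_mul, m.lauAlg_apply, m.lau_coe] at h
  exact h

variable {Lf : Type} [Field Lf] [Algebra P₁.K Lf] (ψ : Lf →ₐ[P₁.K] P₁.D) (i : Lf →ₐ[P₁.K] m.M)

/-- Powers independent over the row algebra are independent over the field. -/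
theorem indep_field (hi : ∀ a, m.inc (i a) = ψ a) (hψ : ∀ a, ψ a ∈ P₁.qAlg L j)
    (hdeg : Minimise.degRow L j P₁ = L.e j) {x₀ : Lf} (hx₀ : ψ x₀ = P₁.q L j) {N : ℕ} (e₀ : m.M)
    (hgen : Deletion.Gen (P₁.q L j) (L.e j) N (m.inc e₀)) :
    (LinearIndependent i.fieldRange fun k : Fin N => e₀ ^ (k : ℕ)) ∧
      LinearIndependent P₁.K fun z : Fin (L.e j) × Fin N => (i x₀) ^ (z.1 : ℕ) * e₀ ^ (z.2 : ℕ) := by
  classical
  have hindK : LinearIndependent P₁.K fun z : Fin (L.e j) × Fin N =>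
      (i x₀) ^ (z.1 : ℕ) * e₀ ^ (z.2 : ℕ) := by
    refine LinearIndependent.of_comp m.inc.toLinearMap ?_
    have he : (⇑m.inc.toLinearMap ∘ fun z : Fin (L.e j) × Fin N => (i x₀) ^ (z.1 : ℕ) * e₀ ^ (z.2 : ℕ)) =
        fun z => P₁.q L j ^ (z.1 : ℕ) * m.inc e₀ ^ (z.2 : ℕ) := funext fun z => by
      simp [hi, hx₀]
    rw [he]
    exact hgen
  refine ⟨Fintype.linearIndependent_iff.2 fun coef hcoef k => ?_, hindK⟩
  choose r hr using fun l => (show ∃ r : Lf, i r = (coef l : m.M) from (coef l).2)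
  choose c hc using fun l => Inv.exists_coeffs L (P := P₁) (hψ (r l))
  have hcl : ∀ l, (coef l : m.M) = ∑ n : Fin (Minimise.degRow L j P₁), c l n • (i x₀) ^ (n : ℕ) := fun l =>
    m.inc_injective (by
      rw [← hr l, hi, hc l, map_sum]
      simp [hi, hx₀])
  have h1 : ∑ l, (∑ n : Fin (Minimise.degRow L j P₁), c l n • (i x₀) ^ (n : ℕ)) * e₀ ^ (l : ℕ) = 0 := by
    rw [← hcoef]
    exact Finset.sum_congr rfl fun l _ => by rw [← hcl l]; rfl
  have h2 : ∑ z : Fin (L.e j) × Fin N,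
      c z.2 (Fin.cast hdeg.symm z.1) • ((i x₀) ^ (z.1 : ℕ) * e₀ ^ (z.2 : ℕ)) = 0 := by
    rw [← h1, Fintype.sum_prod_type, Finset.sum_comm]
    refine Finset.sum_congr rfl fun l _ => ?_
    rw [Finset.sum_mul]
    exact Fintype.sum_equiv (finCongr hdeg.symm) _ _ fun n => by simp
  have h3 := Fintype.linearIndependent_iff.1 hindK _ h2
  refine Subtype.ext ?_
  rw [hcl k]
  exact Finset.sum_eq_zero fun n _ => by
    have h4 := h3 (Fin.cast hdeg n, k)
    simp only [Fin.cast_cast, Fin.cast_eq_self] at h4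
    rw [h4, zero_smul]

variable {ι : Type} [Fintype ι] {δ : ι → Derivation ℤ P₁.K P₁.K} {δL : ι → Derivation ℤ Lf Lf}
  {δM : ι → Derivation ℤ m.M m.M}

/-- The data of a derivation of the point with given residue on the field. -/
def Lifts (q : PowerSeries m.M) (e : Derivation ℤ P₁.K P₁.K) : Prop :=
  ∀ eR : Derivation ℤ Lf Lf, (∀ a, eR (algebraMap P₁.K Lf a) = algebraMap P₁.K Lf (e a)) →
    ∀ x₀ : Lf, i x₀ = PowerSeries.constantCoeff q →
    ∃ (eP : Derivation ℤ (PowerSeries m.M) (PowerSeries m.M))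
      (eL : Derivation ℤ (LaurentSeries m.M) (LaurentSeries m.M)) (eK : Derivation ℤ Q.K Q.K),
      (∀ l < L.b j, eK (Q.c l) = 0) ∧
      (∀ f, eL (HahnSeries.ofPowerSeries ℤ m.M f) = HahnSeries.ofPowerSeries ℤ m.M (eP f)) ∧
      (∀ x, eL (incl T m.M x) = incl T m.M (eK x)) ∧
      PowerSeries.constantCoeff (eP q) = i (eR x₀)

include hS in
/-- The class field at the residue consists of residues of the class field at the point. -/
theorem classF_le_residue (hi : ∀ a, m.inc (i a) = ψ a) {x₀ : Lf} (hx₀ : ψ x₀ = P₁.q L j)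
    {q : PowerSeries m.M} (hq : T.emb (m.sig q) = Q.q L j) (hqi : PowerSeries.constantCoeff q = i x₀)
    (hlift : ∀ e : Derivation ℤ P₁.K P₁.K, (∀ l < L.b j, e (P₁.c l) = 0) → Lifts (L := L) (j := j) m i q e) :
    Inv.classF L j P₁ ≤ (Key.residue (m.pull (Inv.classF L j Q))).map m.inc := by
  have := P₁.charZero
  refine Algebra.adjoin_le ?_
  rintro _ ⟨v₁, ⟨e₁, he₁, rfl⟩, v₂, ⟨e₂, he₂, rfl⟩, hv0, rfl⟩
  obtain ⟨e₁R, h₁⟩ := exists_extend (M := Lf) e₁
  obtain ⟨e₂R, h₂⟩ := exists_extend (M := Lf) e₂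
  obtain ⟨eP₁, eL₁, eK₁, k1, hl1, hlc1, hc1⟩ := hlift e₁ he₁ e₁R h₁ x₀ hqi.symm
  obtain ⟨eP₂, eL₂, eK₂, k2, hl2, hlc2, hc2⟩ := hlift e₂ he₂ e₂R h₂ x₀ hqi.symm
  have hd0 := derivative_ne_zero ψ hx₀
  have hv1 := motion_eq ψ hx₀ e₁ e₁R h₁
  have hv2 := motion_eq ψ hx₀ e₂ e₂R h₂
  have hne1 : e₁R x₀ ≠ 0 := fun h0 => hv0 (by rw [← hv1, h0, mul_zero, map_zero])
  have hmem := (ratio_mem m hS hq hl1 hl2 k1 k2 hlc1 hlc2
    (by rw [hc1]; exact (map_ne_zero_iff i i.toRingHom.injective).2 hne1)).2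
  refine ⟨i ((e₁R x₀)⁻¹ * e₂R x₀), Key.mem_residue.2 ⟨_, hmem, ?_⟩, ?_⟩
  · rw [map_mul, map_mul, map_inv₀, PowerSeries.constantCoeff_inv, hc1, hc2]
  · rw [← hv1, ← hv2]
    refine (hi _).trans ?_
    refine (eq_inv_mul_iff_mul_eq₀ ((map_ne_zero_iff ψ ψ.toRingHom.injective).2
      (mul_ne_zero (neg_ne_zero.2 hd0) hne1))).2 ?_
    rw [← map_mul, mul_assoc, ← mul_assoc (e₁R x₀), mul_inv_cancel₀ hne1, one_mul]

/-- Derivations killing the residue symbols lift. -/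
theorem lifts {N : ℕ} (hN : L.b j = N) (htr : Minimise.trdegSym N Q = Minimise.trdegSym N P₁)
    {s : Finset (Fin N)} (hs : s.card = Minimise.trdegSym N P₁)
    (hind : AlgebraicIndependent ℚ fun k : s => P₁.c (k : Fin N)) (δ : s → Derivation ℤ P₁.K P₁.K)
    (hδ : ∀ l k : s, δ l (P₁.c (k : Fin N)) = if l = k then 1 else 0) (δR : s → Derivation ℤ Lf Lf)
    (hδR : ∀ k a, δR k (algebraMap P₁.K Lf a) = algebraMap P₁.K Lf (δ k a))
    (δM : s → Derivation ℤ m.M m.M) (hδM : ∀ k a, δM k (i a) = i (δR k a)) (q : PowerSeries m.M)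
    (e : Derivation ℤ P₁.K P₁.K) (hek : ∀ l < N, e (P₁.c l) = 0) (eR : Derivation ℤ Lf Lf)
    (he : ∀ a, eR (algebraMap P₁.K Lf a) = algebraMap P₁.K Lf (e a)) :
    ∃ (a : s → PowerSeries P₁.K) (eP : Derivation ℤ (PowerSeries m.M) (PowerSeries m.M))
      (eL : Derivation ℤ (LaurentSeries m.M) (LaurentSeries m.M)) (eK : Derivation ℤ Q.K Q.K),
      (∀ k : s, psMap e (Fld.cser T (k : Fin N)) + ∑ l, a l * psMap (δ l) (Fld.cser T (k : Fin N)) = 0) ∧
      (∀ l < L.b j, eK (Q.c l) = 0) ∧ eP PowerSeries.X = 0 ∧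
      (∀ f, eP (PowerSeries.map i.toRingHom f) = PowerSeries.map i.toRingHom (corr (psMap eR) δR a f)) ∧
      (∀ x₀ : Lf, i x₀ = PowerSeries.constantCoeff q → PowerSeries.constantCoeff (eP q) = i (eR x₀)) ∧
      (∀ f, eL (HahnSeries.ofPowerSeries ℤ m.M f) = HahnSeries.ofPowerSeries ℤ m.M (eP f)) ∧
      ∀ x, eL (incl T m.M x) = incl T m.M (eK x) := by
  have := P₁.charZero
  have : CharZero Lf := charZero_of_injective_algebraMap (algebraMap P₁.K Lf).injective
  let _ : Algebra Lf m.M := i.toRingHom.toAlgebra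
  obtain ⟨eM, heM⟩ := exists_extend (M := m.M) eR
  have heM' : ∀ a, eM (i a) = i (eR a) := heM
  obtain ⟨a, ha0, ha⟩ := exists_kill_res δ hδ e hek (fun k => Fld.cser T (k : Fin N))
    fun k => Fld.constantCoeff_cser T _
  obtain ⟨eP, eL, hP, hPi, hL, hK⟩ := exists_pair_over T i δ δR δM hδR hδM (lsMap e) (psMap eR)
    (psMap eM) (lsMap eM) (fun f => lsMap_coe eM f)
    (fun x => lsMap_incl T m.M e eM (fun z => by rw [← i.commutes, heM', he, i.commutes]) x)
    (fun f => psMap_map eR eM heM f) a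
  refine ⟨a, eP, eL, _, ha,
    fun l hl => kills_all T htr hs hind δ (psMap e) (lsMap e) (fun f => lsMap_coe e f) a ha l (hN ▸ hl),
    ?_, hPi, fun x₀ hx => ?_, hL, hK⟩
  · simp [hP, corr, psMap_X]
  · rw [hP, cc_corr _ _ _ ha0, cc_psMap, ← hx, heM']

end Point

/-- Without symbols of orders up to `p` the motion in the parameter vanishes to order `p`. -/
theorem dvd_motion {Lf : Type} [Field Lf] [Algebra P₁.K Lf] {N p : ℕ} {s : Finset (Fin N)}
    (δ : s → Derivation ℤ P₁.K P₁.K)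
    (hδ : ∀ l k : s, δ l (P₁.c (k : Fin N)) = if l = k then 1 else 0) (δR : s → Derivation ℤ Lf Lf)
    (t : ℕ → PowerSeries P₁.K) (ht : ∀ i, PowerSeries.constantCoeff (t i) = P₁.c i)
    (b : s → PowerSeries P₁.K)
    (hb : ∀ k : s, psD (t (k : Fin N)) + ∑ l, b l * psMap (δ l) (t (k : Fin N)) = 0)
    (hN : L.b j = N) (hconst : ∀ i < L.b (j + 1), PowerSeries.X ^ (p + 1) ∣ t i - PowerSeries.C (P₁.c i))
    {x₀ : Lf} (hx₀ : aeval x₀ (rowPoly (L.e j) fun i => P₁.c (L.b j + i)) = 0) {lam : PowerSeries Lf}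
    (hlam : (rootPoly Lf (L.b j) (L.e j) t).eval lam = 0) (hlc : PowerSeries.constantCoeff lam = x₀)
    (h1 : ((rootPoly Lf (L.b j) (L.e j) t).map PowerSeries.constantCoeff).derivative.eval x₀ ≠ 0) :
    PowerSeries.X ^ p ∣ corr (psD (K := Lf)) δR b lam := by
  classical
  have hjb : L.b j + L.e j = L.b (j + 1) := (L.b_succ j).symm
  have hlc' : PowerSeries.X ^ (p + 1) ∣ lam - PowerSeries.C x₀ :=
    root_congr _ _ (rootPoly_natDegree _ _ _) (rootPoly_natDegree _ _ _)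
      (rootPoly_congr (Lf := Lf) _ _ fun i hi => hconst i (hjb ▸ hi)) hlam (rootPoly_eval_C _ _ _ hx₀)
      (by rw [hlc, PowerSeries.constantCoeff_C]) (by rw [hlc]; exact h1)
  have hk : ∀ k : s, PowerSeries.X ^ (p + 1) ∣ t (k : Fin N) - PowerSeries.C (P₁.c (k : Fin N)) := fun k =>
    hconst _ (lt_of_lt_of_le (k : Fin N).2 (hN ▸ hjb ▸ Nat.le_add_right _ _))
  have hbz : ∀ l, PowerSeries.X ^ p ∣ b l := fun l => by
    have h := kill_congr (p := p) δ (fun k : s => t (k : Fin N)) (fun k => PowerSeries.C (P₁.c (k : Fin N)))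
      (fun l k => by rw [ht]; exact hδ l k) (fun k => (pow_dvd_pow _ p.le_succ).trans (hk k))
      (fun k => psD (t (k : Fin N))) (fun k => psD (PowerSeries.C (P₁.c (k : Fin N))))
      (fun k => by rw [← map_sub]; exact dvd_psD (hk k)) b 0 hb (fun k => by simp [psD_C]) l
    simpa using h
  refine dvd_add ?_ (Finset.dvd_sum fun k _ => (Ders.dvd_map (hbz k)).mul_right _)
  have h := dvd_psD hlc'
  rwa [map_sub, psD_C, sub_zero] at h

/-- The final rescaling. -/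
theorem inc_eq {Lf M : Type} [Field Lf] [Field M] [Algebra P₁.K Lf] [Algebra P₁.K M]
    (ψ : Lf →ₐ[P₁.K] P₁.D) (φ : M →ₐ[P₁.K] P₁.D) (i : Lf →ₐ[P₁.K] M) (hi : ∀ a, φ (i a) = ψ a)
    (B f' dx : Lf) {ρ : P₁.D} (hρ : ψ (-f' * dx) = ρ) (hρ0 : ρ ≠ 0) {p : ℕ} (hp : (p : P₁.K) ≠ 0) (e₀ : M) :
    φ (i B + i ((p : Lf) * (f'⁻¹ * dx⁻¹)) * e₀) =
      (-(p : P₁.K)) • (ρ⁻¹ * (φ e₀ - (p : P₁.K)⁻¹ • (ρ * ψ B))) := by
  have hc : ψ ((p : Lf) * (f'⁻¹ * dx⁻¹)) = (-(p : P₁.K)) • ρ⁻¹ := by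
    rw [← hρ, ← map_inv₀ ψ, ← map_smul]
    congr 1
    rw [Algebra.smul_def, map_neg, map_natCast, mul_inv, inv_neg]
    ring
  rw [map_add, map_mul, hi, hi, hc, smul_mul_assoc, mul_sub, mul_smul_comm, ← mul_assoc,
    inv_mul_cancel₀ hρ0, one_mul, smul_sub, smul_smul, neg_mul, mul_inv_cancel₀ hp, neg_smul, neg_smul,
    one_smul]
  abel

/-- **KEY at a point**, from reference data at the residue. -/
theorem key_at {Q : Pt} (T : Laur P₁ Q) {Lf : Type} [Field Lf] [Algebra P₁.K Lf]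
    (ψ : Lf →ₐ[P₁.K] P₁.D) (hψ : ∀ a, ψ a ∈ P₁.qAlg L j) {x₀ : Lf} (hx₀ : ψ x₀ = P₁.q L j)
    (hrow : rowPoly (L.e j) (fun i => P₁.c (L.b j + i)) = minpoly P₁.K (P₁.q L j))
    (hdeg : Minimise.degRow L j P₁ = L.e j) {d : Derivation ℤ P₁.K P₁.K}
    (hd : ∀ l < L.b j, d (P₁.c l) = 0) {dR : Derivation ℤ Lf Lf}
    (hdR : ∀ a, dR (algebraMap P₁.K Lf a) = algebraMap P₁.K Lf (d a)) (hdx : dR x₀ ≠ 0)
    {s : Finset (Fin (L.b j))} (hs : s.card = Minimise.trdegSym (L.b j) P₁)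
    (hind : AlgebraicIndependent ℚ fun k : s => P₁.c (k : Fin (L.b j)))
    (δ : s → Derivation ℤ P₁.K P₁.K)
    (hδ : ∀ l k : s, δ l (P₁.c (k : Fin (L.b j))) = if l = k then 1 else 0)
    (δR : s → Derivation ℤ Lf Lf) (hδR : ∀ k a, δR k (algebraMap P₁.K Lf a) = algebraMap P₁.K Lf (δ k a))
    {p : ℕ} (hp : 0 < p) (t₀ : ℕ → PowerSeries P₁.K) (a₀ b₀ : s → PowerSeries P₁.K)
    (ha₀0 : ∀ k, PowerSeries.constantCoeff (a₀ k) = 0)
    (ha₀ : ∀ k : s, psMap d (t₀ (k : Fin (L.b j))) + ∑ l, a₀ l * psMap (δ l) (t₀ (k : Fin (L.b j))) = 0)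
    (hb₀ : ∀ k : s, psD (t₀ (k : Fin (L.b j))) + ∑ l, b₀ l * psMap (δ l) (t₀ (k : Fin (L.b j))) = 0)
    {lam₀ : PowerSeries Lf} (hlam₀ : (rootPoly Lf (L.b j) (L.e j) t₀).eval lam₀ = 0)
    (hlc₀ : PowerSeries.constantCoeff lam₀ = x₀)
    (htt : ∀ i < L.b (j + 1), PowerSeries.X ^ (p + 1) ∣ Fld.cser T i - t₀ i)
    (htr : Minimise.trdegSym (L.b j) Q = Minimise.trdegSym (L.b j) P₁) {E : PowerSeries P₁.D}
    (hE : T.emb (PowerSeries.X ^ p * E) = Poly.ev Q.val (L.eqn j)) {g N : ℕ} (hN : 0 < N)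
    (hg : g ≤ finrank P₁.K (Inv.classF L j P₁))
    (hbound : Inv.Moves L j Q → L.e j * N ≤ Minimise.degRow L j Q →
      finrank Q.K (Inv.classF L j Q) ≤ g * N)
    (hgen : Deletion.Gen (P₁.q L j) (L.e j) N (PowerSeries.constantCoeff E)) {ρ : P₁.D}
    (hρ : ψ (-(aeval x₀ (minpoly P₁.K (P₁.q L j)).derivative) * dR x₀) = ρ) (hρ0 : ρ ≠ 0) :
    finrank P₁.K (Inv.classF L j P₁) = g ∧
      Deletion.Small (Inv.classF L j P₁ : Set P₁.D) (g * N)
        (ρ⁻¹ * (PowerSeries.constantCoeff E - (p : P₁.K)⁻¹ • (ρ * ψ (PowerSeries.coeff (p - 1)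
          (corr (psD (K := Lf)) δR b₀ lam₀ * (corr (psMap dR) δR a₀ lam₀)⁻¹))))) := by
  classical
  have := P₁.charZero
  have : CharZero Lf := charZero_of_injective_algebraMap (algebraMap P₁.K Lf).injective
  set f₀ := minpoly P₁.K (P₁.q L j) with hf₀
  have hfx : aeval x₀ f₀.derivative ≠ 0 := derivative_ne_zero ψ hx₀
  set S := Q.qAlg L j
  have hS : ∀ a ∈ S, ∀ b ∈ S, a * b = b * a := fun a ha b hb => Q.qAlg_comm L ha hb
  obtain ⟨m⟩ := T.nonempty_model S hS
  obtain ⟨q, hq, hq0⟩ := m.exists_q L j (Algebra.self_mem_adjoin_singleton _ _)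
  have hle : ∀ a, ψ a ∈ m.inc.range := fun a => qAlg_le_range m (Algebra.self_mem_adjoin_singleton _ _) (hψ a)
  let i : Lf →ₐ[P₁.K] m.M :=
    (AlgEquiv.ofInjective m.inc m.inc_injective).symm.toAlgHom.comp (ψ.codRestrict m.inc.range hle)
  have hi : ∀ a, m.inc (i a) = ψ a := fun a =>
    congrArg Subtype.val ((AlgEquiv.ofInjective m.inc m.inc_injective).apply_symm_apply
      (ψ.codRestrict m.inc.range hle a))
  have hinj : Function.Injective i := i.toRingHom.injective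
  have hqi : PowerSeries.constantCoeff q = i x₀ := m.inc_injective (by rw [hq0, hi, hx₀])
  let _ : Algebra Lf m.M := i.toRingHom.toAlgebra
  choose δM hδM using fun k => exists_extend (M := m.M) (δR k)
  have hlift := lifts m i rfl htr hs hind δ hδ δR hδR δM hδM q
  obtain ⟨a, dP, dL, dK, ha, hdK, hdX, hdPi, hdq, hdL, hdLc⟩ := hlift d hd dR hdR
  have hcs : ∀ l, PowerSeries.constantCoeff (Fld.cser T l) = P₁.c l := Fld.constantCoeff_cser T
  have hδt : ∀ l k : s, δ l (PowerSeries.constantCoeff (Fld.cser T (k : Fin (L.b j)))) =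
      if l = k then 1 else 0 := fun l k => by rw [hcs]; exact hδ l k
  obtain ⟨b, hb, -⟩ := exists_kill (fun k : s => Fld.cser T (k : Fin (L.b j))) δ hδt psD
  obtain ⟨DP, DL, hDP, hDPi, hDL, hDK⟩ := exists_pair_over T i δ δR δM hδR hδM lsD (psD (K := Lf))
    (psD (K := m.M)) lsD (fun f => lsD_coe f) (fun x => lsD_incl T m.M x) (fun f => psD_map (K := Lf) f) b
  have hbk := kills_all T htr hs hind δ psD lsD (fun f => lsD_coe f) b hb
  have hDX : DP PowerSeries.X = 1 := by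
    have h1 : psD (PowerSeries.X : PowerSeries m.M) = 1 := PowerSeries.derivative_X
    simp [hDP, corr, psMap_X, h1]
  have hdq0 : PowerSeries.constantCoeff (dP q) ≠ 0 := by
    rw [hdq x₀ hqi.symm]; exact (map_ne_zero_iff i hinj).2 hdx
  obtain ⟨hmov, hR⟩ := ratio_mem m hS hq hdL hDL hdK hbk hdLc hDK hdq0
  -- the root near the element
  obtain ⟨E', hE', hval⟩ := exists_val m (p := p) (E := E)
    (s := (rowSeries (L.e j) fun l => Fld.cser T (L.b j + l)).eval₂ sc q) (by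
      rw [hE, m.sig_eval]
      exact emb_rowSeries T hq)
  have h0 : ((rootPoly Lf (L.b j) (L.e j) fun l => Fld.cser T l).map PowerSeries.constantCoeff) =
      f₀.map (algebraMap P₁.K Lf) := by rw [rootPoly_cc _ _ hcs, hrow]
  have hroot : aeval x₀ f₀ = 0 := ψ.toRingHom.injective (by
    show ψ (aeval x₀ f₀) = ψ 0
    rw [← aeval_algHom_apply, hx₀, minpoly.aeval, map_zero])
  obtain ⟨lam, hlam, hlamc, Z, hqZ, hZ⟩ := exists_root_expansion i.toRingHom
    (rootPoly Lf (L.b j) (L.e j) fun l => Fld.cser T l) (a := x₀)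
    (by rw [h0, eval_map, ← aeval_def, hroot]) (by rw [h0, derivative_map, eval_map, ← aeval_def]; exact hfx)
    q hqi (p := p) E' (by
      rw [← hval, rootPoly, eval₂_map]
      congr 1
      exact RingHom.ext fun z => PowerSeries.ext fun l => by simp [sc])
  -- congruences with the reference
  have hjb : L.b j + L.e j = L.b (j + 1) := (L.b_succ j).symm
  have hk : ∀ k : s, PowerSeries.X ^ (p + 1) ∣ Fld.cser T (k : Fin (L.b j)) - t₀ (k : Fin (L.b j)) :=
    fun k => htt _ (lt_of_lt_of_le (k : Fin (L.b j)).2 (hjb ▸ Nat.le_add_right _ _))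
  have hlc : PowerSeries.X ^ (p + 1) ∣ lam - lam₀ :=
    root_congr _ _ (rootPoly_natDegree _ _ _) (rootPoly_natDegree _ _ _)
      (rootPoly_congr (Lf := Lf) _ _ fun l hl => htt l (hjb ▸ hl)) hlam hlam₀ (hlamc.trans hlc₀.symm)
      (by rw [hlamc, h0, derivative_map, eval_map, ← aeval_def]; exact hfx)
  have hlp : PowerSeries.X ^ p ∣ lam - lam₀ := (pow_dvd_pow _ p.le_succ).trans hlc
  have haa : ∀ k, PowerSeries.X ^ p ∣ a k - a₀ k :=
    kill_congr δ _ _ hδt (fun k => (pow_dvd_pow _ p.le_succ).trans (hk k)) _ _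
      (fun k => by rw [← map_sub]; exact dvd_psMap _ ((pow_dvd_pow _ p.le_succ).trans (hk k))) a a₀ ha ha₀
  have hbb : ∀ k, PowerSeries.X ^ p ∣ b k - b₀ k :=
    kill_congr δ _ _ hδt (fun k => (pow_dvd_pow _ p.le_succ).trans (hk k)) _ _
      (fun k => by rw [← map_sub]; exact dvd_psD (hk k)) b b₀ hb hb₀
  set u := corr (psMap dR) δR a lam
  set U := corr (psD (K := Lf)) δR b lam
  set u₀ := corr (psMap dR) δR a₀ lam₀
  set U₀ := corr (psD (K := Lf)) δR b₀ lam₀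
  have hu₀ : PowerSeries.constantCoeff u₀ = dR x₀ := by rw [cc_corr _ _ _ ha₀0, cc_psMap, hlc₀]
  have huu : PowerSeries.X ^ p ∣ u - u₀ := corr_congr _ _ haa (dvd_psMap _ hlp) hlp
  have hUU : PowerSeries.X ^ p ∣ U - U₀ := corr_congr _ _ hbb (dvd_psD hlc) hlp
  have hu : PowerSeries.constantCoeff u = dR x₀ := by
    rw [← sub_add_cancel u u₀, map_add, hu₀,
      PowerSeries.X_dvd_iff.1 ((dvd_pow_self _ hp.ne').trans huu), zero_add]
  set B := PowerSeries.coeff (p - 1) (U₀ * u₀⁻¹) with hB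
  have hcc : PowerSeries.constantCoeff (dP (PowerSeries.map i.toRingHom lam)) = i (dR x₀) := by
    rw [hdPi, cc_map, hu]; rfl
  have hcc0 : PowerSeries.constantCoeff (dP (PowerSeries.map i.toRingHom lam)) ≠ 0 := by
    rw [hcc]; exact (map_ne_zero_iff i hinj).2 hdx
  have hquot : PowerSeries.coeff (p - 1) (DP (PowerSeries.map i.toRingHom lam) *
      (dP (PowerSeries.map i.toRingHom lam))⁻¹) = i B := by
    have hinv : (dP (PowerSeries.map i.toRingHom lam))⁻¹ = PowerSeries.map i.toRingHom u⁻¹ := by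
      symm
      rw [PowerSeries.eq_inv_iff_mul_eq_one hcc0, hdPi, ← map_mul,
        PowerSeries.inv_mul_cancel _ (by rw [hu]; exact hdx), map_one]
    rw [hinv, hDPi, ← map_mul, PowerSeries.coeff_map]
    refine congrArg _ ?_
    rw [hB, ← sub_eq_zero, ← map_sub]
    exact PowerSeries.X_pow_dvd_iff.1 (quot_congr hUU huu (by rw [hu]; exact hdx) (by rw [hu₀]; exact hdx)) _
      (by omega)
  -- KEY
  obtain ⟨-, hmem⟩ := Key.key_series (m.pull (Inv.classF L j Q)) (m.X_mem_pull _)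
    (m.pull_saturated _) i.toRingHom.fieldRange DP dP hDX hdX hp
    (fun k _ => by rw [hDPi, PowerSeries.coeff_map]; exact ⟨_, rfl⟩)
    (fun k _ => by rw [hdPi, PowerSeries.coeff_map]; exact ⟨_, rfl⟩) hcc0 hR (by
      rw [← hqZ, mul_comm ((dP q)⁻¹), mul_assoc, mul_comm ((dP q)⁻¹), PowerSeries.mul_inv_cancel _ hdq0,
        mul_one])
  rw [hquot, hcc, hZ, h0, derivative_map, eval_map, ← aeval_def] at hmem
  set e₀ := PowerSeries.constantCoeff E' with he₀
  have hincE : m.inc e₀ = PowerSeries.constantCoeff E := by rw [← hE', m.res]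
  have hp0 : (p : P₁.K) ≠ 0 := Nat.cast_ne_zero.2 hp.ne'
  have hw : i B + (p : m.M) * (e₀ / i.toRingHom (aeval x₀ f₀.derivative)) / i (dR x₀) =
      i B + i ((p : Lf) * ((aeval x₀ f₀.derivative)⁻¹ * (dR x₀)⁻¹)) * e₀ := by
    simp only [map_mul, map_inv₀, map_natCast, div_eq_mul_inv, AlgHom.toRingHom_eq_coe, RingHom.coe_coe]
    ring
  rw [hw] at hmem
  obtain ⟨hindL, hindK⟩ := indep_field m ψ i hi hψ hdeg hx₀ e₀ (hincE ▸ hgen)
  have hdegQ : L.e j * N ≤ Minimise.degRow L j Q := by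
    have h := m.card_le_finrank (fun z : Fin (L.e j) × Fin N => (i x₀) ^ (z.1 : ℕ) * e₀ ^ (z.2 : ℕ))
      (hindK.map' m.inc.toLinearMap (LinearMap.ker_eq_bot.2 m.inc_injective))
    rw [Fintype.card_prod, Fintype.card_fin, Fintype.card_fin] at h
    exact h.trans (finrank_qAlg_le L j Q)
  have hdim : finrank P₁.K (Key.residue (m.pull (Inv.classF L j Q))) ≤ g * N :=
    (m.finrank_residue_pull hS (Inv.classF_le_qAlg L Q)).trans_le (hbound hmov hdegQ)
  -- the class field of the residue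
  have hC0 := classF_le_residue m hS ψ i hi hx₀ hq hqi fun e he eR heR x hx => by
    obtain ⟨_, eP, eL, eK, -, k, -, -, hc, hl, hlc⟩ := hlift e he eR heR
    exact ⟨eP, eL, eK, k, hl, hlc, hc x hx⟩
  set F1 := (Inv.classF L j P₁).comap m.inc
  have hmap : F1.map m.inc = Inv.classF L j P₁ :=
    Subalgebra.map_comap_eq_self ((Inv.classF_le_qAlg L P₁).trans
      (qAlg_le_range m (Algebra.self_mem_adjoin_singleton _ _)))
  have hF1dim : finrank P₁.K F1 = finrank P₁.K (Inv.classF L j P₁) := by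
    rw [← hmap]
    exact (Subalgebra.equivMapOfInjective F1 m.inc m.inc_injective).toLinearEquiv.finrank_eq
  have hF10 : F1 ≤ Key.residue (m.pull (Inv.classF L j Q)) := fun c hc => by
    obtain ⟨c', hc', he⟩ := hC0 (show m.inc c ∈ Inv.classF L j P₁ from hc)
    rwa [← m.inc_injective he]
  have hψr : P₁.qAlg L j ≤ ψ.range := Algebra.adjoin_le (Set.singleton_subset_iff.2 ⟨x₀, hx₀⟩)
  have hF1L : F1 ≤ i.fieldRange.toSubalgebra := fun c hc => by
    obtain ⟨y, hy⟩ := hψr (Inv.classF_le_qAlg L P₁ hc)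
    exact ⟨y, m.inc_injective ((hi y).trans hy)⟩
  have hcR : (p : Lf) * ((aeval x₀ f₀.derivative)⁻¹ * (dR x₀)⁻¹) ≠ 0 :=
    mul_ne_zero (Nat.cast_ne_zero.2 hp.ne') (mul_ne_zero (inv_ne_zero hfx) (inv_ne_zero hdx))
  obtain ⟨-, hgF, hsmall⟩ := Key.key_dim hdim hF10 hF1L (hg.trans hF1dim.ge) hmem hN
    (Key.indep_affine hindL (a := i B) ⟨B, rfl⟩ ⟨_, rfl⟩ ((map_ne_zero_iff i hinj).2 hcR))
  refine ⟨hF1dim.symm.trans hgF, ?_⟩
  unfold Deletion.Small
  rw [← adjoin_insert_smul _ (neg_ne_zero.2 hp0), ← hincE, ← inc_eq ψ m.inc i hi B _ _ hρ hρ0 hp0 e₀,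
    show (Inv.classF L j P₁ : Set P₁.D) = m.inc '' (F1 : Set m.M) by
      rw [← Subalgebra.coe_map, hmap],
    ← Set.image_insert_eq, ← AlgHom.map_adjoin]
  exact ((Subalgebra.equivMapOfInjective _ m.inc m.inc_injective).toLinearEquiv.finrank_eq).symm.trans_le
    hsmall

/-- **KEY.** -/
theorem key (hsol : Poly.ev P₁.val (L.eqn j) = 0) (hdeg : Minimise.degRow L j P₁ = L.e j) {ρ : P₁.D}
    (hρ : ρ ∈ Inv.motions L j P₁) (hρ0 : ρ ≠ 0) {g N : ℕ} (hN : 0 < N)
    (hg : g ≤ finrank P₁.K (Inv.classF L j P₁)) (Cs : ℕ → ℕ → P₁.K) (hC : Cs 0 = P₁.c) {p : ℕ}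
    (hp : 0 < p) :
    ∃ β ∈ P₁.scalars L j,
      ((∀ k, 0 < k → k ≤ p → ∀ i < L.b (j + 1), Cs k i = 0) → β = 0) ∧
      ∀ (Q : Pt) (T : Laur P₁ Q),
        (∀ i < L.b (j + 1), ∀ k ≤ p, PowerSeries.coeff k (Fld.cser T i) = Cs k i) →
        Minimise.trdegSym (L.b j) Q = Minimise.trdegSym (L.b j) P₁ →
        ∀ E : PowerSeries P₁.D, T.emb (PowerSeries.X ^ p * E) = Poly.ev Q.val (L.eqn j) →
          (Inv.Moves L j Q → L.e j * N ≤ Minimise.degRow L j Q →
            finrank Q.K (Inv.classF L j Q) ≤ g * N) →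
          Deletion.Gen (P₁.q L j) (L.e j) N (PowerSeries.constantCoeff E) →
          finrank P₁.K (Inv.classF L j P₁) = g ∧
            Deletion.Small (Inv.classF L j P₁ : Set P₁.D) (g * N)
              (ρ⁻¹ * (PowerSeries.constantCoeff E - β)) := by
  classical
  have := P₁.charZero
  let R := P₁.qAlg L j
  let _ : CommRing R :=
    { (inferInstance : Ring R) with mul_comm := fun a b => Subtype.ext (P₁.qAlg_comm L a.2 b.2) }
  have : IsDomain R := Function.Injective.isDomain R.val.toRingHom Subtype.val_injective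
  let _ : Field R := fieldOfFiniteDimensional P₁.K R
  let x₀ : R := ⟨P₁.q L j, Algebra.self_mem_adjoin_singleton _ _⟩
  have hx₀ : R.val x₀ = P₁.q L j := rfl
  have hrow : rowPoly (L.e j) (fun i => P₁.c (L.b j + i)) = minpoly P₁.K (P₁.q L j) :=
    rowPoly_eq_minpoly hsol hdeg
  obtain ⟨d, hd, hρd⟩ := hρ
  obtain ⟨dR, hdR⟩ := exists_extend (M := R) d
  have hρR : R.val (-(aeval x₀ (minpoly P₁.K (P₁.q L j)).derivative) * dR x₀) = ρ :=
    (motion_eq R.val hx₀ d dR hdR).trans hρd.symm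
  have hdx : dR x₀ ≠ 0 := fun h0 => hρ0 (by rw [← hρR, h0, mul_zero, map_zero])
  have hρq : ρ ∈ R := hρR ▸ (-(aeval x₀ (minpoly P₁.K (P₁.q L j)).derivative) * dR x₀).2
  obtain ⟨s, hs, hind⟩ := Minimise.exists_basis (L.b j) P₁
  obtain ⟨δ, hδ⟩ := exists_duals hind
  choose δR hδR using fun k => exists_extend (M := R) (δ k)
  let t₀ : ℕ → PowerSeries P₁.K := fun i => PowerSeries.mk fun k => if k ≤ p then Cs k i else 0
  have ht₀ : ∀ i, PowerSeries.constantCoeff (t₀ i) = P₁.c i := fun i => by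
    rw [← PowerSeries.coeff_zero_eq_constantCoeff_apply]
    simp [t₀, hC]
  obtain ⟨a₀, ha₀0, ha₀⟩ := exists_kill_res δ hδ d hd (fun k => t₀ (k : Fin (L.b j))) fun k => ht₀ _
  obtain ⟨b₀, hb₀, -⟩ := exists_kill (fun k : s => t₀ (k : Fin (L.b j))) δ
    (fun l k => by rw [ht₀]; exact hδ l k) psD
  have hroot : aeval x₀ (minpoly P₁.K (P₁.q L j)) = 0 := R.val.toRingHom.injective (by
    show R.val (aeval x₀ _) = R.val 0
    rw [← aeval_algHom_apply, hx₀, minpoly.aeval, map_zero])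
  have h1 : ((rootPoly R (L.b j) (L.e j) t₀).map PowerSeries.constantCoeff).derivative.eval x₀ ≠ 0 := by
    rw [rootPoly_cc _ _ ht₀, hrow, derivative_map, eval_map, ← aeval_def]
    exact derivative_ne_zero R.val hx₀
  obtain ⟨lam₀, hlam₀, hlc₀⟩ := Vale.P199.Deletion.hensel (rootPoly R (L.b j) (L.e j) t₀)
    (by rw [rootPoly_cc _ _ ht₀, hrow, eval_map, ← aeval_def, hroot]) h1
  refine ⟨_, (P₁.mem_scalars_iff L).2 (Subalgebra.smul_mem _ (mul_mem hρq
    (PowerSeries.coeff (p - 1)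
      (corr (psD (K := R)) δR b₀ lam₀ * (corr (psMap dR) δR a₀ lam₀)⁻¹)).2) (p : P₁.K)⁻¹),
    fun hzero => ?_, fun Q T hcs htr E hE hbound hgen => ?_⟩
  · have hU := dvd_motion (L := L) (j := j) (p := p) δ hδ δR t₀ ht₀ b₀ hb₀ rfl (fun i hi => by
      refine X_pow_dvd_sub_of_coeff fun k hk => ?_
      rw [PowerSeries.coeff_mk, if_pos hk, PowerSeries.coeff_C]
      rcases Nat.eq_zero_or_pos k with rfl | hk0
      · rw [if_pos rfl, hC]
      · rw [if_neg hk0.ne', hzero k hk0 hk i hi]) (by rw [hrow]; exact hroot) hlam₀ hlc₀ h1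
    rw [PowerSeries.X_pow_dvd_iff.1 (hU.mul_right _) _ (by omega)]
    simp
  · exact key_at T R.val (fun a => a.2) hx₀ hrow hdeg hd hdR hdx hs hind δ hδ δR hδR hp t₀ a₀ b₀ ha₀0 ha₀
      hb₀ hlam₀ hlc₀ (fun i hi => X_pow_dvd_sub_of_coeff fun k hk => by
        rw [hcs i hi k hk, PowerSeries.coeff_mk, if_pos hk]) htr hE hN hg hbound hgen hρR hρ0

end KeyPoint

end

end Vale.Agent.P199
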