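import Vale.Agent.P199.Deletion.Deletes
import Vale.Agent.P199.Inv.Defs
import Vale.Agent.P199.Stage.NewRow
import Vale.Agent.P199.Stage.TrProj

/-!
P199, deletion: a moving row at an arc gives a probe. A small family through a witness gives the linearised degree
condition (the order one coefficient of the equation in the inverse parameter), so the witnesses detect the linked
motions.
-/

namespace Vale.Agent.P199

open Module Polynomial

noncomputable section

namespace Inv

variable (L : Listing) {j : ℕ}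

/-- The motions are scalars of the row. -/
theorem motions_mem_qAlg {P : Pt} {v : P.D} (h : v ∈ motions L j P) : v ∈ P.qAlg L j := by
  obtain ⟨δ, -, rfl⟩ := h
  exact sum_mem fun i _ => Subalgebra.smul_mem _ (pow_mem (Algebra.self_mem_adjoin_singleton _ _) i) _

/-- The class field lies in the scalars of the row. -/
theorem classF_le_qAlg (P : Pt) : classF L j P ≤ P.qAlg L j :=
  Algebra.adjoin_le fun f hf => by
    obtain ⟨a, ha, b, hb, -, rfl⟩ := hf
    exact mul_mem (Vale.P199.TrProj.inv_mem _ (motions_mem_qAlg L ha)) (motions_mem_qAlg L hb)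

/-- An element of the row algebra in the powers below the degree. -/
theorem exists_coeffs {P : Pt} {f : P.D} (hf : f ∈ P.qAlg L j) :
    ∃ c : Fin (Minimise.degRow L j P) → P.K, f = ∑ i, c i • P.q L j ^ (i : ℕ) := by
  obtain ⟨p, rfl⟩ : f ∈ (aeval (R := P.K) (P.q L j)).range := by
    rw [← Algebra.adjoin_singleton_eq_range_aeval]; exact hf
  have hint : IsIntegral P.K (P.q L j) := Algebra.IsIntegral.isIntegral _
  refine ⟨fun i => (p %ₘ minpoly P.K (P.q L j)).coeff i, ?_⟩
  have h1 : aeval (P.q L j) p = aeval (P.q L j) (p %ₘ minpoly P.K (P.q L j)) :=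
    (aeval_modByMonic_eq_self_of_root (minpoly.aeval _ _)).symm
  show aeval (P.q L j) p = _
  rw [h1, aeval_eq_sum_range' (n := Minimise.degRow L j P) ?_,
    ← Fin.sum_univ_eq_sum_range (fun i => (p %ₘ minpoly P.K (P.q L j)).coeff i • P.q L j ^ i)]
  rcases eq_or_ne (p %ₘ minpoly P.K (P.q L j)) 0 with h0 | h0
  · rw [h0, natDegree_zero]
    exact Minimise.degRow_pos L j P
  · exact (natDegree_lt_natDegree_iff h0).2 (degree_modByMonic_lt _ (minpoly.monic hint))

/-- Powers independent over the row algebra kill coefficients from it. -/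
theorem eq_zero_of_sum {P : Pt} {x : P.D} {μ : ℕ}
    (h : LinearIndependent P.K fun z : Fin (Minimise.degRow L j P) × Fin μ =>
      P.q L j ^ (z.1 : ℕ) * x ^ (z.2 : ℕ))
    {f : Fin μ → P.D} (hf : ∀ k, f k ∈ P.qAlg L j) (h0 : ∑ k, f k * x ^ (k : ℕ) = 0) (k : Fin μ) :
    f k = 0 := by
  classical
  choose c hc using fun k => exists_coeffs L (hf k)
  have h1 : ∑ z : Fin (Minimise.degRow L j P) × Fin μ,
      c z.2 z.1 • (P.q L j ^ (z.1 : ℕ) * x ^ (z.2 : ℕ)) = 0 := by
    rw [← h0, Fintype.sum_prod_type, Finset.sum_comm]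
    refine Finset.sum_congr rfl fun k _ => ?_
    rw [hc k, Finset.sum_mul]
    exact Finset.sum_congr rfl fun i _ => (smul_mul_assoc _ _ _).symm
  rw [hc k]
  exact Finset.sum_eq_zero fun i _ => by
    rw [Fintype.linearIndependent_iff.1 h _ h1 (i, k), zero_smul]

/-- A nonzero scalar of the row keeps full degree. -/
theorem gen_rho_mul {P : Pt} {x ρ : P.D} {μ : ℕ} (hρ : ρ ∈ P.qAlg L j) (hρ0 : ρ ≠ 0)
    (h : LinearIndependent P.K fun z : Fin (Minimise.degRow L j P) × Fin μ =>
      P.q L j ^ (z.1 : ℕ) * x ^ (z.2 : ℕ))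
    (hx : Commute (P.q L j) x) :
    LinearIndependent P.K fun z : Fin (Minimise.degRow L j P) × Fin μ =>
      P.q L j ^ (z.1 : ℕ) * (ρ * x) ^ (z.2 : ℕ) := by
  classical
  have hc : Commute ρ x := (Algebra.commute_of_mem_adjoin_singleton_of_commute hρ hx.symm).symm
  refine Fintype.linearIndependent_iff.2 fun g hg z => ?_
  have h1 : ∑ k : Fin μ,
      ((∑ i, g (i, k) • P.q L j ^ (i : ℕ)) * ρ ^ (k : ℕ)) * x ^ (k : ℕ) = 0 := by
    rw [← hg, Fintype.sum_prod_type, Finset.sum_comm]
    refine Finset.sum_congr rfl fun k _ => ?_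
    simp only [hc.mul_pow]
    rw [Finset.sum_mul, Finset.sum_mul]
    exact Finset.sum_congr rfl fun i _ => by rw [smul_mul_assoc, smul_mul_assoc, mul_assoc]
  have h2 := eq_zero_of_sum L h (fun k => mul_mem (sum_mem fun i _ => Subalgebra.smul_mem _
    (pow_mem (Algebra.self_mem_adjoin_singleton _ _) _) _) (pow_mem hρ _)) h1 z.2
  have h3 := (mul_eq_zero.1 h2).resolve_right (pow_ne_zero _ hρ0)
  exact Fintype.linearIndependent_iff.1 (linearIndependent_pow (K := P.K) (P.q L j)) _ h3 z.1

variable {L} {t : Stg L j} {μ : ℕ} {ρ : t.P.D} (w : Witness L t μ ρ)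

/-- The powers of a witness below its degree are independent over the class field. -/
theorem Witness.indep_basis {ι : Type} [Fintype ι] (b : ι → t.P.D) (hb : LinearIndependent t.P.K b)
    (hbF : ∀ i, b i ∈ classF L j t.P) :
    LinearIndependent t.P.K fun z : ι × Fin μ => b z.1 * w.x ^ (z.2 : ℕ) := by
  classical
  refine Fintype.linearIndependent_iff.2 fun g hg z => ?_
  have h1 : ∑ k : Fin μ, (∑ i, g (i, k) • b i) * w.x ^ (k : ℕ) = 0 := by
    rw [← hg, Fintype.sum_prod_type, Finset.sum_comm]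
    refine Finset.sum_congr rfl fun k _ => ?_
    rw [Finset.sum_mul]
    exact Finset.sum_congr rfl fun i _ => smul_mul_assoc _ _ _
  have h2 := eq_zero_of_sum L w.indep (fun k => sum_mem fun i _ => Subalgebra.smul_mem _
    (classF_le_qAlg L t.P (hbF i)) _) h1 z.2
  exact Fintype.linearIndependent_iff.1 hb _ h2 z.1

/-- Witnesses commute with the element of their row. -/
theorem Witness.commute {W : Submodule t.P.K t.P.D} {v : Fin 5 → ℕ} (hm : Moving L t W v)
    (hρ : ρ ∈ motions L j t.P) (hρ0 : ρ ≠ 0) : Commute (t.P.q L j) w.x := by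
  have h1 : t.P.q L j * (ρ * w.x) = ρ * w.x * t.P.q L j := hm.W_comm _ (hm.image_le w.mem)
  have h2 : t.P.q L j * ρ = ρ * t.P.q L j :=
    t.P.qAlg_comm L (Algebra.self_mem_adjoin_singleton _ _) (motions_mem_qAlg L hρ)
  refine mul_left_cancel₀ hρ0 ?_
  rw [← mul_assoc, ← h2, mul_assoc, h1, mul_assoc]

/-- The coefficient of order one of a power along a line. -/
theorem coeff_line {D : Type} [Ring D] (x y : D) (k : ℕ) :
    ((C x + X * C y) ^ k).coeff 0 = x ^ k ∧ ((C x + X * C y) ^ k).coeff 1 = dpow x y k := by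
  induction k with
  | zero => simp [dpow, Polynomial.coeff_one]
  | succ k ih =>
    refine ⟨by rw [pow_succ, mul_coeff_zero, ih.1, pow_succ]; simp, ?_⟩
    have h2 : ((C x + X * C y) ^ k * (X * C y)).coeff 1 = x ^ k * y := by
      generalize hA : (C x + X * C y) ^ k = A at ih ⊢
      rw [← mul_assoc, ← X_mul (p := A), mul_assoc, coeff_X_mul, coeff_mul_C, ih.1]
    rw [pow_succ, mul_add, coeff_add, coeff_mul_C, h2, ih.2, dpow, dpow, Finset.sum_range_succ,
      Nat.add_sub_cancel, Nat.sub_self, pow_zero, mul_one, Finset.sum_mul]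
    congr 1
    refine Finset.sum_congr rfl fun i hi => ?_
    rw [Finset.mem_range] at hi
    rw [mul_assoc, mul_assoc, mul_assoc, ← pow_succ, show k - 1 - i + 1 = k - i by omega]

/-- **A small family through a witness satisfies its linearised degree condition.** -/
theorem Witness.lin_of_small {y : t.P.D}
    (h : {s : t.P.K | ¬Deletion.Small (classF L j t.P : Set t.P.D)
      (finrank t.P.K (classF L j t.P) * μ) (y + s • w.x)}.Finite) :
    w.Lin L y := by
  classical
  by_contra hno
  set F := classF L j t.P with hF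
  let b := finBasis t.P.K F
  let Z : Polynomial t.P.D := C w.x + X * C y
  let Q : Polynomial t.P.D := Z ^ μ + ∑ k : Fin μ, C (w.a k) * Z ^ (k : ℕ)
  have hQ0 : Q.coeff 0 = 0 := by
    simp only [Q, coeff_add, finsetSum_coeff, coeff_C_mul, Z, (coeff_line w.x y _).1]
    exact w.eqn
  have hQ1 : Q.coeff 1 = dpow w.x y μ + ∑ k : Fin μ, w.a k * dpow w.x y k := by
    simp only [Q, coeff_add, finsetSum_coeff, coeff_C_mul, Z, (coeff_line w.x y _).2]
  let fam : (Fin (finrank t.P.K F) × Fin μ) ⊕ Unit → Polynomial t.P.D :=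
    Sum.elim (fun z => C ((b z.1 : t.P.D)) * Z ^ (z.2 : ℕ)) fun _ => Q.divX
  have hli : LinearIndependent t.P.K fun k => (fam k).coeff 0 := by
    refine linearIndependent_sum.2 ⟨?_, ?_, ?_⟩
    · have he : ((fun k => (fam k).coeff 0) ∘ Sum.inl) =
          fun z : Fin (finrank t.P.K F) × Fin μ => (b z.1 : t.P.D) * w.x ^ (z.2 : ℕ) := by
        funext z
        show (C ((b z.1 : t.P.D)) * Z ^ (z.2 : ℕ)).coeff 0 = _
        rw [coeff_C_mul, (coeff_line w.x y _).1]
      rw [he]
      refine w.indep_basis _ ?_ fun i => (b i).2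
      exact b.linearIndependent.map' F.val.toLinearMap
        (LinearMap.ker_eq_bot.2 Subtype.val_injective)
    · refine LinearIndependent.of_subsingleton () ?_
      show Q.divX.coeff 0 ≠ 0
      rw [coeff_divX, hQ1]
      exact fun h0 => hno (by rw [Witness.Lin, h0]; exact zero_mem _)
    · rw [Submodule.disjoint_def]
      intro v hv1 hv2
      have hsub : Submodule.span t.P.K (Set.range ((fun k => (fam k).coeff 0) ∘ Sum.inl)) ≤
          Subalgebra.toSubmodule (Algebra.adjoin t.P.K ((F : Set t.P.D) ∪ {w.x})) := by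
        refine Submodule.span_le.2 ?_
        rintro _ ⟨z, rfl⟩
        show (C ((b z.1 : t.P.D)) * Z ^ (z.2 : ℕ)).coeff 0 ∈
          Algebra.adjoin t.P.K ((F : Set t.P.D) ∪ {w.x})
        rw [coeff_C_mul, (coeff_line w.x y _).1]
        exact mul_mem (Algebra.subset_adjoin (Set.mem_union_left _ (b z.1).2))
          (pow_mem (Algebra.subset_adjoin (Set.mem_union_right _ (Set.mem_singleton w.x))) _)
      obtain ⟨c, hc⟩ := Submodule.mem_span_singleton.1
        (show v ∈ Submodule.span t.P.K {Q.coeff 1} by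
          rwa [show Set.range ((fun k => (fam k).coeff 0) ∘ Sum.inr) = {Q.coeff 1} by
            rw [Set.range_unique]; simp [fam, coeff_divX]] at hv2)
      by_contra hv0
      have hc0 : c ≠ 0 := fun h0 => hv0 (by rw [← hc, h0, zero_smul])
      refine hno ?_
      rw [Witness.Lin, ← hQ1]
      have hmem := Subalgebra.smul_mem _ (hsub hv1) c⁻¹
      rw [← hc, inv_smul_smul₀ hc0] at hmem
      exact hmem
  have : CharZero t.P.K := charZero_of_injective_algebraMap (algebraMap ℂ t.P.K).injective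
  obtain ⟨τ, hτ⟩ := (((Vale.P199.Leaf.finite_dependent fam hli).union
    (h.image fun s => s⁻¹)).insert 0).exists_notMem
  simp only [Set.mem_insert_iff, Set.mem_union, Set.mem_ofPred_eq, not_or, not_not] at hτ
  obtain ⟨hτ0, hind, hτs⟩ := hτ
  have hsmall : Deletion.Small (F : Set t.P.D) (finrank t.P.K F * μ) (y + τ⁻¹ • w.x) := by
    by_contra hs
    exact hτs ⟨τ⁻¹, hs, inv_inv τ⟩
  set S := Algebra.adjoin t.P.K (insert (y + τ⁻¹ • w.x) (F : Set t.P.D)) with hS
  have hFS : ∀ a ∈ F, a ∈ S := fun a ha => Algebra.subset_adjoin (Set.mem_insert_of_mem _ ha)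
  have hZ : Vale.P199.Leaf.evS τ Z ∈ S := by
    have e : Vale.P199.Leaf.evS τ Z = τ • (y + τ⁻¹ • w.x) := by
      simp only [Z, map_add, map_mul, Vale.P199.Leaf.evS_C, Vale.P199.Leaf.evS_X, ← Algebra.smul_def,
        smul_add, smul_smul, mul_inv_cancel₀ hτ0, one_smul]
      exact add_comm _ _
    rw [e]
    exact Subalgebra.smul_mem _ (Algebra.subset_adjoin (Set.mem_insert _ _)) _
  have hQS : Vale.P199.Leaf.evS τ Q ∈ S := by
    simp only [Q, map_add, map_sum, map_mul, map_pow, Vale.P199.Leaf.evS_C]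
    exact add_mem (pow_mem hZ _) (sum_mem fun k _ => mul_mem (hFS _ (w.a_mem k)) (pow_mem hZ _))
  have hall : ∀ k, Vale.P199.Leaf.evS τ (fam k) ∈ S := by
    rintro (z | -)
    · simp only [fam, Sum.elim_inl, map_mul, map_pow, Vale.P199.Leaf.evS_C]
      exact mul_mem (hFS _ (b z.1).2) (pow_mem hZ _)
    · have hd : X * Q.divX = Q := by
        have h1 := X_mul_divX_add Q
        rwa [hQ0, map_zero, add_zero] at h1
      rw [← hd, map_mul, Vale.P199.Leaf.evS_X, ← Algebra.smul_def] at hQS
      have h2 := Subalgebra.smul_mem _ hQS τ⁻¹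
      rw [inv_smul_smul₀ hτ0] at h2
      exact h2
  have hind' : LinearIndependent t.P.K fun k => (⟨_, hall k⟩ : S) :=
    LinearIndependent.of_comp S.val.toLinearMap hind
  have hcard := hind'.fintype_card_le_finrank
  rw [Fintype.card_sum, Fintype.card_prod, Fintype.card_fin, Fintype.card_fin,
    Fintype.card_unit] at hcard
  exact absurd (hcard.trans hsmall) (by omega)

end Inv

namespace Deletion

variable {L : Listing} {n : ℕ} {P : Pt}

/-- **The probe of a moving row along arcs**: the witnesses themselves. -/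
theorem exists_probe_arc (r : Rows L n P) (j : Fin n) {v : Fin 5 → ℕ}
    (hdeg : Minimise.degRow L j P = L.e j)
    (hm : Inv.Moving L ((⟨P, r⟩ : Stg L n).restrict j j.2.le) (r.W j) v) :
    ∃ Pr : Probe (P.q L j) (L.e j) (r.W j), Pr.F = (Inv.classF L j P : Set P.D) ∧
      ∃ μ, finrank P.K P.D = L.e j ^ 2 * μ ^ 2 * v 3 ∧ Pr.N = μ ∧
        Pr.d = finrank P.K (Inv.classF L j P) * μ ∧ Pr.ρ ∈ Inv.motions L j P ∧
        ∀ x ∈ Pr.G, ∃ t₀ ∈ (r.trunc j.2.le).T, P.dEq L (L.b n) j (t₀, 0) = Pr.ρ * x := by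
  obtain ⟨μ, hμ, ρ, hρ, hρ0, wit, -, hdet⟩ := hm.rigid
  have hρq : ρ ∈ P.qAlg L j := Inv.motions_mem_qAlg L hρ
  refine ⟨{ ρ := ρ, F := (Inv.classF L j P : Set P.D), d := finrank P.K (Inv.classF L j P) * μ
            N := μ, G := {x : P.D | ∃ w ∈ wit, w.x = x}, ρ_ne := hρ0
            ρ_comm := P.qAlg_comm L (Algebra.self_mem_adjoin_singleton _ _) hρq
            gen := ?_
            detect := fun y hy h => hdet y hy fun w hw => w.lin_of_small (h w.x ⟨w, hw, rfl⟩) },
    rfl, μ, hμ, rfl, rfl, hρ, ?_⟩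
  · rintro _ ⟨w, hw, rfl⟩
    -- `ρ x` has the same degree as `x`
    unfold Gen
    rw [← hdeg]
    exact Inv.gen_rho_mul L (P := P) (x := w.x) hρq hρ0 w.indep (w.commute hm hρ hρ0)
  · rintro _ ⟨w, hw, rfl⟩
    obtain ⟨t₀, ht₀, he⟩ := Submodule.mem_map.1 w.mem
    exact ⟨t₀, ht₀, (P.dEq_ambient L (L.b n) (L.b j) j t₀).trans he⟩

end Deletion

end

end Vale.Agent.P199
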