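import Vale.Agent.P199.Deletion.KeyRef
import Vale.Agent.P199.Deletion.KeyPhi
import Vale.Agent.P199.Deletion.ProbeMoving

/-!
P199, deletion: preparations for KEY at a series point. Corrections killing the symbols from fixed residue data, the
derivations they give on series over a residue field, and the row's equation as a polynomial over series.
-/

namespace Vale.P199.Ders

open Vale.Agent.P199

noncomputable section

variable {P₁ Q : Pt}

/-- Corrections killing the basis symbols kill all the symbols of the point. -/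
theorem kills_all (T : Laur P₁ Q) {N : ℕ} (htr : Minimise.trdegSym N Q = Minimise.trdegSym N P₁)
    {s : Finset (Fin N)} (hs : s.card = Minimise.trdegSym N P₁)
    (hi : AlgebraicIndependent ℚ fun k : s => P₁.c (k : Fin N)) (δ : s → Derivation ℤ P₁.K P₁.K)
    (E : Derivation ℤ (PowerSeries P₁.K) (PowerSeries P₁.K))
    (E' : Derivation ℤ (LaurentSeries P₁.K) (LaurentSeries P₁.K))
    (hE : ∀ f, E' (HahnSeries.ofPowerSeries ℤ P₁.K f) = HahnSeries.ofPowerSeries ℤ P₁.K (E f))
    (a : s → PowerSeries P₁.K)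
    (ha : ∀ k : s, E (Fld.cser T (k : Fin N)) + ∑ i, a i * psMap (δ i) (Fld.cser T (k : Fin N)) = 0) :
    ∀ i < N, transDer T (E' + ∑ k, (HahnSeries.ofPowerSeries ℤ P₁.K (a k)) • lsMap (δ k)) (Q.c i) = 0 := by
  intro i hiN
  set d := transDer T (E' + ∑ k, (HahnSeries.ofPowerSeries ℤ P₁.K (a k)) • lsMap (δ k))
  have hiQ : AlgebraicIndependent ℚ fun k : s => Q.c (k : Fin N) :=
    Fld.step_independent P₁.extRefl T (fun k : s => ((k : Fin N) : ℕ)) hi
  have halg := IntermediateField.isAlgebraic_adjoin_iff.1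
    (Minimise.isAlgebraic_of_card_eq hiQ (hs.trans htr.symm) ⟨i, hiN⟩)
  refine eq_zero_of_algebraic d (fun x hx => ?_) halg
  obtain ⟨k, hk, rfl⟩ := hx
  have hc : T.eK.symm (Q.c k) = HahnSeries.ofPowerSeries ℤ P₁.K (Fld.cser T k) := by
    rw [T.eK.symm_apply_eq]
    exact (Fld.coe_cser T k).symm
  rw [transDer_apply, hc, map_eq_zero_iff _ T.eK.injective]
  simp only [Derivation.add_apply, der_sum_apply, Derivation.coe_smul,
    Pi.smul_apply, smul_eq_mul, hE, lsMap_coe]
  rw [← Finset.sum_congr rfl fun m _ => map_mul (HahnSeries.ofPowerSeries ℤ P₁.K) (a m) _, ← map_sum,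
    ← map_add]
  exact (congrArg _ (ha ⟨k, hk⟩)).trans (map_zero _)

/-- The corrections of a derivation killing the residues vanish at the residue. -/
theorem exists_kill_res {N : ℕ} {s : Finset (Fin N)} (δ : s → Derivation ℤ P₁.K P₁.K)
    (hδ : ∀ i k : s, δ i (P₁.c (k : Fin N)) = if i = k then 1 else 0) (d : Derivation ℤ P₁.K P₁.K)
    (hd : ∀ i < N, d (P₁.c i) = 0) (t : s → PowerSeries P₁.K)
    (ht : ∀ k : s, PowerSeries.constantCoeff (t k) = P₁.c (k : Fin N)) :
    ∃ a : s → PowerSeries P₁.K, (∀ k, PowerSeries.constantCoeff (a k) = 0) ∧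
      ∀ k, psMap d (t k) + ∑ i, a i * psMap (δ i) (t k) = 0 := by
  obtain ⟨a, ha, ha0, -⟩ := exists_kill t δ (fun i k => by rw [ht]; exact hδ i k) (psMap d)
  exact ⟨a, fun k => by rw [ha0, cc_psMap, ht, hd _ (k : Fin N).2, neg_zero], ha⟩

/-- The derivations of KEY on series over `M`, commuting with those over a field inside `M`. -/
theorem exists_pair_over (T : Laur P₁ Q) {Lf M : Type} [Field Lf] [Field M] [Algebra P₁.K Lf]
    [Algebra P₁.K M] (i : Lf →ₐ[P₁.K] M) {s : Type} [Fintype s] (δ : s → Derivation ℤ P₁.K P₁.K)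
    (δL : s → Derivation ℤ Lf Lf) (δM : s → Derivation ℤ M M)
    (hδL : ∀ k a, δL k (algebraMap P₁.K Lf a) = algebraMap P₁.K Lf (δ k a))
    (hδM : ∀ k a, δM k (i a) = i (δL k a))
    (E : Derivation ℤ (LaurentSeries P₁.K) (LaurentSeries P₁.K))
    (E₁ : Derivation ℤ (PowerSeries Lf) (PowerSeries Lf))
    (E' : Derivation ℤ (PowerSeries M) (PowerSeries M))
    (E'' : Derivation ℤ (LaurentSeries M) (LaurentSeries M))
    (h1 : ∀ f, E'' (HahnSeries.ofPowerSeries ℤ M f) = HahnSeries.ofPowerSeries ℤ M (E' f))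
    (h2 : ∀ a, E'' (incl T M a) = incl T M (transDer T E a))
    (h3 : ∀ f, E' (PowerSeries.map i.toRingHom f) = PowerSeries.map i.toRingHom (E₁ f))
    (a : s → PowerSeries P₁.K) :
    ∃ (dP : Derivation ℤ (PowerSeries M) (PowerSeries M))
      (dL : Derivation ℤ (LaurentSeries M) (LaurentSeries M)),
      (∀ f, dP f = corr E' δM a f) ∧
      (∀ f, dP (PowerSeries.map i.toRingHom f) = PowerSeries.map i.toRingHom (corr E₁ δL a f)) ∧
      (∀ f, dL (HahnSeries.ofPowerSeries ℤ M f) = HahnSeries.ofPowerSeries ℤ M (dP f)) ∧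
      ∀ x, dL (incl T M x) =
        incl T M (transDer T (E + ∑ k, (HahnSeries.ofPowerSeries ℤ P₁.K (a k)) • lsMap (δ k)) x) := by
  obtain ⟨dP, dL, hP, hL, hK⟩ := exists_der_pair T M δ δM
    (fun k a => by rw [← i.commutes, hδM, hδL, i.commutes]) E E' E'' h1 h2 a
  refine ⟨dP, dL, hP, fun f => ?_, hL, hK⟩
  have hm : ∀ g : PowerSeries P₁.K, PowerSeries.map (algebraMap P₁.K M) g =
      PowerSeries.map i.toRingHom (PowerSeries.map (algebraMap P₁.K Lf) g) := fun g =>
    PowerSeries.ext fun m => by simp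
  let _ : Algebra Lf M := i.toRingHom.toAlgebra
  have hs : ∀ k g, psMap (δM k) (PowerSeries.map i.toRingHom g) = PowerSeries.map i.toRingHom (psMap (δL k) g) :=
    fun k g => psMap_map (δL k) (δM k) (hδM k) g
  rw [hP, h3, corr, map_add, map_sum]
  exact congrArg _ (Finset.sum_congr rfl fun k _ => by rw [hs, hm, map_mul])

end

end Vale.P199.Ders

namespace Vale.Agent.P199

open Polynomial

noncomputable section

namespace KeyPoint

open KeyField

variable {K : Type} [Field K]

/-- The equation of a row with given symbols. -/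
def rowPoly (e : ℕ) (c : ℕ → K) : K[X] := X ^ e + ∑ i ∈ Finset.range e, C (c i) * X ^ i

theorem rowPoly_natDegree_le (e : ℕ) (c : ℕ → K) : (rowPoly e c).natDegree ≤ e := by
  refine natDegree_add_le_of_degree_le (natDegree_X_pow_le e) ?_
  exact natDegree_sum_le_of_forall_le _ _ fun i hi =>
    (natDegree_C_mul_X_pow_le _ _).trans (Finset.mem_range.1 hi).le

theorem rowPoly_monic (e : ℕ) (c : ℕ → K) : (rowPoly e c).Monic := by
  refine monic_X_pow_add ?_
  rw [← Fin.sum_univ_eq_sum_range (fun i => C (c i) * X ^ i) e]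
  exact degree_sum_fin_lt _

/-- The equation of a row over series. -/
def rowSeries (e : ℕ) (z : ℕ → PowerSeries K) : (PowerSeries K)[X] :=
  X ^ e + ∑ i ∈ Finset.range e, C (z i) * X ^ i

theorem rowSeries_natDegree_le (e : ℕ) (z : ℕ → PowerSeries K) : (rowSeries e z).natDegree ≤ e := by
  refine natDegree_add_le_of_degree_le (natDegree_X_pow_le e) ?_
  exact natDegree_sum_le_of_forall_le _ _ fun i hi =>
    (natDegree_C_mul_X_pow_le _ _).trans (Finset.mem_range.1 hi).le

theorem map_rowSeries (e : ℕ) (z : ℕ → PowerSeries K) :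
    (rowSeries e z).map PowerSeries.constantCoeff = rowPoly e fun i => PowerSeries.constantCoeff (z i) := by
  simp [rowSeries, rowPoly, Polynomial.map_sum]

theorem eval₂_rowSeries {A : Type} [Ring A] (f : PowerSeries K →+* A) (e : ℕ) (z : ℕ → PowerSeries K)
    (x : A) : (rowSeries e z).eval₂ f x = x ^ e + ∑ i ∈ Finset.range e, f (z i) * x ^ i := by
  simp [rowSeries, eval₂_finsetSum, C_mul_X_pow_eq_monomial, eval₂_monomial, eval₂_X_pow]

theorem coeff_rowSeries (e : ℕ) (z : ℕ → PowerSeries K) (i : ℕ) :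
    (rowSeries e z).coeff i = (if i = e then 1 else 0) + if i < e then z i else 0 := by
  simp [rowSeries, coeff_X_pow, Finset.sum_ite_eq]

variable {L : Listing} {j : ℕ} {P : Pt}

/-- At a solved row of full degree the equation is the minimal polynomial. -/
theorem rowPoly_eq_minpoly (hsol : Poly.ev P.val (L.eqn j) = 0)
    (hdeg : Minimise.degRow L j P = L.e j) :
    rowPoly (L.e j) (fun i => P.c (L.b j + i)) = minpoly P.K (P.q L j) := by
  refine eq_of_monic_of_dvd_of_natDegree_le (minpoly.monic (Algebra.IsIntegral.isIntegral _))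
    (rowPoly_monic _ _) (minpoly.dvd _ _ ?_) ((rowPoly_natDegree_le _ _).trans hdeg.ge)
  rw [← hsol]
  simp [rowPoly, Listing.eqn, Pt.q, Poly.ev_X, Pt.val]

/-- Motions, written as derivatives of the element. -/
theorem motion_eq {M : Type} [Field M] [Algebra P.K M] (φ : M →ₐ[P.K] P.D) {x : M}
    (hx : φ x = P.q L j) (δ : Derivation ℤ P.K P.K) (δ' : Derivation ℤ M M)
    (h : ∀ a, δ' (algebraMap P.K M a) = algebraMap P.K M (δ a)) :
    φ (-(aeval x (derivative (minpoly P.K (P.q L j)))) * δ' x) =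
      ∑ i ∈ Finset.range (Minimise.degRow L j P), δ ((minpoly P.K (P.q L j)).coeff i) • P.q L j ^ i := by
  set g := minpoly P.K (P.q L j)
  have hg : g.Monic := minpoly.monic (Algebra.IsIntegral.isIntegral _)
  have h0 : aeval x g = 0 := φ.toRingHom.injective (by
    show φ (aeval x g) = φ 0
    rw [← aeval_algHom_apply, hx, minpoly.aeval, map_zero])
  have h1 := Vale.P199.Ders.eval_deriv δ δ' h g x (Nat.lt_succ_self g.natDegree)
  rw [h0, map_zero, Finset.sum_range_succ, hg.coeff_natDegree, δ.map_one_eq_zero, map_zero, zero_mul,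
    add_zero] at h1
  rw [neg_mul, ← eq_neg_of_add_eq_zero_left h1.symm, map_sum]
  refine Finset.sum_congr rfl fun i _ => ?_
  rw [map_mul, AlgHom.commutes, map_pow, hx, Algebra.smul_def]

theorem derivative_ne_zero {M : Type} [Field M] [Algebra P.K M] (φ : M →ₐ[P.K] P.D) {x : M}
    (hx : φ x = P.q L j) : aeval x (derivative (minpoly P.K (P.q L j))) ≠ 0 := by
  have := P.charZero
  refine (minpoly.irreducible (Algebra.IsIntegral.isIntegral _)).separable.aeval_derivative_ne_zero
    (φ.toRingHom.injective ?_)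
  show φ (aeval x _) = φ 0
  rw [← aeval_algHom_apply, hx, minpoly.aeval, map_zero]

/-- The row algebra has at most the degree of the row. -/
theorem finrank_qAlg_le (L : Listing) (j : ℕ) (P : Pt) :
    Module.finrank P.K (P.qAlg L j) ≤ Minimise.degRow L j P := by
  have hle : (P.qAlg L j).toSubmodule ≤
      Submodule.span P.K (Set.range fun i : Fin (Minimise.degRow L j P) => P.q L j ^ (i : ℕ)) :=
    fun f hf => by
      obtain ⟨c, rfl⟩ := Inv.exists_coeffs L (P := P) hf
      exact sum_mem fun i _ => Submodule.smul_mem _ _ (Submodule.subset_span ⟨i, rfl⟩)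
  exact (Submodule.finrank_mono (s := (P.qAlg L j).toSubmodule) hle).trans
    ((finrank_range_le_card _).trans_eq (Fintype.card_fin _))

/-- Adjoining a scalar multiple. -/
theorem adjoin_insert_smul {A : Type} [Ring A] [Algebra K A] (F : Set A) {c : K} (hc : c ≠ 0) (x : A) :
    Algebra.adjoin K (insert (c • x) F) = Algebra.adjoin K (insert x F) := by
  refine le_antisymm (Algebra.adjoin_le (Set.insert_subset ?_ ?_))
    (Algebra.adjoin_le (Set.insert_subset ?_ ?_))
  · exact Subalgebra.smul_mem _ (Algebra.subset_adjoin (Set.mem_insert _ _)) _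
  · exact fun y hy => Algebra.subset_adjoin (Set.mem_insert_of_mem _ hy)
  · have h := Subalgebra.smul_mem _ (Algebra.subset_adjoin (R := K) (Set.mem_insert (c • x) F)) c⁻¹
    rwa [inv_smul_smul₀ hc] at h
  · exact fun y hy => Algebra.subset_adjoin (Set.mem_insert_of_mem _ hy)

end KeyPoint

end

end Vale.Agent.P199
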