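import Vale.Agent.P199.Deletion.Moving
import Vale.Agent.P199.Deletion.Roots

/-!
P199, deletion: the scalar of KEY read from the symbols. Correcting derivations with fixed residue data, the root of
the row and the quotient of its two motions are determined to order `p` by the symbols to order `p`.
-/

namespace Vale.P199.Ders

open Polynomial

noncomputable section

variable {K Lf : Type} [Field K] [Field Lf]

theorem dvd_psMap (d : Derivation ℤ K K) {k : ℕ} {f : PowerSeries K} (h : PowerSeries.X ^ k ∣ f) :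
    PowerSeries.X ^ k ∣ psMap d f :=
  PowerSeries.X_pow_dvd_iff.2 fun m hm => by
    rw [coeff_psMap, PowerSeries.X_pow_dvd_iff.1 h m hm, map_zero]

theorem dvd_psD {k : ℕ} {f : PowerSeries K} (h : PowerSeries.X ^ (k + 1) ∣ f) :
    PowerSeries.X ^ k ∣ psD f :=
  PowerSeries.X_pow_dvd_iff.2 fun m hm => by
    show PowerSeries.coeff m (PowerSeries.derivative K f) = 0
    rw [PowerSeries.coeff_derivative, PowerSeries.X_pow_dvd_iff.1 h (m + 1) (by omega), zero_mul]

theorem dvd_map [Algebra K Lf] {k : ℕ} {f : PowerSeries K} (h : PowerSeries.X ^ k ∣ f) :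
    PowerSeries.X ^ k ∣ PowerSeries.map (algebraMap K Lf) f :=
  PowerSeries.X_pow_dvd_iff.2 fun m hm => by
    rw [PowerSeries.coeff_map, PowerSeries.X_pow_dvd_iff.1 h m hm, map_zero]

/-- Corrections are determined to order `p` by the series to order `p`. -/
theorem kill_congr {ι : Type} [Fintype ι] [DecidableEq ι] {p : ℕ} (δ : ι → Derivation ℤ K K)
    (t t₀ : ι → PowerSeries K)
    (hδ : ∀ i k, δ i (PowerSeries.constantCoeff (t k)) = if i = k then 1 else 0)
    (ht : ∀ k, PowerSeries.X ^ p ∣ t k - t₀ k) (e e₀ : ι → PowerSeries K)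
    (he : ∀ k, PowerSeries.X ^ p ∣ e k - e₀ k) (a a₀ : ι → PowerSeries K)
    (ha : ∀ k, e k + ∑ i, a i * psMap (δ i) (t k) = 0)
    (ha₀ : ∀ k, e₀ k + ∑ i, a₀ i * psMap (δ i) (t₀ k) = 0) :
    ∀ i, PowerSeries.X ^ p ∣ a i - a₀ i := by
  have hsum : ∀ k, PowerSeries.X ^ p ∣ ∑ i, (a i - a₀ i) * psMap (δ i) (t k) := by
    intro k
    have hz : ∑ i, (a i - a₀ i) * psMap (δ i) (t k) =
        -(e k - e₀ k) - ∑ i, a₀ i * psMap (δ i) (t k - t₀ k) := by
      simp only [sub_mul, Finset.sum_sub_distrib, map_sub, mul_sub]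
      linear_combination ha k - ha₀ k
    rw [hz]
    exact dvd_sub (he k).neg_right (Finset.dvd_sum fun i _ => (dvd_psMap _ (ht k)).mul_left _)
  suffices main : ∀ m ≤ p, ∀ i, PowerSeries.X ^ m ∣ a i - a₀ i from main p le_rfl
  intro m hm
  induction m with
  | zero => intro i; simp
  | succ m ih =>
    choose c hc using ih (Nat.le_of_succ_le hm)
    intro k
    have h1 : PowerSeries.X ^ (m + 1) ∣ PowerSeries.X ^ m * ∑ i, c i * psMap (δ i) (t k) := by
      rw [Finset.mul_sum]
      refine (pow_dvd_pow _ hm).trans ?_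
      simpa only [← mul_assoc, ← hc] using hsum k
    rw [pow_succ] at h1
    have h2 := PowerSeries.X_dvd_iff.1
      ((mul_dvd_mul_iff_left (pow_ne_zero m PowerSeries.X_ne_zero)).1 h1)
    simp only [map_sum, map_mul, cc_psMap, hδ, mul_ite, mul_one, mul_zero, Finset.sum_ite_eq',
      Finset.mem_univ, if_true] at h2
    rw [hc k, pow_succ]
    exact mul_dvd_mul_left _ (PowerSeries.X_dvd_iff.2 h2)

/-- A corrected derivation of series. -/
def corr [Algebra K Lf] {ι : Type} [Fintype ι] (E : Derivation ℤ (PowerSeries Lf) (PowerSeries Lf))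
    (δ' : ι → Derivation ℤ Lf Lf) (a : ι → PowerSeries K) (f : PowerSeries Lf) : PowerSeries Lf :=
  E f + ∑ i, PowerSeries.map (algebraMap K Lf) (a i) * psMap (δ' i) f

theorem cc_corr [Algebra K Lf] {ι : Type} [Fintype ι] (E : Derivation ℤ (PowerSeries Lf) (PowerSeries Lf))
    (δ' : ι → Derivation ℤ Lf Lf) (a : ι → PowerSeries K) (ha : ∀ i, PowerSeries.constantCoeff (a i) = 0)
    (f : PowerSeries Lf) :
    PowerSeries.constantCoeff (corr E δ' a f) = PowerSeries.constantCoeff (E f) := by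
  rw [corr, map_add, map_sum, Finset.sum_eq_zero fun i _ => ?_, add_zero]
  rw [map_mul, ← PowerSeries.coeff_zero_eq_constantCoeff_apply (φ := PowerSeries.map _ _),
    PowerSeries.coeff_map, PowerSeries.coeff_zero_eq_constantCoeff_apply, ha, map_zero, zero_mul]

theorem corr_congr [Algebra K Lf] {ι : Type} [Fintype ι] (E : Derivation ℤ (PowerSeries Lf) (PowerSeries Lf))
    (δ' : ι → Derivation ℤ Lf Lf) {a a₀ : ι → PowerSeries K} {f f₀ : PowerSeries Lf} {p : ℕ}
    (ha : ∀ i, PowerSeries.X ^ p ∣ a i - a₀ i) (hE : PowerSeries.X ^ p ∣ E (f - f₀))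
    (hf : PowerSeries.X ^ p ∣ f - f₀) :
    PowerSeries.X ^ p ∣ corr E δ' a f - corr E δ' a₀ f₀ := by
  have hz : corr E δ' a f - corr E δ' a₀ f₀ = E (f - f₀) + ∑ i,
      (PowerSeries.map (algebraMap K Lf) (a i - a₀ i) * psMap (δ' i) f +
        PowerSeries.map (algebraMap K Lf) (a₀ i) * psMap (δ' i) (f - f₀)) := by
    simp only [corr, map_sub, sub_mul, mul_sub, Finset.sum_add_distrib, Finset.sum_sub_distrib]
    ring
  rw [hz]
  exact dvd_add hE (Finset.dvd_sum fun i _ =>
    dvd_add ((dvd_map (ha i)).mul_right _) ((dvd_psMap _ hf).mul_left _))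

/-- Simple roots with the same residue are as close as the polynomials. -/
theorem root_congr {k : ℕ} (F F₀ : (PowerSeries Lf)[X]) {e : ℕ} (hd : F.natDegree < e)
    (hd₀ : F₀.natDegree < e) (hF : ∀ i, PowerSeries.X ^ k ∣ F.coeff i - F₀.coeff i) {u u₀ : PowerSeries Lf}
    (hu : F.eval u = 0) (hu₀ : F₀.eval u₀ = 0)
    (hc : PowerSeries.constantCoeff u = PowerSeries.constantCoeff u₀)
    (h1 : (F.map PowerSeries.constantCoeff).derivative.eval (PowerSeries.constantCoeff u) ≠ 0) :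
    PowerSeries.X ^ k ∣ u - u₀ := by
  have hv : PowerSeries.X ^ k ∣ F.eval u₀ := by
    have hz : F.eval u₀ = ∑ i ∈ Finset.range e, (F.coeff i - F₀.coeff i) * u₀ ^ i := by
      simp only [sub_mul, Finset.sum_sub_distrib, ← eval_eq_sum_range' hd, ← eval_eq_sum_range' hd₀, hu₀,
        sub_zero]
    rw [hz]
    exact Finset.dvd_sum fun i _ => (hF i).mul_right _
  obtain ⟨c, hc'⟩ := binomExpansion F u (u₀ - u)
  rw [add_sub_cancel, hu, zero_add] at hc'
  obtain ⟨w, hw⟩ := Vale.P199.Deletion.isUnit_of_cc (F := Lf) (a := F.derivative.eval u + c * (u₀ - u)) (by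
    rw [map_add, map_mul, map_sub, hc, sub_self, mul_zero, add_zero, ← eval₂_at_apply, ← eval_map,
      ← derivative_map]
    exact h1)
  have h3 : F.eval u₀ = (u₀ - u) * ↑w := by rw [hc', hw]; ring
  rw [h3] at hv
  rw [← dvd_neg, neg_sub]
  exact (Units.dvd_mul_right).1 hv

/-- Quotients by units keep congruences. -/
theorem quot_congr {k : ℕ} {A A₀ B B₀ : PowerSeries Lf} (hA : PowerSeries.X ^ k ∣ A - A₀)
    (hB : PowerSeries.X ^ k ∣ B - B₀) (h : PowerSeries.constantCoeff B ≠ 0)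
    (h₀ : PowerSeries.constantCoeff B₀ ≠ 0) :
    PowerSeries.X ^ k ∣ A * B⁻¹ - A₀ * B₀⁻¹ := by
  have e1 := PowerSeries.mul_inv_cancel B h
  have e2 := PowerSeries.mul_inv_cancel B₀ h₀
  have hz : A * B⁻¹ - A₀ * B₀⁻¹ = (A - A₀) * B⁻¹ - (B - B₀) * (A₀ * B⁻¹ * B₀⁻¹) := by
    linear_combination (A₀ * B₀⁻¹) * e1 - (A₀ * B⁻¹) * e2
  rw [hz]
  exact dvd_sub (hA.mul_right _) (hB.mul_right _)

end

end Vale.P199.Ders
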