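import Vale.Agent.P199.Deletion.Ders
import Vale.Agent.P199.Minimise.Degree

/-!
P199, deletion, still rows: if the element of a row does not move at a series point with the symbols of full residual
transcendence degree, its minimal polynomial has integral coefficients with separable residue, so the first nonzero
coefficient of its equation is a scalar of the row, and it vanishes when the symbols are constant up to that order.
-/

namespace Vale.P199.Ders

open Vale.Agent.P199 Vale.Agent.P199.LaurentAlg Polynomial

noncomputable section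

section Root

variable {K D : Type} [Field K] [DivisionRing D] [Algebra K D]

/-- Coefficients of a product whose left factor is a series of scalars. -/
theorem coeff_scalar_mul {k : ℕ} (r : PowerSeries K) (x : PowerSeries D)
    (hr : ∀ i < k, PowerSeries.coeff i r = 0) :
    PowerSeries.coeff k (PowerSeries.map (algebraMap K D) r * x) =
      PowerSeries.coeff k r • PowerSeries.constantCoeff x := by
  rw [PowerSeries.coeff_mul, Finset.sum_eq_single (k, 0)]
  · rw [PowerSeries.coeff_map, PowerSeries.coeff_zero_eq_constantCoeff_apply, ← Algebra.smul_def]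
  · rintro ⟨i, l⟩ hil hne
    have hil' : i + l = k := Finset.HasAntidiagonal.mem_antidiagonal.1 hil
    rcases lt_or_eq_of_le (show i ≤ k by omega) with hi | rfl
    · rw [PowerSeries.coeff_map, hr i hi, map_zero, zero_mul]
    · exact absurd (by simp [show l = 0 by omega]) hne
  · intro h
    simp at h

/-- **A root of a separable equation.** If `f` satisfies an equation with separable residue, the first nonzero
coefficient of a monic equation of degree `e` at `f` is a combination of powers of the residue of `f`, and it vanishes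
when both equations are constant up to that order. -/
theorem coeff_of_root {e p : ℕ} (hp : 1 ≤ p) (g : (PowerSeries K)[X]) (c : ℕ → PowerSeries K)
    (f : PowerSeries D) (hg : g.eval₂ (PowerSeries.map (algebraMap K D)) f = 0)
    (hsep : (g.map PowerSeries.constantCoeff).Separable)
    (hind : LinearIndependent K fun i : Fin e => PowerSeries.constantCoeff f ^ (i : ℕ))
    (hlow : ∀ k < p, PowerSeries.coeff k
      (f ^ e + ∑ i ∈ Finset.range e, PowerSeries.map (algebraMap K D) (c i) * f ^ i) = 0) :
    PowerSeries.coeff p (f ^ e + ∑ i ∈ Finset.range e, PowerSeries.map (algebraMap K D) (c i) * f ^ i) ∈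
        Submodule.span K (Set.range fun i : ℕ => PowerSeries.constantCoeff f ^ i) ∧
      ((∀ m k, 1 ≤ k → k ≤ p → PowerSeries.coeff k (g.coeff m) = 0) →
        (∀ i < e, ∀ k, 1 ≤ k → k ≤ p → PowerSeries.coeff k (c i) = 0) →
        PowerSeries.coeff p
          (f ^ e + ∑ i ∈ Finset.range e, PowerSeries.map (algebraMap K D) (c i) * f ^ i) = 0) := by
  set q : D := PowerSeries.constantCoeff f with hq
  let S : Subalgebra K D := Algebra.adjoin K {q}
  have hspan : ∀ P : K[X], aeval q P ∈ Submodule.span K (Set.range fun i : ℕ => q ^ i) := fun P => by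
    rw [aeval_eq_sum_range]
    exact Submodule.sum_mem _ fun i _ => Submodule.smul_mem _ _ (Submodule.subset_span ⟨i, rfl⟩)
  let _ : Algebra (PowerSeries K) (PowerSeries D) :=
    (PowerSeries.map (algebraMap K D)).toAlgebra' fun z x => PowerSeries.ext fun m => by
      rw [PowerSeries.coeff_mul, PowerSeries.coeff_mul,
        ← Finset.Nat.sum_antidiagonal_swap (f := fun w => PowerSeries.coeff w.1 x *
          PowerSeries.coeff w.2 (PowerSeries.map (algebraMap K D) z))]
      exact Finset.sum_congr rfl fun w _ => by simp [Algebra.commutes]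
  have hres : ∀ P : (PowerSeries K)[X],
      PowerSeries.constantCoeff (aeval f P) = aeval q (P.map PowerSeries.constantCoeff) := fun P => by
    rw [aeval_def, hom_eval₂, aeval_def, eval₂_map]
    congr 1
  set w : (PowerSeries K)[X] := X ^ e + ∑ i : Fin e, C (c i) * X ^ (i : ℕ) with hw
  have hwm : w.Monic := monic_X_pow_add (degree_sum_fin_lt _)
  have hwf : aeval f w =
      f ^ e + ∑ i ∈ Finset.range e, PowerSeries.map (algebraMap K D) (c i) * f ^ i := by
    rw [← Fin.sum_univ_eq_sum_range (fun i => PowerSeries.map (algebraMap K D) (c i) * f ^ i)]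
    simp only [hw, map_add, map_sum, map_mul, map_pow, aeval_X, aeval_C]
    rfl
  rw [← hwf] at hlow ⊢
  set h := g /ₘ w
  set r := g %ₘ w
  have hdeg : r.degree < e := by
    refine (degree_modByMonic_lt g hwm).trans_le ?_
    rw [hw, degree_add_eq_left_of_degree_lt (by rw [degree_X_pow]; exact degree_sum_fin_lt _),
      degree_X_pow]
  have hr : aeval f r = ∑ i : Fin e, PowerSeries.map (algebraMap K D) (r.coeff i) * f ^ (i : ℕ) := by
    have h1 : r = ∑ i : Fin e, monomial (i : ℕ) (r.coeff i) :=
      ((sum_fin (fun i a => monomial i a) (fun _ => map_zero _) hdeg).trans r.sum_monomial_eq).symm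
    conv_lhs => rw [h1]
    rw [map_sum]
    exact Finset.sum_congr rfl fun i _ => aeval_monomial ..
  have h0 : aeval f r + aeval f w * aeval f h = 0 := by
    rw [← map_mul, ← map_add, modByMonic_add_div g w]
    exact hg
  have hcoeff : ∀ k ≤ p, (∀ (i : Fin e) (l : ℕ), l < k → PowerSeries.coeff l (r.coeff i) = 0) →
      ∑ i : Fin e, PowerSeries.coeff k (r.coeff i) • q ^ (i : ℕ) +
        (if k = p then PowerSeries.coeff p (aeval f w) * PowerSeries.constantCoeff (aeval f h)
         else 0) = 0 := fun k hk hlo => by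
    have h1 := congrArg (PowerSeries.coeff k) h0
    rw [map_add, map_zero, hr, map_sum] at h1
    refine Eq.trans ?_ h1
    refine congrArg₂ _ (Finset.sum_congr rfl fun i _ => ?_) ?_
    · rw [coeff_scalar_mul _ _ (hlo i), map_pow]
    · rw [PowerSeries.coeff_mul]
      split_ifs with hkp
      · subst hkp
        rw [Finset.sum_eq_single (k, 0)]
        · rw [PowerSeries.coeff_zero_eq_constantCoeff_apply]
        · rintro ⟨i, l⟩ hil hne
          have hil' : i + l = k := Finset.HasAntidiagonal.mem_antidiagonal.1 hil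
          rcases lt_or_eq_of_le (show i ≤ k by omega) with hi | rfl
          · rw [hlow i hi, zero_mul]
          · exact absurd (by simp [show l = 0 by omega]) hne
        · intro h
          simp at h
      · refine (Finset.sum_eq_zero fun z hz => ?_).symm
        have hz' : z.1 + z.2 = k := Finset.HasAntidiagonal.mem_antidiagonal.1 hz
        rw [hlow z.1 (by omega), zero_mul]
  have hzero : ∀ k < p, ∀ i : Fin e, PowerSeries.coeff k (r.coeff i) = 0 := by
    intro k
    induction k using Nat.strong_induction_on with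
    | _ k ih =>
      intro hk i
      have h1 := hcoeff k hk.le fun i l hl => ih l hl (hl.trans hk) i
      rw [if_neg hk.ne, add_zero] at h1
      exact Fintype.linearIndependent_iff.1 hind _ h1 i
  have hp' := hcoeff p le_rfl fun i l hl => hzero l hl i
  rw [if_pos rfl] at hp'
  -- the residue of the quotient is a unit
  set m := minpoly K q
  have hqi : IsIntegral K q := by
    refine ⟨(g.map PowerSeries.constantCoeff).leadingCoeff⁻¹ • g.map PowerSeries.constantCoeff, ?_, ?_⟩
    · rw [Monic, leadingCoeff, natDegree_smul _ (inv_ne_zero (leadingCoeff_ne_zero.2 hsep.ne_zero)),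
        coeff_smul, smul_eq_mul]
      exact inv_mul_cancel₀ (leadingCoeff_ne_zero.2 hsep.ne_zero)
    · show eval₂ (algebraMap K D) q _ = 0
      rw [← aeval_def, map_smul, ← hres, aeval_def]
      erw [hg]
      simp
  have hmi : Irreducible m := minpoly.irreducible hqi
  have hm : ¬m ∣ h.map PowerSeries.constantCoeff := fun hd => by
    have hw0 : aeval q (w.map PowerSeries.constantCoeff) = 0 := by
      rw [← hres, ← PowerSeries.coeff_zero_eq_constantCoeff_apply]
      exact hlow 0 hp
    have hr0 : r.map PowerSeries.constantCoeff = 0 := Polynomial.ext fun i => by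
      rw [coeff_map, coeff_zero]
      rcases lt_or_ge i e with hi | hi
      · rw [← PowerSeries.coeff_zero_eq_constantCoeff_apply]
        exact hzero 0 hp ⟨i, hi⟩
      · rw [coeff_eq_zero_of_degree_lt (hdeg.trans_le (by exact_mod_cast hi)), map_zero]
    have hg0 : m * m ∣ g.map PowerSeries.constantCoeff := by
      rw [← modByMonic_add_div g w, Polynomial.map_add, Polynomial.map_mul, hr0, zero_add]
      exact mul_dvd_mul (minpoly.dvd K q hw0) hd
    exact hmi.not_isUnit ((Polynomial.Separable.squarefree hsep) m hg0)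
  obtain ⟨u, v, huv⟩ := (hmi.coprime_iff_not_dvd.2 hm).symm
  have hH : PowerSeries.constantCoeff (aeval f h) * aeval q u = 1 := by
    rw [hres, ← map_mul]
    have := congrArg (aeval q) huv
    rw [map_add, map_mul (aeval q) v, minpoly.aeval, mul_zero, add_zero, map_one] at this
    rwa [mul_comm] at this
  have hF : PowerSeries.coeff p (aeval f w) =
      -(aeval q ((∑ i : Fin e, C (PowerSeries.coeff p (r.coeff i)) * X ^ (i : ℕ)) * u)) := by
    rw [map_mul, map_sum]
    simp only [map_mul, map_pow, aeval_C, aeval_X, ← Algebra.smul_def]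
    rw [eq_neg_iff_add_eq_zero]
    have h2 := congrArg (· * aeval q u) hp'
    simp only [zero_mul, add_mul] at h2
    rwa [mul_assoc (PowerSeries.coeff p (aeval f w)), hH, mul_one, add_comm] at h2
  refine ⟨hF ▸ Submodule.neg_mem _ (hspan _), fun hgc hcc => ?_⟩
  -- constant equations have constant remainder
  have hrp : ∀ i, PowerSeries.coeff p (r.coeff i) = 0 := by
    set I : Ideal (PowerSeries K) := Ideal.span {PowerSeries.X ^ (p + 1)}
    set π := Ideal.Quotient.mk I
    have hπ : ∀ z : PowerSeries K, (∀ k, 1 ≤ k → k ≤ p → PowerSeries.coeff k z = 0) →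
        π z = π (PowerSeries.C (PowerSeries.constantCoeff z)) := fun z hz => by
      refine (Ideal.Quotient.eq).2 (Ideal.mem_span_singleton.2 (PowerSeries.X_pow_dvd_iff.2 fun k hk => ?_))
      rw [map_sub, PowerSeries.coeff_C]
      rcases Nat.eq_zero_or_pos k with rfl | hk0
      · rw [if_pos rfl, PowerSeries.coeff_zero_eq_constantCoeff_apply, sub_self]
      · rw [if_neg hk0.ne', sub_zero, hz k hk0 (by omega)]
    let κ : PowerSeries K →+* PowerSeries K := PowerSeries.C.comp PowerSeries.constantCoeff
    have hgπ : g.map π = (g.map κ).map π := Polynomial.ext fun k => by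
      rw [coeff_map, coeff_map, coeff_map]
      exact hπ _ (hgc k)
    have hwπ : w.map π = (w.map κ).map π := by
      simp only [hw, Polynomial.map_add, Polynomial.map_sum, Polynomial.map_mul, Polynomial.map_pow,
        Polynomial.map_X, Polynomial.map_C]
      refine congrArg₂ _ rfl (Finset.sum_congr rfl fun i _ => ?_)
      rw [hπ _ (hcc i i.2)]
      rfl
    have hrπ : r.map π = (r.map κ).map π := by
      rw [map_modByMonic π hwm, map_modByMonic κ hwm, map_modByMonic π (hwm.map κ), hgπ, hwπ]
    intro i
    have h1 := congrArg (fun P => P.coeff i) hrπ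
    simp only [coeff_map] at h1
    have h2 := PowerSeries.X_pow_dvd_iff.1
      (Ideal.mem_span_singleton.1 ((Ideal.Quotient.eq).1 h1)) p (Nat.lt_succ_self p)
    rwa [map_sub, RingHom.comp_apply, PowerSeries.coeff_C, if_neg (by omega), sub_zero] at h2
  rw [hF]
  simp [hrp]

end Root

section Killed

variable {P₁ Q : Pt} (T : Laur P₁ Q)

/-- The series killed by every derivation of the centre that kills the first `N` symbols. -/
def killed (N : ℕ) : Subfield (LaurentSeries P₁.K) where
  carrier := {a | ∀ d : Derivation ℤ Q.K Q.K, (∀ i < N, d (Q.c i) = 0) → d (T.eK a) = 0}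
  mul_mem' {a b} ha hb d hd := by rw [map_mul, d.leibniz, ha d hd, hb d hd, smul_zero, smul_zero, add_zero]
  one_mem' d _ := by rw [map_one, d.map_one_eq_zero]
  add_mem' {a b} ha hb d hd := by rw [map_add, map_add, ha d hd, hb d hd, add_zero]
  zero_mem' d _ := by rw [map_zero, map_zero]
  neg_mem' {a} ha d hd := by rw [map_neg, map_neg, ha d hd, neg_zero]
  inv_mem' a ha d hd := by rw [map_inv₀, d.leibniz_inv, ha d hd, smul_zero]

/-- A coefficient of a product below the orders of the factors. -/
theorem coeff_mul_eq_zero {K : Type} [Field K] (x y : LaurentSeries K) (m₀ m₁ : ℤ)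
    (hx : ∀ i < m₀, x.coeff i = 0) (hy : ∀ i < m₁, y.coeff i = 0) {n : ℤ} (hn : n < m₀ + m₁) :
    (x * y).coeff n = 0 := by
  rw [HahnSeries.coeff_mul]
  refine Finset.sum_eq_zero fun z hz => ?_
  obtain ⟨h1, h2, h3⟩ := Finset.mem_antidiagonal.1 hz
  have h4 : m₀ ≤ z.1 := not_lt.1 fun h => h1 (hx _ h)
  have h5 : m₁ ≤ z.2 := not_lt.1 fun h => h2 (hy _ h)
  omega

/-- A nonzero killed series is integral with nonzero residue, and it is constant up to the order the symbols are. -/
theorem killed_int {N : ℕ} (htr : Minimise.trdegSym N Q = Minimise.trdegSym N P₁)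
    {a : LaurentSeries P₁.K} (ha : a ∈ killed T N) :
    ∃ u : PowerSeries P₁.K, HahnSeries.ofPowerSeries ℤ P₁.K u = a ∧
      (a ≠ 0 → PowerSeries.constantCoeff u ≠ 0) ∧
      ∀ p : ℕ, (∀ i < N, ∀ k, 1 ≤ k → k ≤ p → PowerSeries.coeff k (Fld.cser T i) = 0) →
        ∀ k, 1 ≤ k → k ≤ p → PowerSeries.coeff k u = 0 := by
  have : CharZero P₁.K := P₁.charZero
  obtain ⟨s, δ, hkill⟩ := exists_kill_symbols T htr
  obtain ⟨b, -, hbp, hbk⟩ := hkill psD lsD fun f => lsD_coe f
  have h0 := ha _ hbk
  rw [transDer_apply, RingEquiv.symm_apply_apply, map_eq_zero_iff _ T.eK.injective] at h0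
  simp only [Derivation.add_apply, der_sum_apply, Derivation.coe_smul, Pi.smul_apply, smul_eq_mul] at h0
  have hord : ∀ m : ℤ, m ≠ 0 → (∀ i < m, a.coeff i = 0) → a.coeff m = 0 := fun m hm hlo => by
    have h1 := congrArg (fun z : LaurentSeries P₁.K => z.coeff (m - 1)) h0
    simp only [HahnSeries.coeff_add, HahnSeries.coeff_sum, HahnSeries.coeff_zero] at h1
    rw [Finset.sum_eq_zero fun k _ => coeff_mul_eq_zero _ _ 0 m (fun i hi => ofPowerSeries_coeff_neg _ hi)
      (fun i hi => by rw [coeff_lsMap, hlo i hi, map_zero]) (by omega), add_zero] at h1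
    change ((HahnSeries.single (-1 : ℤ) (1 : P₁.K) : LaurentSeries P₁.K) * euler a).coeff (m - 1) = 0 at h1
    rw [HahnSeries.coeff_single_mul, one_mul, show m - 1 - -1 = m by ring, coeff_euler] at h1
    exact (mul_eq_zero.1 h1).resolve_left (by exact_mod_cast hm)
  have hneg : ∀ i < 0, a.coeff i = 0 := fun i hi => by
    by_contra hne
    have hne0 : a ≠ 0 := fun h => hne (by rw [h, HahnSeries.coeff_zero])
    have hlt : a.order < 0 := (HahnSeries.order_le_of_coeff_ne_zero hne).trans_lt hi
    exact hne0 (HahnSeries.coeff_order_eq_zero.1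
      (hord _ hlt.ne fun k hk => HahnSeries.coeff_eq_zero_of_lt_order hk))
  refine ⟨PowerSeries.mk fun k : ℕ => a.coeff k, ?_, fun hne => ?_, fun p hsym k hk hkp => ?_⟩
  · refine HahnSeries.ext (funext fun m => ?_)
    rcases lt_or_ge m 0 with hm | hm
    · rw [ofPowerSeries_coeff_neg _ hm, hneg m hm]
    · obtain ⟨k, rfl⟩ := Int.eq_ofNat_of_zero_le hm
      rw [HahnSeries.ofPowerSeries_apply_coeff, PowerSeries.coeff_mk]
  · rw [← PowerSeries.coeff_zero_eq_constantCoeff_apply, PowerSeries.coeff_mk, Nat.cast_zero]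
    intro h00
    refine hne (HahnSeries.coeff_order_eq_zero.1 ?_)
    rcases eq_or_ne a.order 0 with h | h
    · rw [h, h00]
    · exact hord _ h fun i hi => HahnSeries.coeff_eq_zero_of_lt_order hi
  · have hdvd : ∀ i, PowerSeries.X ^ p ∣ b i := hbp p fun i hi =>
      PowerSeries.X_pow_dvd_iff.2 fun l hl => by
        show PowerSeries.coeff l (PowerSeries.derivative P₁.K _) = 0
        rw [PowerSeries.coeff_derivative, hsym i hi (l + 1) (Nat.succ_pos l) hl, zero_mul]
    have h1 := congrArg (fun z : LaurentSeries P₁.K => z.coeff ((k : ℤ) - 1)) h0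
    simp only [HahnSeries.coeff_add, HahnSeries.coeff_sum, HahnSeries.coeff_zero] at h1
    rw [Finset.sum_eq_zero fun l _ => coeff_mul_eq_zero _ _ (p : ℤ) 0 (fun i hi => ?_)
      (fun i hi => by rw [coeff_lsMap, hneg i hi, map_zero]) (by omega), add_zero] at h1
    swap
    · rcases lt_or_ge i 0 with h | h
      · exact ofPowerSeries_coeff_neg _ h
      · obtain ⟨l', rfl⟩ := Int.eq_ofNat_of_zero_le h
        rw [HahnSeries.ofPowerSeries_apply_coeff]
        exact PowerSeries.X_pow_dvd_iff.1 (hdvd l) l' (by exact_mod_cast hi)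
    change ((HahnSeries.single (-1 : ℤ) (1 : P₁.K) : LaurentSeries P₁.K) * euler a).coeff ((k : ℤ) - 1) = 0 at h1
    rw [HahnSeries.coeff_single_mul, one_mul, show (k : ℤ) - 1 - -1 = k by ring, coeff_euler] at h1
    rw [PowerSeries.coeff_mk]
    exact (mul_eq_zero.1 h1).resolve_left (by exact_mod_cast (show k ≠ 0 by omega))

/-- The integral representative of a killed series, as a homomorphism. -/
theorem exists_killed_hom {N : ℕ} (htr : Minimise.trdegSym N Q = Minimise.trdegSym N P₁) :
    ∃ ψ : killed T N →+* PowerSeries P₁.K, (∀ a, HahnSeries.ofPowerSeries ℤ P₁.K (ψ a) = a) ∧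
      ∀ p : ℕ, (∀ i < N, ∀ k, 1 ≤ k → k ≤ p → PowerSeries.coeff k (Fld.cser T i) = 0) →
        ∀ a k, 1 ≤ k → k ≤ p → PowerSeries.coeff k (ψ a) = 0 := by
  choose ψ hψ hψ0 hψp using fun a : killed T N => killed_int T htr a.2
  have inj := HahnSeries.ofPowerSeries_injective (Γ := ℤ) (R := P₁.K)
  exact ⟨{ toFun := ψ
           map_one' := inj (by rw [hψ, map_one]; rfl)
           map_mul' := fun x y => inj (by rw [map_mul, hψ, hψ, hψ]; rfl)
           map_zero' := inj (by rw [hψ, map_zero]; rfl)
           map_add' := fun x y => inj (by rw [map_add, hψ, hψ, hψ]; rfl) }, hψ,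
    fun p hp a k hk hkp => hψp a p hp k hk hkp⟩

/-- **Still rows at a series point.** If the element of the row does not move at the point, the first nonzero
coefficient of the equation of the row is a scalar, and it is zero when the symbols are constant up to this order. -/
theorem still_coeff {L : Listing} {j : ℕ}
    (htr : Minimise.trdegSym (L.b j) Q = Minimise.trdegSym (L.b j) P₁) (hnm : ¬Inv.Moves L j Q)
    (hdeg : L.e j ≤ Minimise.degRow L j P₁) {f : PowerSeries P₁.D} (hf : T.emb f = Q.q L j) {p : ℕ}
    (hp : 1 ≤ p)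
    (hlow : ∀ k < p, PowerSeries.coeff k (f ^ L.e j + ∑ i ∈ Finset.range (L.e j),
      PowerSeries.map (algebraMap P₁.K P₁.D) (Fld.cser T (L.b j + i)) * f ^ i) = 0) :
    PowerSeries.coeff p (f ^ L.e j + ∑ i ∈ Finset.range (L.e j),
        PowerSeries.map (algebraMap P₁.K P₁.D) (Fld.cser T (L.b j + i)) * f ^ i) ∈ P₁.scalars L j ∧
      ((∀ i < L.b (j + 1), ∀ k, 1 ≤ k → k ≤ p → PowerSeries.coeff k (Fld.cser T i) = 0) →
        PowerSeries.coeff p (f ^ L.e j + ∑ i ∈ Finset.range (L.e j),
          PowerSeries.map (algebraMap P₁.K P₁.D) (Fld.cser T (L.b j + i)) * f ^ i) = 0) := by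
  obtain ⟨ψ, hψ, hψp⟩ := exists_killed_hom T htr
  have : CharZero Q.K := Q.charZero
  have hinj : Function.Injective T.emb := fun x y h => psE_injective (T.eD.injective h)
  have hq0 : PowerSeries.constantCoeff f = P₁.q L j := by
    obtain ⟨f', hf', hf0⟩ := T.exists_ev (L.p j)
    rw [hinj (hf.trans hf'.symm)]
    exact hf0
  set gQ := minpoly Q.K (Q.q L j) with hgQ
  have hgm : gQ.Monic := minpoly.monic (Algebra.IsIntegral.isIntegral _)
  have hk : ∀ d : Derivation ℤ Q.K Q.K, (∀ i < L.b j, d (Q.c i) = 0) → ∀ i, d (gQ.coeff i) = 0 :=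
    fun d hd i => by
    rcases lt_trichotomy i gQ.natDegree with hi | rfl | hi
    · have hv : (∑ l ∈ Finset.range gQ.natDegree, d (gQ.coeff l) • Q.q L j ^ l) = 0 := by
        by_contra hne
        exact hnm ⟨_, ⟨d, hd, rfl⟩, hne⟩
      rw [Finset.sum_range] at hv
      exact Fintype.linearIndependent_iff.1 (linearIndependent_pow (K := Q.K) (Q.q L j))
        (fun l => d (gQ.coeff l)) hv ⟨i, hi⟩
    · rw [hgm.coeff_natDegree, d.map_one_eq_zero]
    · rw [coeff_eq_zero_of_natDegree_lt hi, map_zero]
  have hlift : gQ.map T.eK.symm.toRingHom ∈ Polynomial.lifts (killed T (L.b j)).subtype :=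
    (lifts_iff_coeff_lifts _).2 fun i =>
      ⟨⟨T.eK.symm (gQ.coeff i), fun d hd => by rw [RingEquiv.apply_symm_apply]; exact hk d hd i⟩,
        (coeff_map (p := gQ) T.eK.symm.toRingHom i).symm⟩
  obtain ⟨g, hg⟩ := (mem_lifts _).1 hlift
  have hgsep : g.Separable := by
    have h1 : gQ.Separable := (minpoly.irreducible (Algebra.IsIntegral.isIntegral _)).separable
    have h2 := h1.map (f := T.eK.symm.toRingHom)
    rw [← hg] at h2
    exact (separable_map (killed T (L.b j)).subtype).1 h2
  have hroot : (g.map ψ).eval₂ (PowerSeries.map (algebraMap P₁.K P₁.D)) f = 0 := hinj (by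
    rw [eval₂_map, hom_eval₂, hf, map_zero]
    have hcomp : T.emb.comp ((PowerSeries.map (algebraMap P₁.K P₁.D)).comp ψ) =
        ((algebraMap Q.K Q.D).comp T.eK.toRingHom).comp (killed T (L.b j)).subtype :=
      RingHom.ext fun a => by
        show T.eD (psE (PowerSeries.map (algebraMap P₁.K P₁.D) (ψ a))) = _
        rw [T.eD_scalar, hψ]
        rfl
    rw [hcomp, ← eval₂_map, hg]
    rw [eval₂_map, show ((algebraMap Q.K Q.D).comp T.eK.toRingHom).comp T.eK.symm.toRingHom =
      algebraMap Q.K Q.D from RingHom.ext fun a => by simp]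
    exact minpoly.aeval _ _)
  have hind : LinearIndependent P₁.K fun i : Fin (L.e j) => PowerSeries.constantCoeff f ^ (i : ℕ) := by
    rw [hq0]
    exact (linearIndependent_pow (K := P₁.K) (P₁.q L j)).comp (Fin.castLE hdeg) (Fin.castLE_injective hdeg)
  obtain ⟨h1, h2⟩ := coeff_of_root hp (g.map ψ) (fun i => Fld.cser T (L.b j + i)) f hroot
    (by rw [Polynomial.map_map]; exact hgsep.map) hind hlow
  rw [hq0] at h1
  refine ⟨h1, fun hs => h2 (fun m k hk hkp => ?_) fun i hi k hk hkp => hs _ ?_ k hk hkp⟩
  · rw [coeff_map]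
    exact hψp p (fun i hi => hs i (hi.trans_le (by rw [L.b_succ]; omega))) _ k hk hkp
  · rw [L.b_succ]; omega

end Killed

end

end Vale.P199.Ders
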