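import Vale.Agent.P199.LiftSeries

/-!
P199, deletion: perturbed lifts. A series with vanishing projected equations stays continuable after adding, at one
order, a tangent that is orthogonal to both directions of the lift; every other row sees the tangent's differential.
-/

namespace Vale.Agent.P199

open Module

noncomputable section

namespace LiftSeries

variable {P P₁ : Pt} (E : Ext P P₁) {L : Listing} {n : ℕ} (r : Rows L n P) {a b : Rows.Amb P} {U V : P₁.D}

/-- Differentials carry no obstruction. -/
theorem good_dEq (x : P₁.Dir (L.b n)) : Good E r (fun j => P₁.dEq L (L.b n) j x) := by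
  intro y hy k hk
  let F : P₁.Dir (L.b n) →ₗ[P₁.K] P₁.K :=
    obs E r y k ∘ₗ LinearMap.pi fun j : Fin n => P₁.dEq L (L.b n) j
  have hamb : ∀ (s : Rows.Amb P) (k' : Fin E.m), F (fun c => E.iD (s c) * E.mon k', 0) = 0 := by
    intro s k'
    show obs E r y k (fun j : Fin n => P₁.dEq L (L.b n) j (fun c => E.iD (s c) * E.mon k', 0)) = 0
    simp only [dEq_mul E s (mon_mem E k')]
    rw [obs_iD_mon, show yv r y (fun j : Fin n => P.dEq L (L.b n) j (s, 0)) = 0 from
      (Submodule.mem_dualAnnihilator _).1 hy _ ⟨s, rfl⟩, map_zero, ite_self]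
  have hsym : ∀ i : Fin (L.b n), F (0, Pi.single i 1) = 0 := by
    intro i
    have h := dEq_base (L := L) (n := n) E (0, Pi.single i 1)
    have h1 : ((fun c => E.iD ((0 : Bool → P.D) c), fun i' => E.iK (Pi.single (M := fun _ => P.K) i 1 i')) :
        P₁.Dir (L.b n)) = (0, Pi.single i 1) := by
      refine Prod.ext (funext fun c => map_zero _) (funext fun i' => ?_)
      by_cases h : i' = i
      · subst h; simp
      · simp [Pi.single_eq_of_ne h]
    show obs E r y k (fun j : Fin n => P₁.dEq L (L.b n) j (0, Pi.single i 1)) = 0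
    have hj : (fun j : Fin n => P₁.dEq L (L.b n) j (0, Pi.single i 1)) =
        fun j : Fin n => E.iD (P.dEq L (L.b n) j (0, Pi.single i 1)) * E.mon (one E) := funext fun j => by
      rw [mon_one_eq, mul_one, ← h1, h]
    rw [hj, obs_iD_mon, if_neg (Ne.symm hk)]
  -- every direction is a combination of these
  have hx : x = (∑ c, ∑ z, (basis E).repr (x.1 c) z •
      ((fun c' => E.iD (Pi.single (M := fun _ => P.D) c (oldBasis P z.1) c') * E.mon z.2, 0) :
        P₁.Dir (L.b n))) + ∑ i, x.2 i • (0, Pi.single i 1) := by
    refine Prod.ext (funext fun c => ?_) (funext fun i => ?_)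
    · simp only [Prod.fst_add, Prod.fst_sum, Pi.add_apply, Finset.sum_apply, Prod.smul_fst, Pi.smul_apply,
        smul_zero, Finset.sum_const_zero, add_zero, Pi.zero_apply]
      rw [Finset.sum_eq_single c (fun c' _ hc' => Finset.sum_eq_zero fun z _ => by
        simp [Pi.single_eq_of_ne (Ne.symm hc')]) (fun h => absurd (Finset.mem_univ c) h)]
      conv_lhs => rw [← (basis E).sum_repr (x.1 c)]
      exact Finset.sum_congr rfl fun z _ => by rw [Pi.single_eq_same, basis_apply]
    · simp only [Prod.snd_add, Prod.snd_sum, Pi.add_apply, Finset.sum_apply, Prod.smul_snd, Pi.smul_apply,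
        smul_zero, Finset.sum_const_zero, zero_add, Pi.zero_apply, smul_eq_mul, Pi.single_apply, mul_ite,
        mul_one, mul_zero, Finset.sum_ite_eq, Finset.mem_univ, if_true]
  show F x = 0
  rw [hx, map_add, map_sum, map_sum, Finset.sum_eq_zero fun c _ => by
    rw [map_sum]; exact Finset.sum_eq_zero fun z _ => by rw [map_smul, hamb, smul_zero],
    Finset.sum_eq_zero fun i _ => by rw [map_smul, hsym, smul_zero], add_zero]

/-- A tangent times a monomial, orthogonal to both directions, moves no equation and no obstruction. -/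
theorem free_tangent (h : LiftData E r a b U V) {s : Rows.Amb P} (hs : s ∈ r.T) {ν : P₁.D}
    (hν : ν ∈ monSpan E) (hsa : ∀ y ∈ r.Y, r.form y a s = 0) (hsb : ∀ y ∈ r.Y, r.form y b s = 0) :
    (∀ j : Fin n, P₁.dEq L (L.b n) j (fun c => E.iD (s c) * ν, 0) = 0) ∧
      Good E r (fun j => Lin (L := L) (n := n) E a b U V j (fun c => E.iD (s c) * ν, 0)) := by
  refine ⟨fun j => by rw [dEq_mul E s hν, h.tight.fixed s hs j, map_zero, zero_mul], fun y hy k _ => ?_⟩
  have hsum : (fun j : Fin n => Lin (L := L) (n := n) E a b U V j (fun c => E.iD (s c) * ν, 0)) =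
      ((fun j : Fin n => E.iD (D2 r a s j) * (U * ν)) + fun j : Fin n => E.iD (D2 r b s j) * (V * ν)) +
        ((fun j : Fin n => E.iD (D2 r s a j) * (ν * U)) + fun j : Fin n => E.iD (D2 r s b j) * (ν * V)) :=
    funext fun j => Lin_mul E r s h.memU h.memV hν j
  rw [hsum, map_add, map_add, map_add,
    obs_eq_zero E r (by rw [yv_D2, hsa y hy]) (mul_mem_monSpan E h.mul h.memU hν),
    obs_eq_zero E r (by rw [yv_D2, hsb y hy]) (mul_mem_monSpan E h.mul h.memV hν),
    obs_eq_zero E r (by rw [yv_D2, form_swap r h.alt hy hs h.memA, hsa y hy, neg_zero])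
      (mul_mem_monSpan E h.mul hν h.memU),
    obs_eq_zero E r (by rw [yv_D2, form_swap r h.alt hy hs h.memB, hsb y hy, neg_zero])
      (mul_mem_monSpan E h.mul hν h.memV)]
  simp

/-- Continuation of a prescribed beginning. -/
theorem exists_series_from (hS : P.Solves L n) (h : LiftData E r a b U V) (w₀ : ℕ → P₁.Dir (L.b n)) (k : ℕ)
    (hlow : ∀ i ≤ k, ∀ j : Fin n,
      PF E r j (err E a b U V (trunc (fun t : Fin i => w₀ t) (w₀ i)) (i + 2) j) = 0)
    (hgood : Good E r (fun j => err E a b U V (trunc (fun t : Fin k => w₀ t) (w₀ k)) (k + 3) j)) :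
    ∃ w : ℕ → P₁.Dir (L.b n), (∀ i ≤ k, w i = w₀ i) ∧
      ∀ (j : Fin n) m, PF E r j (err E a b U V w m j) = 0 := by
  obtain ⟨w, hw⟩ := Vale.P199.Valued.exists_seq (V := P₁.Dir (L.b n))
    (fun m prev x => (m ≤ k → x = w₀ m ∧ ∀ i : Fin m, prev i = w₀ i) ∧
      (∀ j : Fin n, PF E r j (err E a b U V (trunc prev x) (m + 2) j) = 0) ∧
      (k ≤ m → Good E r (fun j => err E a b U V (trunc prev x) (m + 3) j))) fun m prev hprev => by
    by_cases hm : m ≤ k
    · have hp : prev = fun t : Fin m => w₀ t := funext fun t => ((hprev t).1 (by omega)).1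
      subst hp
      refine ⟨w₀ m, fun _ => ⟨rfl, fun _ => rfl⟩, fun j => hlow m hm j, fun hkm => ?_⟩
      obtain rfl : m = k := le_antisymm hm hkm
      exact hgood
    · obtain ⟨m', rfl⟩ : ∃ m', m = m' + 1 := ⟨m - 1, by omega⟩
      have h2 := (hprev ⟨m', by omega⟩).2.2 (by show k ≤ m'; omega)
      have he : LiftSeries.trunc (fun i : Fin m' => prev ⟨i, by omega⟩) (prev ⟨m', by omega⟩) =
          trunc prev 0 := by
        funext i
        simp only [LiftSeries.trunc]
        by_cases h1 : i < m'
        · rw [dif_pos h1, dif_pos (by omega)]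
        · by_cases h2 : i = m'
          · subst h2; rw [dif_neg h1, if_pos rfl, dif_pos (by omega)]
          · rw [dif_neg h1, if_neg h2, dif_neg (by omega), ite_self]
      have hg : Good E r (fun j => err E a b U V (trunc prev 0) (m' + 1 + 2) j) := he ▸ h2
      obtain ⟨x₀, hx₀⟩ := exists_preimage E r h.tight
        (Z := fun j => -err E a b U V (trunc prev 0) (m' + 1 + 2) j) (fun y hy k' hk => by
          rw [show (fun j : Fin n => -err E a b U V (trunc prev 0) (m' + 1 + 2) j) =
            -(fun j : Fin n => err E a b U V (trunc prev 0) (m' + 1 + 2) j) from rfl, map_neg,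
            hg y hy k' hk, neg_zero])
      obtain ⟨u, hu, hu'⟩ := exists_correction E r h
        (fun j => Lin (L := L) (n := n) E a b U V j x₀ + err E a b U V (trunc prev 0) (m' + 1 + 3) j)
      refine ⟨u + x₀, fun h' => absurd h' hm, fun j => ?_, fun _ y hy k' hk => ?_⟩
      · rw [err_trunc_low, map_add, map_add, hu j, zero_add, hx₀ j, map_neg, neg_add_cancel]
      · rw [show (fun j : Fin n => err E a b U V (trunc prev (u + x₀)) (m' + 1 + 3) j) =
          fun j : Fin n => Lin (L := L) (n := n) E a b U V j u +
            (Lin (L := L) (n := n) E a b U V j x₀ + err E a b U V (trunc prev 0) (m' + 1 + 3) j) from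
          funext fun j => by rw [err_trunc_high, map_add, add_assoc]]
        exact hu' y hy k' hk
  refine ⟨w, fun i hi => ((hw i).1 hi).1, fun j m => ?_⟩
  match m with
  | 0 =>
    rw [err, Poly.coeff_zero_ev, cf_serW_zero, val_eq E, ← Poly.ev_map E.iD, hS j j.2, map_zero,
      map_zero]
  | 1 =>
    rw [err, Poly.coeff_one_ev, cf_serW_zero, cf_serW_one, dirVal_X1, Poly.d1_add_dir, val_eq E,
      ← Poly.map_d1 _ _ E.iD U (comm_mem E h.memU), ← Poly.map_d1 _ _ E.iD V (comm_mem E h.memV)]
    have ha := h.tight.fixed a h.memA j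
    have hb := h.tight.fixed b h.memB j
    change Poly.d1 P.val _ _ = 0 at ha hb
    rw [ha, hb, map_zero, zero_mul, zero_mul, add_zero, map_zero]
  | m + 2 =>
    rw [err_congr E a b U V (k := m + 1) (w' := LiftSeries.trunc (fun i : Fin m => w i) (w m))
      (fun i hi => by
        simp only [LiftSeries.trunc]
        by_cases h1 : i < m
        · rw [dif_pos h1]
        · rw [dif_neg h1, if_pos (by omega), show i = m by omega]) (by omega)]
    exact (hw m).2.1 j

/-- The series cut after order `k + 2`. -/
theorem trunc_eq (w : ℕ → P₁.Dir (L.b n)) {k i : ℕ} (hi : i ≤ k) :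
    LiftSeries.trunc (fun t : Fin k => w t) (w k) i = w i := by
  simp only [LiftSeries.trunc]
  by_cases h1 : i < k
  · rw [dif_pos h1]
  · rw [dif_neg h1, if_pos (by omega), show i = k by omega]

/-- Perturbed series: a free tangent can be added at one order and the series continued; the errors of
order at most `k + 2` change only by its differential. -/
theorem exists_perturbed (hS : P.Solves L n) (h : LiftData E r a b U V) (w : ℕ → P₁.Dir (L.b n))
    (hw : ∀ (j : Fin n) m, PF E r j (err E a b U V w m j) = 0) (k : ℕ) (u : P₁.Dir (L.b n))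
    (hu : ∀ j : Fin n, P₁.dEq L (L.b n) j u = 0)
    (hug : Good E r (fun j => Lin (L := L) (n := n) E a b U V j u)) :
    ∃ w' : ℕ → P₁.Dir (L.b n), (∀ i < k, w' i = w i) ∧ w' k = w k + u ∧
      (∀ (j : Fin n) m, PF E r j (err E a b U V w' m j) = 0) ∧
      (∀ j m, m < k + 2 → err E a b U V w' m j = err E a b U V w m j) ∧
      ∀ j, err E a b U V w' (k + 2) j = err E a b U V w (k + 2) j + P₁.dEq L (L.b n) j u := by
  classical
  let w₀ := Function.update w k (w k + u)
  have hbelow : ∀ i, i ≤ k → (fun t : Fin i => w₀ t) = fun t : Fin i => w t := fun i hi =>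
    funext fun t => Function.update_of_ne (by omega) _ _
  have hlow : ∀ i ≤ k, ∀ j : Fin n,
      PF E r j (err E a b U V (LiftSeries.trunc (fun t : Fin i => w₀ t) (w₀ i)) (i + 2) j) = 0 := by
    intro i hi j
    have h0 := hw j (i + 2)
    rw [err_congr E a b U V (k := i + 1) (w' := LiftSeries.trunc (fun t : Fin i => w t) (w i))
      (fun t ht => (trunc_eq w (by omega)).symm) (by omega), err_trunc_low] at h0
    rw [map_add] at h0
    rw [hbelow i hi, err_trunc_low, map_add]
    rcases eq_or_lt_of_le hi with rfl | hlt
    · rw [show w₀ i = w i + u from Function.update_self .., map_add, hu j, add_zero, h0]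
    · rw [show w₀ i = w i from Function.update_of_ne hlt.ne _ _, h0]
  have hgood : Good E r (fun j => err E a b U V (LiftSeries.trunc (fun t : Fin k => w₀ t) (w₀ k)) (k + 3) j) := by
    -- the next error of `w` is projected to zero and differs by a differential
    have h1 : Good E r (fun j => err E a b U V (LiftSeries.trunc (fun t : Fin k => w t) (w k)) (k + 3) j) := by
      have hd : ∀ j : ℕ, err E a b U V w (k + 3) j = P₁.dEq L (L.b n) j (w (k + 1)) +
          err E a b U V (LiftSeries.trunc (fun t : Fin k => w t) (w k)) (k + 3) j := by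
        intro j
        have e1 := err_congr E a b U V (k := k + 2) (w := w)
          (w' := LiftSeries.trunc (fun t : Fin (k + 1) => w t) (w (k + 1)))
          (fun t ht => (trunc_eq w (by omega)).symm) (m := k + 3) (by omega) j
        rw [e1, show k + 3 = k + 1 + 2 from rfl, err_trunc_low]
        congr 2
        funext i
        simp only [LiftSeries.trunc]
        by_cases h1 : i < k
        · rw [dif_pos (by omega), dif_pos h1]
        · by_cases h2 : i = k
          · rw [dif_pos (by omega), dif_neg h1, if_pos h2, h2]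
          · rw [dif_neg (by omega), dif_neg h1, if_neg h2, ite_self]
      intro y hy k' hk'
      have h0 : obs E r y k' (fun j : Fin n => err E a b U V w (k + 3) j) = 0 := by
        rw [← obs_PF E r y hk', show (fun j : Fin n => PF E r j (err E a b U V w (k + 3) j)) = 0 from
          funext fun j => hw j (k + 3), map_zero]
      rw [show (fun j : Fin n => err E a b U V w (k + 3) j) = (fun j : Fin n => P₁.dEq L (L.b n) j (w (k + 1))) +
        fun j : Fin n => err E a b U V (LiftSeries.trunc (fun t : Fin k => w t) (w k)) (k + 3) j from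
        funext fun j => hd j, map_add, good_dEq E r _ y hy k' hk', zero_add] at h0
      exact h0
    intro y hy k' hk'
    rw [hbelow k le_rfl, show w₀ k = w k + u from Function.update_self ..]
    rw [show (fun j : Fin n => err E a b U V (LiftSeries.trunc (fun t : Fin k => w t) (w k + u)) (k + 3) j) =
        fun j : Fin n => Lin (L := L) (n := n) E a b U V j (w k) + Lin (L := L) (n := n) E a b U V j u +
          err E a b U V (LiftSeries.trunc (fun t : Fin k => w t) 0) (k + 3) j from
      funext fun j => by rw [err_trunc_high _ _ _ _ _ _ (w k + u), map_add]]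
    rw [show (fun j : Fin n => Lin (L := L) (n := n) E a b U V j (w k) + Lin (L := L) (n := n) E a b U V j u +
        err E a b U V (LiftSeries.trunc (fun t : Fin k => w t) 0) (k + 3) j) =
      (fun j : Fin n => err E a b U V (LiftSeries.trunc (fun t : Fin k => w t) (w k)) (k + 3) j) +
        fun j : Fin n => Lin (L := L) (n := n) E a b U V j u from funext fun j => by
      rw [Pi.add_apply, err_trunc_high _ _ _ _ _ _ (w k)]; abel, map_add, h1 y hy k' hk', hug y hy k' hk', add_zero]
  obtain ⟨w', hw', hproj⟩ := exists_series_from E r hS h w₀ k hlow hgood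
  refine ⟨w', fun i hi => (hw' i hi.le).trans (Function.update_of_ne hi.ne _ _),
    (hw' k le_rfl).trans (Function.update_self ..), hproj, fun j m hm => ?_, fun j => ?_⟩
  · exact err_congr E a b U V (k := k) (fun i hi => (hw' i hi.le).trans (Function.update_of_ne hi.ne _ _)) hm j
  · rw [err_congr E a b U V (k := k + 1) (w := w') (w' := LiftSeries.trunc (fun t : Fin k => w₀ t) (w₀ k))
        (fun t ht => (hw' t (by omega)).trans (trunc_eq w₀ (by omega)).symm) (by omega),
      err_congr E a b U V (k := k + 1) (w := w) (w' := LiftSeries.trunc (fun t : Fin k => w t) (w k))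
        (fun t ht => (trunc_eq w (by omega)).symm) (by omega),
      hbelow k le_rfl, show w₀ k = w k + u from Function.update_self ..,
      err_trunc_low _ _ _ _ _ _ (w k + u), err_trunc_low _ _ _ _ _ _ (w k), map_add]
    abel

end LiftSeries

end

end Vale.Agent.P199
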