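import Vale.Agent.P199.Leaf
import Vale.Agent.P199.Stage.Pt
import Vale.Agent.P199.SeriesPoint

/-!
P199, deletion, the linear algebra of one row: if, for enough directions, the error shifted along the direction generates
a small algebra over the class field whenever it has full degree, then the error is a linked motion up to a scalar of
the row; such an error with vanishing projection is zero.
-/

namespace Vale.Agent.P199

open Module

noncomputable section

namespace Deletion

variable {P : Pt}

/-- `y` has degree at least `N` over `K[q]`. -/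
def Gen (q : P.D) (e N : ℕ) (y : P.D) : Prop :=
  LinearIndependent P.K fun z : Fin e × Fin N => q ^ (z.1 : ℕ) * y ^ (z.2 : ℕ)

/-- `y` generates a small algebra with `F`. -/
def Small (F : Set P.D) (d : ℕ) (y : P.D) : Prop :=
  finrank P.K (Algebra.adjoin P.K (insert y F)) ≤ d

/-- Full degree along a line holds off a finite set of parameters. -/
theorem finite_not_gen {q : P.D} {e N : ℕ} {G : P.D} (hG : Gen q e N G) (y : P.D) :
    {s : P.K | ¬Gen q e N (y + s • G)}.Finite := by
  classical
  let fam : Fin e × Fin N → Polynomial P.D := fun z =>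
    Polynomial.C (q ^ (z.1 : ℕ)) * (Polynomial.C G + Polynomial.X * Polynomial.C y) ^ (z.2 : ℕ)
  have hev : ∀ (h : P.K) z, Vale.P199.Leaf.evS h (fam z) = q ^ (z.1 : ℕ) * (G + h • y) ^ (z.2 : ℕ) :=
    fun h z => by
      simp only [fam, map_mul, map_pow, map_add, Vale.P199.Leaf.evS_C, Vale.P199.Leaf.evS_X,
        Algebra.smul_def]
  have h0 : LinearIndependent P.K fun z => (fam z).coeff 0 := by
    have he : (fun z => (fam z).coeff 0) = fun z : Fin e × Fin N => q ^ (z.1 : ℕ) * G ^ (z.2 : ℕ) := by
      funext z
      rw [← Vale.P199.Leaf.evS_zero (F := P.K), hev, zero_smul, add_zero]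
    rw [he]
    exact hG
  refine (((Vale.P199.Leaf.finite_dependent fam h0).image fun h => h⁻¹).insert 0).subset
    fun s hs => ?_
  by_contra hmem
  obtain ⟨hs0, hs'⟩ := not_or.1 hmem
  refine hs ?_
  have hgood : LinearIndependent P.K fun z => Vale.P199.Leaf.evS s⁻¹ (fam z) := by
    by_contra hbad
    exact hs' ⟨s⁻¹, hbad, inv_inv s⟩
  have h2 := hgood.units_smul fun z => Units.mk0 (s ^ (z.2 : ℕ)) (pow_ne_zero _ hs0)
  unfold Gen
  convert h2 using 1
  funext z
  rw [Pi.smul_apply', hev, Units.smul_mk0, ← mul_smul_comm, ← smul_pow, smul_add, smul_smul,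
    mul_inv_cancel₀ hs0, one_smul, add_comm]

/-- The directions that detect the linked motions of a row: each, shifted, gives full degree, and together they cut
out `W` in the centraliser of `q`. -/
structure Probe (q : P.D) (e : ℕ) (W : Submodule P.K P.D) where
  /-- The motion. -/
  ρ : P.D
  /-- The class field. -/
  F : Set P.D
  /-- The bound on small algebras. -/
  d : ℕ
  /-- The degree of the directions. -/
  N : ℕ
  /-- The directions. -/
  G : Set P.D
  ρ_ne : ρ ≠ 0
  ρ_comm : Commute q ρ
  gen : ∀ x ∈ G, Gen q e N (ρ * x)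
  detect : ∀ y, Commute q y → (∀ x ∈ G, {s : P.K | ¬Small F d (y + s • x)}.Finite) → ρ * y ∈ W

/-- An error whose perturbations are small is linked up to the shift. -/
theorem Probe.sub_mem {q : P.D} {e : ℕ} {W : Submodule P.K P.D} (Pr : Probe q e W) {E b : P.D}
    (hE : Commute q E) (hb : Commute q b)
    (hkey : ∀ x ∈ Pr.G, ∀ s : P.K, Gen q e Pr.N (E + s • (Pr.ρ * x)) →
      Small Pr.F Pr.d (Pr.ρ⁻¹ * (E + s • (Pr.ρ * x) - b))) :
    E - b ∈ W := by
  have h : Pr.ρ * (Pr.ρ⁻¹ * (E - b)) ∈ W := by
    refine Pr.detect _ (Pr.ρ_comm.inv_right₀.mul_right (hE.sub_right hb)) fun x hx =>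
      (finite_not_gen (Pr.gen x hx) E).subset fun s hs hgen => hs ?_
    have h1 := hkey x hx s hgen
    rwa [show Pr.ρ⁻¹ * (E + s • (Pr.ρ * x) - b) = Pr.ρ⁻¹ * (E - b) + s • x by
      rw [add_sub_right_comm, mul_add, mul_smul_comm, ← mul_assoc, inv_mul_cancel₀ Pr.ρ_ne,
        one_mul]] at h1
  rwa [← mul_assoc, mul_inv_cancel₀ Pr.ρ_ne, one_mul] at h

variable {L : Listing} {n : ℕ}

/-- An error linked up to a scalar of the row with vanishing projection is zero. -/
theorem eq_zero_of_kill (r : Rows L n P) (j : Fin n) {E b : P.D} (hproj : r.projF j E = 0)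
    (hb : b ∈ P.scalars L j) (hW : E - b ∈ r.W j) : E = 0 := by
  have hmem : E ∈ r.W j ⊔ r.Pp j := by
    rw [← sub_add_cancel E b]
    exact add_mem (Submodule.mem_sup_left hW) (r.scalars_le j hb)
  exact (r.projF_self j E hmem).symm.trans hproj

/-- Scalars of a row commute with its element. -/
theorem commute_scalars {j : ℕ} {b : P.D} (hb : b ∈ P.scalars L j) : Commute (P.q L j) b := by
  induction hb using Submodule.span_induction with
  | mem x h =>
    obtain ⟨i, rfl⟩ := h
    exact (Commute.refl _).pow_right _
  | zero => exact Commute.zero_right _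
  | add x y _ _ hx hy => exact hx.add_right hy
  | smul c x _ hx => exact hx.smul_right c

/-- A series of scalars is central. -/
theorem commute_scalar_series (c : ℕ → P.K) (f : PowerSeries P.D) :
    Commute (PowerSeries.mk fun m => algebraMap P.K P.D (c m)) f := by
  refine PowerSeries.ext fun m => ?_
  rw [PowerSeries.coeff_mul, PowerSeries.coeff_mul,
    ← Finset.Nat.sum_antidiagonal_swap (f := fun z => PowerSeries.coeff z.1 f *
      PowerSeries.coeff z.2 (PowerSeries.mk fun m => algebraMap P.K P.D (c m)))]
  exact Finset.sum_congr rfl fun z _ => by simp [Algebra.commutes]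

/-- The first nonzero coefficient of an equation commutes with the element of its row. -/
theorem commute_coeff (j : ℕ) (X : ℕ → Bool → P.D) (Cs : ℕ → ℕ → P.K) (hX : X 0 = P.xy)
    (hC : Cs 0 = P.c) {p : ℕ}
    (hlow : ∀ k < p, PowerSeries.coeff k (Poly.ev (SeriesPoint.ser X Cs) (L.eqn j)) = 0) :
    Commute (P.q L j) (PowerSeries.coeff p (Poly.ev (SeriesPoint.ser X Cs) (L.eqn j))) := by
  set v := SeriesPoint.ser X Cs
  set f := Poly.ev v (L.p j) with hf
  set g := Poly.ev v (L.eqn j) with hg
  have hc : Commute f g := by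
    simp only [hg, Listing.eqn, map_add, map_pow, map_sum, map_mul, Poly.ev_X, ← hf]
    exact ((Commute.refl f).pow_right _).add_right (Commute.sum_right _ _ _ fun i _ =>
      ((commute_scalar_series (fun m => Cs m (L.b j + i)) f).symm).mul_right
        ((Commute.refl f).pow_right _))
  have h0 : PowerSeries.coeff 0 f = P.q L j := by
    rw [hf, Poly.coeff_zero_ev, SeriesPoint.cf_ser_zero X Cs hX hC]
    rfl
  have h1 : PowerSeries.coeff p (f * g) = P.q L j * PowerSeries.coeff p g := by
    rw [PowerSeries.coeff_mul, Finset.sum_eq_single (0, p), h0]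
    · rintro ⟨i, k⟩ hik hne
      replace hik : i + k = p := Finset.HasAntidiagonal.mem_antidiagonal.1 hik
      dsimp only
      rw [hlow k (by rcases Nat.eq_zero_or_pos i with rfl | hi
                     · exact absurd (show (0, k) = (0, p) by rw [← hik, zero_add]) hne
                     · omega), mul_zero]
    · intro h
      simp at h
  have h2 : PowerSeries.coeff p (g * f) = PowerSeries.coeff p g * P.q L j := by
    rw [PowerSeries.coeff_mul, Finset.sum_eq_single (p, 0), h0]
    · rintro ⟨i, k⟩ hik hne
      replace hik : i + k = p := Finset.HasAntidiagonal.mem_antidiagonal.1 hik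
      dsimp only
      rw [hlow i (by rcases Nat.eq_zero_or_pos k with rfl | hk
                     · exact absurd (show (i, 0) = (p, 0) by rw [← hik, add_zero]) hne
                     · omega), zero_mul]
    · intro h
      simp at h
  rw [hc.eq] at h1
  exact h1.symm.trans h2

end Deletion

end

end Vale.Agent.P199
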