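import Vale.Agent.P199.Deletion.StillRows
import Vale.Agent.P199.Inv.Child

/-!
P199, deletion: at a stage whose rows below inherit, a still row keeps the symbols and stays still on the solved arcs,
and on the admissible lift children.
-/

namespace Vale.Agent.P199

noncomputable section

namespace Inv

variable {L : Listing} {adm : ∀ {n : ℕ}, Stg L n → ℕ → Prop} {n : ℕ}

/-- On the children of a stage with a still next row the symbols keep their transcendence degree and the row is
still. -/
theorem still_of_kid {t : Stg L n} (ht : Core L n t) (hin : InheritKid L adm n) {v : Fin 5 → ℕ}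
    (hlb : LowerBound L (Core L n) t v) (h0 : t.rows.corank = v 0)
    (h1 : L.b n - Minimise.trdegSym (L.b n) t.P = v 1) (hv : v 2 = 1) (k : Kid t.P) (hk : k.Ok adm t) :
    Minimise.trdegSym (L.b n) k.pt = Minimise.trdegSym (L.b n) t.P ∧ ¬Moves L n k.pt := by
  obtain ⟨r, hr, -⟩ := hin t k ht hk
  exact still_of_edge hlb h0 h1 hv hr

/-- **Still rows are killed along arcs.** -/
theorem arcKill_of_still {m : ℕ} (s : Stg L m) (j : Fin m) (hcore : Core L j (s.restrict j j.2.le))
    (hin : InheritKid L adm j) {W : Submodule s.P.K s.P.D} {v : Fin 5 → ℕ}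
    (hlb : LowerBound L (Core L j) (s.restrict j j.2.le) v)
    (h0 : (s.restrict j j.2.le).rows.corank = v 0)
    (h1 : L.b j - Minimise.trdegSym (L.b j) s.P = v 1) (hd : Minimise.degRow L j s.P = L.e j)
    (hst : Still L (s.restrict j j.2.le) W v) (hpre : Minimise.ArcPre s.rows j) :
    Minimise.ArcKill s.rows j ∧ Minimise.StillKept (L := L) (P := s.P) j := by
  have hb := hcore.basic L
  have hkeep : Minimise.StillKept (L := L) (P := s.P) j := fun X Cs hX hC hsol =>
    still_of_kid (t := s.restrict j j.2.le) hcore hin hlb h0 h1 hst.still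
      (.arc (SeriesPoint.data X Cs hX hC)) hsol
  exact ⟨Minimise.arcKill_still s.rows j hb.tight hb.guarded hpre hd.ge hkeep, hkeep⟩

end Inv

end

end Vale.Agent.P199
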